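import Mathlib
import Vale.Agent.Lib.P302.helper26.C755.Base

/-!
# P302: chunks of the mask search of the 755-item instance (part 0)
-/

namespace Vale.Agent.Lib.P302.helper26.C755

open Vale.Agent.Lib.P302.helper14 Vale.Agent.Lib.P302.helper8 Vale.Agent.Lib.P302.helper9

theorem ok_p0_0 : stepOKDR rows prio cap p0_0 lay1
    [0, 2, 1] = true := by
  decide +kernel

theorem ok_p1_0 : stepOKDR rows prio cap p1_0 lay2
    [64, 65, 0, 64, 66, 128, 2, 128, 1] = true := by
  decide +kernel

theorem ok_p2_0 : stepOKDR rows prio cap p2_0 lay3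
    [0, 64, 65, 64, 2, 1, 130, 192, 192] = true := by
  decide +kernel

theorem ok_p2_1 : stepOKDR rows prio cap p2_1 lay3
    [64, 65, 66, 64, 128, 129, 130, 192] = true := by
  decide +kernel

theorem ok_p2_2 : stepOKDR rows prio cap p2_2 lay3
    [128, 192, 193] = true := by
  decide +kernel

theorem ok_p3_0 : stepOKDR rows prio cap p3_0 lay4
    [0, 1, 0, 2, 64, 64] = true := by
  decide +kernel

theorem ok_p3_1 : stepOKDR rows prio cap p3_1 lay4
    [65, 66, 128, 128, 128, 129, 0, 1, 130] = true := by
  decide +kernel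

theorem ok_p3_2 : stepOKDR rows prio cap p3_2 lay4
    [129, 128, 0, 129, 130, 192, 194, 194, 194, 256, 64, 2] = true := by
  decide +kernel

theorem ok_p3_3 : stepOKDR rows prio cap p3_3 lay4
    [129, 130, 193, 256, 256, 256, 64] = true := by
  decide +kernel

theorem ok_p4_0 : stepOKDR rows prio cap p4_0 lay5
    [0, 1, 0, 1, 1, 1, 2, 64] = true := by
  decide +kernel

theorem ok_p4_1 : stepOKDR rows prio cap p4_1 lay5
    [66, 1, 128, 128, 1, 1, 64, 65] = true := by
  decide +kernel

theorem ok_p4_2 : stepOKDR rows prio cap p4_2 lay5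
    [129, 130, 1, 130, 130, 130] = true := by
  decide +kernel

theorem ok_p4_3 : stepOKDR rows prio cap p4_3 lay5
    [66, 128, 129, 192, 193, 193, 194, 256, 257] = true := by
  decide +kernel

theorem ok_p4_4 : stepOKDR rows prio cap p4_4 lay5
    [130, 257, 65] = true := by
  decide +kernel

theorem ok_p5_0 : stepOKDR rows prio cap p5_0 lay6
    [0, 0, 2, 1, 2, 2, 64, 66, 65] = true := by
  decide +kernel

theorem ok_p5_1 : stepOKDR rows prio cap p5_1 lay6
    [130, 193, 192, 2, 64, 258, 66, 128, 129, 128, 128] = true := by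
  decide +kernel

theorem ok_p5_2 : stepOKDR rows prio cap p5_2 lay6
    [193, 193, 194, 257, 256, 257, 257, 64] = true := by
  decide +kernel

theorem ok_p5_3 : stepOKDR rows prio cap p5_3 lay6
    [130, 193, 194, 258, 321, 321, 320, 322, 384, 322, 322] = true := by
  decide +kernel

theorem ok_p5_4 : stepOKDR rows prio cap p5_4 lay6
    [257, 256, 128, 386, 386, 385] = true := by
  decide +kernel

theorem ok_p6_0 : stepOKDR rows prio cap p6_0 lay7
    [1, 1, 0, 0, 2, 64, 1] = true := by
  decide +kernel

theorem ok_p6_1 : stepOKDR rows prio cap p6_1 lay7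
    [130, 1, 0, 2, 2, 66, 128, 128] = true := by
  decide +kernel

theorem ok_p6_2 : stepOKDR rows prio cap p6_2 lay7
    [193, 192, 2, 64, 320, 66, 128, 129, 66] = true := by
  decide +kernel

theorem ok_p6_3 : stepOKDR rows prio cap p6_3 lay7
    [130, 193, 192, 194, 256, 193, 194, 194] = true := by
  decide +kernel

theorem ok_p6_4 : stepOKDR rows prio cap p6_4 lay7
    [130, 2, 258, 258, 257, 320, 65, 320] = true := by
  decide +kernel

theorem ok_p6_5 : stepOKDR rows prio cap p6_5 lay7
    [193, 192, 194, 320, 321, 321, 322, 322, 321] = true := by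
  decide +kernel

end Vale.Agent.Lib.P302.helper26.C755
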