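import Mathlib
import Vale.Agent.Lib.P302.helper26.C755.Base

/-!
# P302: chunks of the mask search of the 755-item instance (part 1)
-/

namespace Vale.Agent.Lib.P302.helper26.C755

open Vale.Agent.Lib.P302.helper14 Vale.Agent.Lib.P302.helper8 Vale.Agent.Lib.P302.helper9

theorem ok_p6_6 : stepOKDR rows prio cap p6_6 lay7
    [256, 258, 257, 322, 384, 129, 385] = true := by
  decide +kernel

theorem ok_p7_0 : stepOKDR rows prio cap p7_0 lay8
    [257, 2, 64, 65, 1] = true := by
  decide +kernel

theorem ok_p7_1 : stepOKDR rows prio cap p7_1 lay8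
    [0, 1, 64, 65, 128, 320, 129] = true := by
  decide +kernel

theorem ok_p7_2 : stepOKDR rows prio cap p7_2 lay8
    [130, 0, 65, 2, 322, 129, 322] = true := by
  decide +kernel

theorem ok_p7_3 : stepOKDR rows prio cap p7_3 lay8
    [193, 194, 65, 192, 257] = true := by
  decide +kernel

theorem ok_p7_4 : stepOKDR rows prio cap p7_4 lay8
    [194, 256, 65, 1] = true := by
  decide +kernel

theorem ok_p7_5 : stepOKDR rows prio cap p7_5 lay8
    [257, 192, 65, 258, 66, 321, 322, 320] = true := by
  decide +kernel

theorem ok_p7_6 : stepOKDR rows prio cap p7_6 lay8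
    [193, 1, 321, 322, 320] = true := by
  decide +kernel

theorem ok_p8_0 : stepOKDR rows prio cap p8_0 lay9
    [0, 129, 129, 0, 128, 129, 129] = true := by
  decide +kernel

theorem ok_p8_1 : stepOKDR rows prio cap p8_1 lay9
    [129, 129, 0, 192, 129, 2, 129, 64] = true := by
  decide +kernel

theorem ok_p8_2 : stepOKDR rows prio cap p8_2 lay9
    [129, 1, 1, 2, 65, 66] = true := by
  decide +kernel

theorem ok_p8_3 : stepOKDR rows prio cap p8_3 lay9
    [129, 129, 129, 128, 129, 129, 130, 129] = true := by
  decide +kernel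

theorem ok_p8_4 : stepOKDR rows prio cap p8_4 lay9
    [129, 129, 128, 0, 129, 192, 193] = true := by
  decide +kernel

theorem ok_p8_5 : stepOKDR rows prio cap p8_5 lay9
    [130, 129, 192, 256, 194, 257] = true := by
  decide +kernel

theorem ok_p9_0 : stepOKDR rows prio cap p9_0 lay10
    [0, 1, 2, 65, 0, 65, 2, 258] = true := by
  decide +kernel

theorem ok_p9_1 : stepOKDR rows prio cap p9_1 lay10
    [0, 1, 2, 128, 129, 130, 192] = true := by
  decide +kernel

theorem ok_p9_2 : stepOKDR rows prio cap p9_2 lay10
    [193, 256, 194, 193, 64, 256, 194, 258, 65] = true := by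
  decide +kernel

theorem ok_p9_3 : stepOKDR rows prio cap p9_3 lay10
    [193, 194, 257, 257, 66, 320, 321, 385] = true := by
  decide +kernel

theorem ok_p9_4 : stepOKDR rows prio cap p9_4 lay10
    [256, 257, 322, 384, 386, 448] = true := by
  decide +kernel

theorem ok_p10_0 : stepOKDR rows prio cap p10_0 lay11
    [2, 2, 1, 65, 66, 322, 128] = true := by
  decide +kernel

theorem ok_p10_1 : stepOKDR rows prio cap p10_1 lay11
    [0, 2, 64, 0, 129, 2, 64, 129, 129] = true := by
  decide +kernel

theorem ok_p10_2 : stepOKDR rows prio cap p10_2 lay11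
    [1, 65, 66, 130, 192, 193] = true := by
  decide +kernel

theorem ok_p10_3 : stepOKDR rows prio cap p10_3 lay11
    [256, 194, 0, 320, 2, 66, 193] = true := by
  decide +kernel

theorem ok_p10_4 : stepOKDR rows prio cap p10_4 lay11
    [257, 258, 321, 322, 384, 64, 322, 322, 129] = true := by
  decide +kernel

end Vale.Agent.Lib.P302.helper26.C755
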