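import Mathlib
import Vale.Agent.Lib.P302.helper26.C755.Base
import Vale.Agent.Lib.P302.helper26.C755.K1

/-!
# P302: chunks of the mask search of the 755-item instance (part 4)
-/

namespace Vale.Agent.Lib.P302.helper26.C755

open Vale.Agent.Lib.P302.helper14 Vale.Agent.Lib.P302.helper8 Vale.Agent.Lib.P302.helper9

theorem ok_p15_7 : stepOKDR rows prio cap p15_7 lay16
    [257, 256, 320, 64, 66, 321] = true := by
  decide +kernel

theorem ok_p15_8 : stepOKDR rows prio cap p15_8 lay16
    [320, 321, 130, 258, 193, 128] = true := by
  decide +kernel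

theorem ok_p15_9 : stepOKDR rows prio cap p15_9 lay16
    [257, 256, 258] = true := by
  decide +kernel

theorem ok_p15_10 : stepOKDR rows prio cap p15_10 lay16
    [321] = true := by
  decide +kernel

theorem ok_p16_0 : stepOKDR rows prio cap p16_0 lay17
    [64, 66, 192, 65] = true := by
  decide +kernel

theorem ok_p16_1 : stepOKDR rows prio cap p16_1 lay17
    [0, 1, 64, 130, 65, 65] = true := by
  decide +kernel

theorem ok_p16_2 : stepOKDR rows prio cap p16_2 lay17
    [130, 66, 1, 2, 64, 65] = true := by
  decide +kernel

theorem ok_p16_3 : stepOKDR rows prio cap p16_3 lay17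
    [64, 129, 128, 130] = true := by
  decide +kernel

theorem ok_p16_4 : stepOKDR rows prio cap p16_4 lay17
    [192, 0, 2] = true := by
  decide +kernel

theorem ok_p16_5 : stepOKDR rows prio cap p16_5 lay17
    [192, 64, 65] = true := by
  decide +kernel

theorem ok_p17_0 : stepOKDR rows prio cap p17_0 lay18
    [0, 1, 2, 64, 64, 65] = true := by
  decide +kernel

theorem ok_p17_1 : stepOKDR rows prio cap p17_1 lay18
    [192, 193, 129, 128, 66, 130] = true := by
  decide +kernel

theorem ok_p17_2 : stepOKDR rows prio cap p17_2 lay18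
    [194, 66, 66, 256, 66, 257] = true := by
  decide +kernel

theorem ok_p17_3 : stepOKDR rows prio cap p17_3 lay18
    [258, 64] = true := by
  decide +kernel

theorem ok_p18_0 : stepOKDR rows prio cap p18_0 lay19
    [0, 1, 2, 2, 64, 128] = true := by
  decide +kernel

theorem ok_p18_1 : stepOKDR rows prio cap p18_1 lay19
    [192, 65, 66, 129, 130, 192, 192, 193] = true := by
  decide +kernel

theorem ok_p18_2 : stepOKDR rows prio cap p18_2 lay19
    [256, 194, 258, 257, 320, 321, 192] = true := by
  decide +kernel

theorem ok_p18_3 : stepOKDR rows prio cap p18_3 lay19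
    [322, 384, 385, 386, 192, 448, 193] = true := by
  decide +kernel

theorem ok_p18_4 : stepOKDR rows prio cap p18_4 lay19
    [512, 2, 449, 450, 258, 384] = true := by
  decide +kernel

theorem ok_p19_0 : stepOKDR rows prio cap p19_0 lay20
    [192, 192, 193, 0, 1, 257, 192] = true := by
  decide +kernel

theorem ok_p19_1 : stepOKDR rows prio cap p19_1 lay20
    [193, 194, 256, 257, 258, 258, 193, 194, 256] = true := by
  decide +kernel

theorem ok_p19_2 : stepOKDR rows prio cap p19_2 lay20
    [192, 194, 256, 2, 320, 320, 64, 65] = true := by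
  decide +kernel

theorem ok_p19_3 : stepOKDR rows prio cap p19_3 lay20
    [320, 258, 320, 321, 322, 386, 129, 128] = true := by
  decide +kernel

theorem ok_p19_4 : stepOKDR rows prio cap p19_4 lay20
    [257, 66, 384, 384, 322, 257, 322] = true := by
  decide +kernel

theorem ok_p19_5 : stepOKDR rows prio cap p19_5 lay20
    [514, 448, 385, 385, 258, 385, 320, 130] = true := by
  decide +kernel

end Vale.Agent.Lib.P302.helper26.C755
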