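import Mathlib
import Vale.Agent.Lib.P302.helper26.C755.Base
import Vale.Agent.Lib.P302.helper26.C755.K4

/-!
# P302: chunks of the mask search of the 755-item instance (part 7)
-/

namespace Vale.Agent.Lib.P302.helper26.C755

open Vale.Agent.Lib.P302.helper14 Vale.Agent.Lib.P302.helper8 Vale.Agent.Lib.P302.helper9

theorem ok_p23_12 : stepOKDR rows prio cap p23_12 lay24
    [640, 578, 513, 834, 834, 640, 960, 834, 640] = true := by
  decide +kernel

theorem ok_p23_13 : stepOKDR rows prio cap p23_13 lay24
    [961, 64] = true := by
  decide +kernel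

theorem ok_p24_0 : stepOKDR rows prio cap p24_0 lay25
    [0, 0, 65, 128, 130, 192] = true := by
  decide +kernel

theorem ok_p24_1 : stepOKDR rows prio cap p24_1 lay25
    [129, 129, 130, 192, 130, 193] = true := by
  decide +kernel

theorem ok_p24_2 : stepOKDR rows prio cap p24_2 lay25
    [194, 256, 513, 256, 256, 450, 512] = true := by
  decide +kernel

theorem ok_p24_3 : stepOKDR rows prio cap p24_3 lay25
    [257, 129, 320, 384, 322, 384] = true := by
  decide +kernel

theorem ok_p24_4 : stepOKDR rows prio cap p24_4 lay25
    [129, 513, 320, 385, 256, 514] = true := by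
  decide +kernel

theorem ok_p24_5 : stepOKDR rows prio cap p24_5 lay25
    [448, 449, 513, 449, 449, 450, 512] = true := by
  decide +kernel

theorem ok_p24_6 : stepOKDR rows prio cap p24_6 lay25
    [1, 2, 450, 512, 513, 513, 449, 514] = true := by
  decide +kernel

theorem ok_p24_7 : stepOKDR rows prio cap p24_7 lay25
    [578, 449, 640, 258, 514, 513, 385] = true := by
  decide +kernel

theorem ok_p24_8 : stepOKDR rows prio cap p24_8 lay25
    [129, 640, 256, 705, 641, 320] = true := by
  decide +kernel

theorem ok_p24_9 : stepOKDR rows prio cap p24_9 lay25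
    [449, 705, 642, 704, 320, 640] = true := by
  decide +kernel

theorem ok_p24_10 : stepOKDR rows prio cap p24_10 lay25
    [576, 705, 513, 1, 2, 706, 706] = true := by
  decide +kernel

theorem ok_p24_11 : stepOKDR rows prio cap p24_11 lay25
    [64, 66, 769, 1, 2, 768, 769, 769, 769] = true := by
  decide +kernel

theorem ok_p24_12 : stepOKDR rows prio cap p24_12 lay25
    [0, 129, 194, 832, 258, 706] = true := by
  decide +kernel

theorem ok_p24_13 : stepOKDR rows prio cap p24_13 lay25
    [386, 321, 770, 770, 768, 769, 258, 769] = true := by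
  decide +kernel

theorem ok_p24_14 : stepOKDR rows prio cap p24_14 lay25
    [576, 706, 706, 448, 832, 513] = true := by
  decide +kernel

theorem ok_p24_15 : stepOKDR rows prio cap p24_15 lay25
    [833, 577, 130, 576, 769] = true := by
  decide +kernel

theorem ok_p25_0 : stepOKDR rows prio cap p25_0 lay26
    [0, 64, 65, 66, 66] = true := by
  decide +kernel

theorem ok_p25_1 : stepOKDR rows prio cap p25_1 lay26
    [1, 64, 65, 129, 578, 578] = true := by
  decide +kernel

theorem ok_p25_2 : stepOKDR rows prio cap p25_2 lay26
    [0, 2, 193, 129, 130] = true := by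
  decide +kernel

theorem ok_p25_3 : stepOKDR rows prio cap p25_3 lay26
    [128, 193, 129, 130, 194, 385] = true := by
  decide +kernel

theorem ok_p25_4 : stepOKDR rows prio cap p25_4 lay26
    [194, 386, 258, 256, 320, 66] = true := by
  decide +kernel

theorem ok_p25_5 : stepOKDR rows prio cap p25_5 lay26
    [193, 258, 257, 320, 321, 578] = true := by
  decide +kernel

end Vale.Agent.Lib.P302.helper26.C755
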