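import Mathlib
import Vale.Agent.Lib.P302.helper26.C755.Base
import Vale.Agent.Lib.P302.helper26.C755.K7

/-!
# P302: chunks of the mask search of the 755-item instance (part 10)
-/

namespace Vale.Agent.Lib.P302.helper26.C755

open Vale.Agent.Lib.P302.helper14 Vale.Agent.Lib.P302.helper8 Vale.Agent.Lib.P302.helper9

theorem ok_p30_1 : stepOKDR rows prio cap p30_1 lay31
    [1, 2, 130, 193, 193, 66, 128, 129] = true := by
  decide +kernel

theorem ok_p30_2 : stepOKDR rows prio cap p30_2 lay31
    [194, 194, 1, 2, 256, 130] = true := by
  decide +kernel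

theorem ok_p30_3 : stepOKDR rows prio cap p30_3 lay31
    [194, 256, 257, 193, 192, 386, 384] = true := by
  decide +kernel

theorem ok_p30_4 : stepOKDR rows prio cap p30_4 lay31
    [193, 258, 320, 448, 193, 322, 321, 385] = true := by
  decide +kernel

theorem ok_p30_5 : stepOKDR rows prio cap p30_5 lay31
    [194, 194, 258, 320, 256, 448] = true := by
  decide +kernel

theorem ok_p30_6 : stepOKDR rows prio cap p30_6 lay31
    [449, 193, 513, 450, 512, 256, 386] = true := by
  decide +kernel

theorem ok_p30_7 : stepOKDR rows prio cap p30_7 lay31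
    [194, 449, 256, 513, 513, 576] = true := by
  decide +kernel

theorem ok_p30_8 : stepOKDR rows prio cap p30_8 lay31
    [0, 256, 514, 386, 386, 577, 256] = true := by
  decide +kernel

theorem ok_p30_9 : stepOKDR rows prio cap p30_9 lay31
    [0, 0, 130, 578, 257, 257, 257, 257] = true := by
  decide +kernel

theorem ok_p31_0 : stepOKDR rows prio cap p31_0 lay32
    [0, 64, 64, 129, 130] = true := by
  decide +kernel

theorem ok_p31_1 : stepOKDR rows prio cap p31_1 lay32
    [1, 65, 66, 192, 194, 193, 129] = true := by
  decide +kernel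

theorem ok_p31_2 : stepOKDR rows prio cap p31_2 lay32
    [2, 128, 257, 192, 192, 194, 130] = true := by
  decide +kernel

theorem ok_p31_3 : stepOKDR rows prio cap p31_3 lay32
    [64, 257, 258, 194, 193, 256, 194] = true := by
  decide +kernel

theorem ok_p31_4 : stepOKDR rows prio cap p31_4 lay32
    [0, 64, 256, 257, 258, 385] = true := by
  decide +kernel

theorem ok_p31_5 : stepOKDR rows prio cap p31_5 lay32
    [194, 64, 386, 322, 448, 385] = true := by
  decide +kernel

theorem ok_p31_6 : stepOKDR rows prio cap p31_6 lay32
    [257, 320, 384, 321, 384, 194, 386] = true := by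
  decide +kernel

theorem ok_p31_7 : stepOKDR rows prio cap p31_7 lay32
    [64, 512, 450, 513, 257, 448] = true := by
  decide +kernel

theorem ok_p31_8 : stepOKDR rows prio cap p31_8 lay32
    [449, 257, 194, 513, 512, 514, 384] = true := by
  decide +kernel

theorem ok_p31_9 : stepOKDR rows prio cap p31_9 lay32
    [578, 192, 576, 577, 384, 513] = true := by
  decide +kernel

theorem ok_p32_0 : stepOKDR rows prio cap p32_0 lay33
    [0, 0, 65, 65, 66, 128] = true := by
  decide +kernel

theorem ok_p32_1 : stepOKDR rows prio cap p32_1 lay33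
    [1, 2, 129, 130, 65, 194, 256] = true := by
  decide +kernel

theorem ok_p32_2 : stepOKDR rows prio cap p32_2 lay33
    [64, 194, 192, 193, 320, 320] = true := by
  decide +kernel

theorem ok_p32_3 : stepOKDR rows prio cap p32_3 lay33
    [194, 256, 257, 257, 258, 320] = true := by
  decide +kernel

end Vale.Agent.Lib.P302.helper26.C755
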