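import Mathlib
import Vale.Agent.Lib.P302.helper26.C755.Base

/-!
# P302: chunks of the mask search of the 755-item instance (part 2)
-/

namespace Vale.Agent.Lib.P302.helper26.C755

open Vale.Agent.Lib.P302.helper14 Vale.Agent.Lib.P302.helper8 Vale.Agent.Lib.P302.helper9

theorem ok_p10_5 : stepOKDR rows prio cap p10_5 lay11
    [194, 257, 256, 385, 448, 386] = true := by
  decide +kernel

theorem ok_p10_6 : stepOKDR rows prio cap p10_6 lay11
    [258, 257, 256, 448, 386, 449] = true := by
  decide +kernel

theorem ok_p10_7 : stepOKDR rows prio cap p10_7 lay11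
    [258, 449] = true := by
  decide +kernel

theorem ok_p11_0 : stepOKDR rows prio cap p11_0 lay12
    [65, 66, 0, 0, 0, 1, 2, 2, 2, 65, 1, 1] = true := by
  decide +kernel

theorem ok_p11_1 : stepOKDR rows prio cap p11_1 lay12
    [1, 64, 65, 64, 64, 129, 129, 322, 130, 130, 130] = true := by
  decide +kernel

theorem ok_p11_2 : stepOKDR rows prio cap p11_2 lay12
    [2, 130, 385, 130, 130, 65, 65, 192, 65, 193] = true := by
  decide +kernel

theorem ok_p11_3 : stepOKDR rows prio cap p11_3 lay12
    [258, 258, 0, 258, 129, 130, 194, 256, 257] = true := by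
  decide +kernel

theorem ok_p11_4 : stepOKDR rows prio cap p11_4 lay12
    [321, 320, 322, 1, 321, 320, 321, 320, 384, 64, 384, 384] = true := by
  decide +kernel

theorem ok_p11_5 : stepOKDR rows prio cap p11_5 lay12
    [321, 320, 322, 65, 321, 320, 385, 66, 321, 320, 322, 322] = true := by
  decide +kernel

theorem ok_p11_6 : stepOKDR rows prio cap p11_6 lay12
    [258, 320, 384, 384, 128, 384, 449, 386, 450] = true := by
  decide +kernel

theorem ok_p11_7 : stepOKDR rows prio cap p11_7 lay12
    [321, 384, 448, 512, 513, 514] = true := by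
  decide +kernel

theorem ok_p12_0 : stepOKDR rows prio cap p12_0 lay13
    [0, 66, 2, 1, 2, 2, 1, 64] = true := by
  decide +kernel

theorem ok_p12_1 : stepOKDR rows prio cap p12_1 lay13
    [0, 0, 2, 65, 65, 66, 128, 0, 2] = true := by
  decide +kernel

theorem ok_p12_2 : stepOKDR rows prio cap p12_2 lay13
    [2, 65, 66, 65, 129, 385, 130, 192] = true := by
  decide +kernel

theorem ok_p12_3 : stepOKDR rows prio cap p12_3 lay13
    [64, 129, 128, 128, 193, 194] = true := by
  decide +kernel

theorem ok_p12_4 : stepOKDR rows prio cap p12_4 lay13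
    [321, 1, 130, 192, 256, 256, 257] = true := by
  decide +kernel

theorem ok_p12_5 : stepOKDR rows prio cap p12_5 lay13
    [0, 320, 258, 385, 385, 384, 322, 385, 2] = true := by
  decide +kernel

theorem ok_p12_6 : stepOKDR rows prio cap p12_6 lay13
    [258, 385, 386, 448, 65, 66, 385, 449] = true := by
  decide +kernel

theorem ok_p12_7 : stepOKDR rows prio cap p12_7 lay13
    [321, 320, 322, 512, 449, 450, 513] = true := by
  decide +kernel

theorem ok_p12_8 : stepOKDR rows prio cap p12_8 lay13
    [384, 386, 448, 450, 514, 576, 576, 577] = true := by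
  decide +kernel

theorem ok_p13_0 : stepOKDR rows prio cap p13_0 lay14
    [1, 64, 128, 66, 130, 130] = true := by
  decide +kernel

theorem ok_p13_1 : stepOKDR rows prio cap p13_1 lay14
    [1, 129, 130, 192, 193, 256] = true := by
  decide +kernel

theorem ok_p13_2 : stepOKDR rows prio cap p13_2 lay14
    [2, 129, 0, 130, 257] = true := by
  decide +kernel

theorem ok_p13_3 : stepOKDR rows prio cap p13_3 lay14
    [192, 0, 512, 257, 258, 322, 322, 320] = true := by
  decide +kernel

end Vale.Agent.Lib.P302.helper26.C755
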