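import Mathlib
import Vale.Agent.Lib.P302.helper26.C755.Base
import Vale.Agent.Lib.P302.helper26.C755.K2

/-!
# P302: chunks of the mask search of the 755-item instance (part 5)
-/

namespace Vale.Agent.Lib.P302.helper26.C755

open Vale.Agent.Lib.P302.helper14 Vale.Agent.Lib.P302.helper8 Vale.Agent.Lib.P302.helper9

theorem ok_p19_6 : stepOKDR rows prio cap p19_6 lay20
    [514, 576, 576, 257, 258, 514, 576, 320, 449] = true := by
  decide +kernel

theorem ok_p19_7 : stepOKDR rows prio cap p19_7 lay20
    [384, 512, 450, 513, 384, 514] = true := by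
  decide +kernel

theorem ok_p19_8 : stepOKDR rows prio cap p19_8 lay20
    [192, 577] = true := by
  decide +kernel

theorem ok_p20_0 : stepOKDR rows prio cap p20_0 lay21
    [1, 2, 64, 194, 194, 256] = true := by
  decide +kernel

theorem ok_p20_1 : stepOKDR rows prio cap p20_1 lay21
    [65, 66, 128, 128, 129, 130] = true := by
  decide +kernel

theorem ok_p20_2 : stepOKDR rows prio cap p20_2 lay21
    [128, 192, 386, 449, 193, 128] = true := by
  decide +kernel

theorem ok_p20_3 : stepOKDR rows prio cap p20_3 lay21
    [194, 256, 257, 321, 321, 322, 65] = true := by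
  decide +kernel

theorem ok_p20_4 : stepOKDR rows prio cap p20_4 lay21
    [0, 258, 321, 322, 322, 66, 321, 384, 322] = true := by
  decide +kernel

theorem ok_p20_5 : stepOKDR rows prio cap p20_5 lay21
    [320, 322, 384, 385, 385, 128, 385, 386, 321] = true := by
  decide +kernel

theorem ok_p20_6 : stepOKDR rows prio cap p20_6 lay21
    [321, 322, 129, 449, 448, 322, 193] = true := by
  decide +kernel

theorem ok_p20_7 : stepOKDR rows prio cap p20_7 lay21
    [450, 577, 512, 128, 577, 513] = true := by
  decide +kernel

theorem ok_p20_8 : stepOKDR rows prio cap p20_8 lay21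
    [577, 321, 129, 129, 514, 576] = true := by
  decide +kernel

theorem ok_p20_9 : stepOKDR rows prio cap p20_9 lay21
    [640, 578, 194, 322, 512] = true := by
  decide +kernel

theorem ok_p21_0 : stepOKDR rows prio cap p21_0 lay22
    [0, 0, 0, 2, 64, 65, 66] = true := by
  decide +kernel

theorem ok_p21_1 : stepOKDR rows prio cap p21_1 lay22
    [2, 128, 129, 129, 130, 386, 192, 449] = true := by
  decide +kernel

theorem ok_p21_2 : stepOKDR rows prio cap p21_2 lay22
    [322, 129, 193, 129, 129, 194, 194, 194, 320] = true := by
  decide +kernel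

theorem ok_p21_3 : stepOKDR rows prio cap p21_3 lay22
    [322, 2, 2, 2, 256, 258, 129, 321, 576] = true := by
  decide +kernel

theorem ok_p21_4 : stepOKDR rows prio cap p21_4 lay22
    [322, 384, 384, 64, 64, 64, 385, 386, 448, 449] = true := by
  decide +kernel

theorem ok_p21_5 : stepOKDR rows prio cap p21_5 lay22
    [0, 384, 450, 129, 129, 322, 322, 322, 512, 129, 129] = true := by
  decide +kernel

theorem ok_p21_6 : stepOKDR rows prio cap p21_6 lay22
    [512, 512, 512, 512, 512, 322, 256, 256, 256] = true := by
  decide +kernel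

theorem ok_p21_7 : stepOKDR rows prio cap p21_7 lay22
    [384, 577, 578, 384, 514, 513, 257, 576] = true := by
  decide +kernel

theorem ok_p21_8 : stepOKDR rows prio cap p21_8 lay22
    [1, 129, 640, 705, 194, 577, 641] = true := by
  decide +kernel

theorem ok_p21_9 : stepOKDR rows prio cap p21_9 lay22
    [322, 577, 384, 577, 577, 704, 705, 194, 642] = true := by
  decide +kernel

theorem ok_p21_10 : stepOKDR rows prio cap p21_10 lay22
    [2, 706] = true := by
  decide +kernel

theorem ok_p22_0 : stepOKDR rows prio cap p22_0 lay23
    [0, 0, 386, 64, 192, 193] = true := by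
  decide +kernel

end Vale.Agent.Lib.P302.helper26.C755
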