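import Mathlib
import Vale.Agent.Lib.P302.helper26.C755.Base
import Vale.Agent.Lib.P302.helper26.C755.K5

/-!
# P302: chunks of the mask search of the 755-item instance (part 8)
-/

namespace Vale.Agent.Lib.P302.helper26.C755

open Vale.Agent.Lib.P302.helper14 Vale.Agent.Lib.P302.helper8 Vale.Agent.Lib.P302.helper9

theorem ok_p25_6 : stepOKDR rows prio cap p25_6 lay26
    [640, 386, 578, 258, 193, 321] = true := by
  decide +kernel

theorem ok_p25_7 : stepOKDR rows prio cap p25_7 lay26
    [64, 384, 385, 386] = true := by
  decide +kernel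

theorem ok_p25_8 : stepOKDR rows prio cap p25_8 lay26
    [65, 66, 385, 386, 386, 320, 386] = true := by
  decide +kernel

theorem ok_p25_9 : stepOKDR rows prio cap p25_9 lay26
    [448, 449, 449, 66, 578, 450] = true := by
  decide +kernel

theorem ok_p25_10 : stepOKDR rows prio cap p25_10 lay26
    [193, 450, 258, 450, 512, 513] = true := by
  decide +kernel

theorem ok_p25_11 : stepOKDR rows prio cap p25_11 lay26
    [449, 66, 386, 258, 514, 576] = true := by
  decide +kernel

theorem ok_p25_12 : stepOKDR rows prio cap p25_12 lay26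
    [322, 577, 192, 640, 577, 577, 578] = true := by
  decide +kernel

theorem ok_p25_13 : stepOKDR rows prio cap p25_13 lay26
    [641, 385, 129, 576] = true := by
  decide +kernel

theorem ok_p26_0 : stepOKDR rows prio cap p26_0 lay27
    [0, 0, 0, 1, 2, 64, 65] = true := by
  decide +kernel

theorem ok_p26_1 : stepOKDR rows prio cap p26_1 lay27
    [66, 128, 128, 129, 130, 128] = true := by
  decide +kernel

theorem ok_p26_2 : stepOKDR rows prio cap p26_2 lay27
    [1, 2, 1, 192, 193, 193, 1, 2] = true := by
  decide +kernel

theorem ok_p26_3 : stepOKDR rows prio cap p26_3 lay27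
    [0, 0, 128, 128, 66, 128, 193, 194, 128, 66] = true := by
  decide +kernel

theorem ok_p26_4 : stepOKDR rows prio cap p26_4 lay27
    [128, 256, 257, 258, 320, 321] = true := by
  decide +kernel

theorem ok_p26_5 : stepOKDR rows prio cap p26_5 lay27
    [0, 66, 258, 66, 128, 322, 193, 258] = true := by
  decide +kernel

theorem ok_p26_6 : stepOKDR rows prio cap p26_6 lay27
    [0, 0, 66, 128, 66, 66, 384, 66, 128] = true := by
  decide +kernel

theorem ok_p26_7 : stepOKDR rows prio cap p26_7 lay27
    [385, 385, 128, 386, 448, 193, 385] = true := by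
  decide +kernel

theorem ok_p26_8 : stepOKDR rows prio cap p26_8 lay27
    [449, 450, 512, 257, 257, 385] = true := by
  decide +kernel

theorem ok_p26_9 : stepOKDR rows prio cap p26_9 lay27
    [0, 0, 66, 128, 66, 513, 66, 128] = true := by
  decide +kernel

theorem ok_p26_10 : stepOKDR rows prio cap p26_10 lay27
    [0, 1, 514, 66, 66] = true := by
  decide +kernel

theorem ok_p27_0 : stepOKDR rows prio cap p27_0 lay28
    [320, 320, 0, 257, 258, 256, 256, 257, 258] = true := by
  decide +kernel

theorem ok_p27_1 : stepOKDR rows prio cap p27_1 lay28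
    [320, 320, 129, 130, 320, 257, 258] = true := by
  decide +kernel

theorem ok_p27_2 : stepOKDR rows prio cap p27_2 lay28
    [321, 1, 2, 192, 193, 320, 321, 321, 321] = true := by
  decide +kernel

theorem ok_p27_3 : stepOKDR rows prio cap p27_3 lay28
    [0, 320, 256, 320, 194, 257, 256, 320] = true := by
  decide +kernel

theorem ok_p27_4 : stepOKDR rows prio cap p27_4 lay28
    [449, 256, 322, 384, 256, 322, 449] = true := by
  decide +kernel

end Vale.Agent.Lib.P302.helper26.C755
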