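import Mathlib
import Vale.Agent.Lib.P302.helper26.C755.Base
import Vale.Agent.Lib.P302.helper26.C755.K8

/-!
# P302: chunks of the mask search of the 755-item instance (part 11)
-/

namespace Vale.Agent.Lib.P302.helper26.C755

open Vale.Agent.Lib.P302.helper14 Vale.Agent.Lib.P302.helper8 Vale.Agent.Lib.P302.helper9

theorem ok_p32_4 : stepOKDR rows prio cap p32_4 lay33
    [0, 0, 0, 129, 257, 258, 129, 258] = true := by
  decide +kernel

theorem ok_p32_5 : stepOKDR rows prio cap p32_5 lay33
    [322, 321, 65, 322, 384, 386] = true := by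
  decide +kernel

theorem ok_p32_6 : stepOKDR rows prio cap p32_6 lay33
    [257, 320, 384, 384, 385, 320] = true := by
  decide +kernel

theorem ok_p32_7 : stepOKDR rows prio cap p32_7 lay33
    [448, 65, 449, 512, 386, 257] = true := by
  decide +kernel

theorem ok_p32_8 : stepOKDR rows prio cap p32_8 lay33
    [512, 450, 257, 320, 384] = true := by
  decide +kernel

theorem ok_p32_9 : stepOKDR rows prio cap p32_9 lay33
    [513, 194, 449, 449, 384, 512] = true := by
  decide +kernel

theorem ok_p33_0 : stepOKDR rows prio cap p33_0 lay34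
    [0, 1, 64] = true := by
  decide +kernel

theorem ok_p33_1 : stepOKDR rows prio cap p33_1 lay34
    [1, 2, 66, 2] = true := by
  decide +kernel

theorem ok_p33_2 : stepOKDR rows prio cap p33_2 lay34
    [0, 65, 66, 66, 2, 2] = true := by
  decide +kernel

theorem ok_p33_3 : stepOKDR rows prio cap p33_3 lay34
    [1, 129, 128, 128] = true := by
  decide +kernel

theorem ok_p33_4 : stepOKDR rows prio cap p33_4 lay34
    [0, 0, 64, 129, 129, 130] = true := by
  decide +kernel

theorem ok_p33_5 : stepOKDR rows prio cap p33_5 lay34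
    [128, 130, 192, 2] = true := by
  decide +kernel

theorem ok_p33_6 : stepOKDR rows prio cap p33_6 lay34
    [128, 192, 129, 128] = true := by
  decide +kernel

theorem ok_p33_7 : stepOKDR rows prio cap p33_7 lay34
    [193, 2, 128] = true := by
  decide +kernel

theorem ok_p33_8 : stepOKDR rows prio cap p33_8 lay34
    [1, 193, 129] = true := by
  decide +kernel

theorem ok_p34_0 : stepOKDR rows prio cap p34_0 lay35
    [0, 1, 2] = true := by
  decide +kernel

theorem ok_p34_1 : stepOKDR rows prio cap p34_1 lay35
    [1, 3, 2, 64] = true := by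
  decide +kernel

theorem ok_p34_2 : stepOKDR rows prio cap p34_2 lay35
    [0, 0, 1, 65] = true := by
  decide +kernel

theorem ok_p34_3 : stepOKDR rows prio cap p34_3 lay35
    [1, 1] = true := by
  decide +kernel

theorem ok_p35_0 : stepOKDR rows1 prio1 cap p35_0 lay36
    [0, 2, 1, 65, 66, 66, 66, 66] = true := by
  decide +kernel

theorem ok_p35_1 : stepOKDR rows1 prio1 cap p35_1 lay36
    [3, 64, 66, 66] = true := by
  decide +kernel

theorem ok_p36_0 : stepOKDR rows1 prio1 cap p36_0 lay37
    [1, 3, 2, 64, 66, 129, 67, 128, 128, 128, 130, 128] = true := by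
  decide +kernel

theorem ok_p36_1 : stepOKDR rows1 prio1 cap p36_1 lay37
    [65, 0, 192, 131, 128, 128, 193, 194, 195] = true := by
  decide +kernel

theorem ok_p37_0 : stepOKDR rows1 prio1 cap p37_0 lay38
    [3, 66, 64, 3, 66, 64, 65, 65, 0, 65, 1, 2] = true := by
  decide +kernel

end Vale.Agent.Lib.P302.helper26.C755
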