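import Mathlib
import Vale.Agent.Lib.P302.helper26.C755.Base
import Vale.Agent.Lib.P302.helper26.C755.K0

/-!
# P302: chunks of the mask search of the 755-item instance (part 3)
-/

namespace Vale.Agent.Lib.P302.helper26.C755

open Vale.Agent.Lib.P302.helper14 Vale.Agent.Lib.P302.helper8 Vale.Agent.Lib.P302.helper9

theorem ok_p13_4 : stepOKDR rows prio cap p13_4 lay14
    [448, 130, 129, 257, 578, 385, 385] = true := by
  decide +kernel

theorem ok_p13_5 : stepOKDR rows prio cap p13_5 lay14
    [386, 65, 448, 449, 130, 129] = true := by
  decide +kernel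

theorem ok_p13_6 : stepOKDR rows prio cap p13_6 lay14
    [449, 450, 512, 130, 513, 130] = true := by
  decide +kernel

theorem ok_p13_7 : stepOKDR rows prio cap p13_7 lay14
    [129, 129, 513, 194, 577, 576] = true := by
  decide +kernel

theorem ok_p13_8 : stepOKDR rows prio cap p13_8 lay14
    [386, 449, 448, 577, 514, 576, 321, 578, 322] = true := by
  decide +kernel

theorem ok_p13_9 : stepOKDR rows prio cap p13_9 lay14
    [129, 513, 640, 640, 384] = true := by
  decide +kernel

theorem ok_p14_0 : stepOKDR rows prio cap p14_0 lay15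
    [193, 194, 1, 193, 192, 193, 194, 194, 194, 257] = true := by
  decide +kernel

theorem ok_p14_1 : stepOKDR rows prio cap p14_1 lay15
    [194, 128, 257, 194, 193, 194, 194, 257, 2, 258] = true := by
  decide +kernel

theorem ok_p14_2 : stepOKDR rows prio cap p14_2 lay15
    [129, 258, 193, 194, 256, 64, 258, 258] = true := by
  decide +kernel

theorem ok_p14_3 : stepOKDR rows prio cap p14_3 lay15
    [0, 320, 130, 193, 257, 258, 320, 65] = true := by
  decide +kernel

theorem ok_p14_4 : stepOKDR rows prio cap p14_4 lay15
    [194, 1, 194, 194, 194, 514, 66] = true := by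
  decide +kernel

theorem ok_p14_5 : stepOKDR rows prio cap p14_5 lay15
    [128, 129, 0, 384, 322, 384] = true := by
  decide +kernel

theorem ok_p14_6 : stepOKDR rows prio cap p14_6 lay15
    [386, 256, 130, 66, 321, 385] = true := by
  decide +kernel

theorem ok_p14_7 : stepOKDR rows prio cap p14_7 lay15
    [514, 193, 514, 449, 448, 514, 257] = true := by
  decide +kernel

theorem ok_p14_8 : stepOKDR rows prio cap p14_8 lay15
    [513, 386, 450, 258, 512, 320, 384] = true := by
  decide +kernel

theorem ok_p14_9 : stepOKDR rows prio cap p14_9 lay15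
    [449, 448, 513, 577, 576, 640] = true := by
  decide +kernel

theorem ok_p14_10 : stepOKDR rows prio cap p14_10 lay15
    [512, 578] = true := by
  decide +kernel

theorem ok_p15_0 : stepOKDR rows prio cap p15_0 lay16
    [64, 64, 65, 66, 2] = true := by
  decide +kernel

theorem ok_p15_1 : stepOKDR rows prio cap p15_1 lay16
    [1, 66, 66, 65, 129, 320] = true := by
  decide +kernel

theorem ok_p15_2 : stepOKDR rows prio cap p15_2 lay16
    [2, 130, 65, 130, 130, 129] = true := by
  decide +kernel

theorem ok_p15_3 : stepOKDR rows prio cap p15_3 lay16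
    [193, 192, 194, 192, 193, 192, 192, 194] = true := by
  decide +kernel

theorem ok_p15_4 : stepOKDR rows prio cap p15_4 lay16
    [0, 64, 130, 193, 193, 194, 130] = true := by
  decide +kernel

theorem ok_p15_5 : stepOKDR rows prio cap p15_5 lay16
    [128, 1, 193, 2] = true := by
  decide +kernel

theorem ok_p15_6 : stepOKDR rows prio cap p15_6 lay16
    [0, 65, 65, 129] = true := by
  decide +kernel

end Vale.Agent.Lib.P302.helper26.C755
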