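import Mathlib
import Vale.Agent.Lib.P302.helper26.C755.Base
import Vale.Agent.Lib.P302.helper26.C755.K3

/-!
# P302: chunks of the mask search of the 755-item instance (part 6)
-/

namespace Vale.Agent.Lib.P302.helper26.C755

open Vale.Agent.Lib.P302.helper14 Vale.Agent.Lib.P302.helper8 Vale.Agent.Lib.P302.helper9

theorem ok_p22_1 : stepOKDR rows prio cap p22_1 lay23
    [192, 193, 194, 194, 129, 130] = true := by
  decide +kernel

theorem ok_p22_2 : stepOKDR rows prio cap p22_2 lay23
    [193, 256, 320, 321, 321, 576, 257, 577] = true := by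
  decide +kernel

theorem ok_p22_3 : stepOKDR rows prio cap p22_3 lay23
    [192, 320, 321, 258, 578, 320, 386] = true := by
  decide +kernel

theorem ok_p22_4 : stepOKDR rows prio cap p22_4 lay23
    [576, 192, 385, 385, 384, 448] = true := by
  decide +kernel

theorem ok_p22_5 : stepOKDR rows prio cap p22_5 lay23
    [0, 1, 192, 192, 386, 321, 449, 642] = true := by
  decide +kernel

theorem ok_p22_6 : stepOKDR rows prio cap p22_6 lay23
    [66, 513, 514, 514, 576, 450, 577, 577] = true := by
  decide +kernel

theorem ok_p22_7 : stepOKDR rows prio cap p22_7 lay23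
    [128, 513, 514, 576, 512, 578, 578, 320] = true := by
  decide +kernel

theorem ok_p22_8 : stepOKDR rows prio cap p22_8 lay23
    [514, 320, 320, 514, 641, 640, 448, 642] = true := by
  decide +kernel

theorem ok_p22_9 : stepOKDR rows prio cap p22_9 lay23
    [192, 706, 706, 705, 322, 576, 642] = true := by
  decide +kernel

theorem ok_p22_10 : stepOKDR rows prio cap p22_10 lay23
    [2, 65, 321, 768, 770, 386, 706] = true := by
  decide +kernel

theorem ok_p22_11 : stepOKDR rows prio cap p22_11 lay23
    [704, 193, 514, 576, 832, 769, 770, 770] = true := by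
  decide +kernel

theorem ok_p23_0 : stepOKDR rows prio cap p23_0 lay24
    [0, 0, 192, 576, 256, 512] = true := by
  decide +kernel

theorem ok_p23_1 : stepOKDR rows prio cap p23_1 lay24
    [514, 577, 256, 256, 704, 641] = true := by
  decide +kernel

theorem ok_p23_2 : stepOKDR rows prio cap p23_2 lay24
    [1, 2, 704, 642, 64, 65] = true := by
  decide +kernel

theorem ok_p23_3 : stepOKDR rows prio cap p23_3 lay24
    [0, 64, 65, 768, 768, 768] = true := by
  decide +kernel

theorem ok_p23_4 : stepOKDR rows prio cap p23_4 lay24
    [66, 128, 129, 64, 834, 834, 384, 385] = true := by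
  decide +kernel

theorem ok_p23_5 : stepOKDR rows prio cap p23_5 lay24
    [130, 769, 769, 833, 834, 704, 770] = true := by
  decide +kernel

theorem ok_p23_6 : stepOKDR rows prio cap p23_6 lay24
    [256, 194, 193, 768, 768, 194] = true := by
  decide +kernel

theorem ok_p23_7 : stepOKDR rows prio cap p23_7 lay24
    [320, 257, 258, 834, 834, 384, 834, 449] = true := by
  decide +kernel

theorem ok_p23_8 : stepOKDR rows prio cap p23_8 lay24
    [322, 321, 896, 896, 833, 834, 834, 385] = true := by
  decide +kernel

theorem ok_p23_9 : stepOKDR rows prio cap p23_9 lay24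
    [384, 385, 833, 834, 834, 897, 704, 705, 706] = true := by
  decide +kernel

theorem ok_p23_10 : stepOKDR rows prio cap p23_10 lay24
    [448, 449, 386, 834, 834, 834, 257, 449, 832] = true := by
  decide +kernel

theorem ok_p23_11 : stepOKDR rows prio cap p23_11 lay24
    [512, 450, 704, 898, 768, 512] = true := by
  decide +kernel

end Vale.Agent.Lib.P302.helper26.C755
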