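import Mathlib
import Vale.Agent.Lib.P302.helper26.C755.Base
import Vale.Agent.Lib.P302.helper26.C755.K6

/-!
# P302: chunks of the mask search of the 755-item instance (part 9)
-/

namespace Vale.Agent.Lib.P302.helper26.C755

open Vale.Agent.Lib.P302.helper14 Vale.Agent.Lib.P302.helper8 Vale.Agent.Lib.P302.helper9

theorem ok_p27_5 : stepOKDR rows prio cap p27_5 lay28
    [64, 65, 321, 385, 386, 448, 449, 321] = true := by
  decide +kernel

theorem ok_p27_6 : stepOKDR rows prio cap p27_6 lay28
    [320, 320, 513, 450, 256, 513, 513, 320] = true := by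
  decide +kernel

theorem ok_p27_7 : stepOKDR rows prio cap p27_7 lay28
    [66, 128, 512, 321, 322, 513, 514] = true := by
  decide +kernel

theorem ok_p27_8 : stepOKDR rows prio cap p27_8 lay28
    [320, 577, 257, 322, 576, 320, 320] = true := by
  decide +kernel

theorem ok_p28_0 : stepOKDR rows prio cap p28_0 lay29
    [0, 0, 0, 64, 65, 386, 386] = true := by
  decide +kernel

theorem ok_p28_1 : stepOKDR rows prio cap p28_1 lay29
    [194, 386, 386, 128, 192, 386] = true := by
  decide +kernel

theorem ok_p28_2 : stepOKDR rows prio cap p28_2 lay29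
    [1, 2, 128, 256, 320, 321] = true := by
  decide +kernel

theorem ok_p28_3 : stepOKDR rows prio cap p28_3 lay29
    [64, 65, 66, 320, 386, 386] = true := by
  decide +kernel

theorem ok_p28_4 : stepOKDR rows prio cap p28_4 lay29
    [0, 384, 320, 321, 384, 384, 384] = true := by
  decide +kernel

theorem ok_p28_5 : stepOKDR rows prio cap p28_5 lay29
    [0, 384, 385, 322, 385, 385, 386, 448] = true := by
  decide +kernel

theorem ok_p28_6 : stepOKDR rows prio cap p28_6 lay29
    [130, 129, 128, 386, 448, 449] = true := by
  decide +kernel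

theorem ok_p28_7 : stepOKDR rows prio cap p28_7 lay29
    [193, 192, 450, 449, 386, 384] = true := by
  decide +kernel

theorem ok_p28_8 : stepOKDR rows prio cap p28_8 lay29
    [194, 257, 450, 386, 384, 450] = true := by
  decide +kernel

theorem ok_p28_9 : stepOKDR rows prio cap p28_9 lay29
    [512, 258, 320, 448] = true := by
  decide +kernel

theorem ok_p29_0 : stepOKDR rows prio cap p29_0 lay30
    [0, 0, 0, 1, 2, 130, 192] = true := by
  decide +kernel

theorem ok_p29_1 : stepOKDR rows prio cap p29_1 lay30
    [64, 65, 66, 128, 129, 130, 193, 193] = true := by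
  decide +kernel

theorem ok_p29_2 : stepOKDR rows prio cap p29_2 lay30
    [193, 194, 257, 256, 320, 384, 322] = true := by
  decide +kernel

theorem ok_p29_3 : stepOKDR rows prio cap p29_3 lay30
    [385, 386, 448, 193, 449, 258, 321, 193] = true := by
  decide +kernel

theorem ok_p29_4 : stepOKDR rows prio cap p29_4 lay30
    [512, 450, 513, 384, 384, 449] = true := by
  decide +kernel

theorem ok_p29_5 : stepOKDR rows prio cap p29_5 lay30
    [130, 192, 193, 130, 192, 193, 130, 193, 192, 514, 514, 576] = true := by
  decide +kernel

theorem ok_p29_6 : stepOKDR rows prio cap p29_6 lay30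
    [0, 0, 514, 577, 193, 514, 193, 514, 577, 193, 577, 577] = true := by
  decide +kernel

theorem ok_p29_7 : stepOKDR rows prio cap p29_7 lay30
    [449, 384, 322, 449, 449, 514, 514, 384, 322, 322, 514] = true := by
  decide +kernel

theorem ok_p29_8 : stepOKDR rows prio cap p29_8 lay30
    [578, 130] = true := by
  decide +kernel

theorem ok_p30_0 : stepOKDR rows prio cap p30_0 lay31
    [0, 0, 130, 192, 64, 65] = true := by
  decide +kernel

end Vale.Agent.Lib.P302.helper26.C755
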