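import Mathlib
import Vale.Agent.Lib.P302.helper26.C755.Base
import Vale.Agent.Lib.P302.helper26.C755.K9

/-!
# P302: chunks of the mask search of the 755-item instance (part 12)
-/

namespace Vale.Agent.Lib.P302.helper26.C755

open Vale.Agent.Lib.P302.helper14 Vale.Agent.Lib.P302.helper8 Vale.Agent.Lib.P302.helper9

theorem ok_p37_1 : stepOKDR rows1 prio1 cap p37_1 lay38
    [3, 64, 67, 67, 65, 128, 128, 65, 130, 131, 130, 192] = true := by
  decide +kernel

theorem ok_p37_2 : stepOKDR rows1 prio1 cap p37_2 lay38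
    [66, 65, 67, 128, 130, 194, 193, 130, 130, 195, 130, 256] = true := by
  decide +kernel

theorem ok_p37_3 : stepOKDR rows1 prio1 cap p37_3 lay38
    [0, 129, 1, 2, 130, 257, 258, 258, 259, 320, 321, 322, 321] = true := by
  decide +kernel

theorem ok_p38_0 : stepOKDR rows1 prio1 cap p38_0 lay39
    [66, 67, 128, 0, 0, 0, 1, 2, 3, 64, 65, 3, 3] = true := by
  decide +kernel

theorem ok_p38_1 : stepOKDR rows1 prio1 cap p38_1 lay39
    [66, 192, 193, 66, 129, 130, 66, 131, 66, 66, 194, 195] = true := by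
  decide +kernel

theorem ok_p38_2 : stepOKDR rows1 prio1 cap p38_2 lay39
    [66, 67, 66, 66, 258, 256, 257, 259, 320, 321, 320] = true := by
  decide +kernel

theorem ok_p38_3 : stepOKDR rows1 prio1 cap p38_3 lay39
    [192, 129, 131, 194, 259, 320, 320, 259, 320] = true := by
  decide +kernel

theorem ok_p38_4 : stepOKDR rows1 prio1 cap p38_4 lay39
    [0, 1, 258, 256, 320, 320, 322, 323, 384, 385, 322, 322, 386] = true := by
  decide +kernel

theorem ok_p38_5 : stepOKDR rows1 prio1 cap p38_5 lay39
    [2, 3, 64, 322, 323, 385, 385, 386, 387, 448, 387] = true := by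
  decide +kernel

theorem ok_p39_0 : stepOKDR rows1 prio1 cap p39_0 lay40
    [1, 3, 0, 0, 3, 0, 3, 66, 66, 0, 0] = true := by
  decide +kernel

theorem ok_p39_1 : stepOKDR rows1 prio1 cap p39_1 lay40
    [193, 256, 194, 256, 256, 64, 1, 1, 1, 1, 1, 2, 131, 192] = true := by
  decide +kernel

theorem ok_p39_2 : stepOKDR rows1 prio1 cap p39_2 lay40
    [193, 195, 258, 259, 257, 64, 256, 257, 65, 65, 193] = true := by
  decide +kernel

theorem ok_p39_3 : stepOKDR rows1 prio1 cap p39_3 lay40
    [320, 321, 256, 257, 67, 67, 322, 323, 256, 257, 128, 128] = true := by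
  decide +kernel

theorem ok_p39_4 : stepOKDR rows1 prio1 cap p39_4 lay40
    [193, 386, 384, 385, 257, 256, 257, 130, 129, 129, 193, 193] = true := by
  decide +kernel

theorem ok_p39_5 : stepOKDR rows1 prio1 cap p39_5 lay40
    [256, 256, 0, 1, 387, 448, 256, 256, 256, 257, 512, 449, 512] = true := by
  decide +kernel

theorem ok_p39_6 : stepOKDR rows1 prio1 cap p39_6 lay40
    [2, 3, 66, 131, 450, 451, 512, 513, 514, 514, 512] = true := by
  decide +kernel

theorem ok_p39_7 : stepOKDR rows1 prio1 cap p39_7 lay40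
    [192, 512, 512] = true := by
  decide +kernel

theorem ok_p40_0 : stepOKDR rows1 prio1 cap p40_0 lay41
    [67, 3, 3, 64, 65, 66, 67, 65, 0, 1, 2] = true := by
  decide +kernel

theorem ok_p40_1 : stepOKDR rows1 prio1 cap p40_1 lay41
    [129, 194, 192, 130, 130, 128, 193, 130, 131, 67, 67] = true := by
  decide +kernel

theorem ok_p40_2 : stepOKDR rows1 prio1 cap p40_2 lay41
    [65, 256, 130, 195, 258, 130, 130, 259, 257, 65] = true := by
  decide +kernel

end Vale.Agent.Lib.P302.helper26.C755
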