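import Mathlib
import Vale.Agent.Lib.P302.helper26.C755.Base
import Vale.Agent.Lib.P302.helper26.C755.K10

/-!
# P302: chunks of the mask search of the 755-item instance (part 13)
-/

namespace Vale.Agent.Lib.P302.helper26.C755

open Vale.Agent.Lib.P302.helper14 Vale.Agent.Lib.P302.helper8 Vale.Agent.Lib.P302.helper9

theorem ok_p40_3 : stepOKDR rows1 prio1 cap p40_3 lay41
    [320, 320, 322, 323, 384, 128, 128, 385, 65, 66] = true := by
  decide +kernel

theorem ok_p40_4 : stepOKDR rows1 prio1 cap p40_4 lay41
    [320, 321, 322, 323, 386, 131, 131, 387, 130, 130, 322, 323] = true := by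
  decide +kernel

theorem ok_p40_5 : stepOKDR rows1 prio1 cap p40_5 lay41
    [322, 323, 448, 193, 193, 449, 322, 323, 450, 195, 195, 451] = true := by
  decide +kernel

theorem ok_p40_6 : stepOKDR rows1 prio1 cap p40_6 lay41
    [320, 323, 322, 323, 514, 512, 259, 257, 257, 513, 320] = true := by
  decide +kernel

theorem ok_p40_7 : stepOKDR rows1 prio1 cap p40_7 lay41
    [320, 0, 1, 2, 321, 515, 576, 577, 578, 579, 640] = true := by
  decide +kernel

theorem ok_p40_8 : stepOKDR rows1 prio1 cap p40_8 lay41
    [65, 66, 67, 576, 577, 578] = true := by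
  decide +kernel

theorem ok_p41_0 : stepOKDR rows1 prio1 cap p41_0 lay42
    [1, 2, 0, 130, 3, 192, 64, 64, 65, 129, 66, 67] = true := by
  decide +kernel

theorem ok_p41_1 : stepOKDR rows1 prio1 cap p41_1 lay42
    [3, 131, 67, 128, 130, 129, 129, 192, 131] = true := by
  decide +kernel

theorem ok_p41_2 : stepOKDR rows1 prio1 cap p41_2 lay42
    [640, 193, 258, 257, 194, 257, 259, 256, 195, 257, 256] = true := by
  decide +kernel

theorem ok_p41_3 : stepOKDR rows1 prio1 cap p41_3 lay42
    [321, 257, 322, 256, 323, 256, 320, 384, 257, 385] = true := by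
  decide +kernel

theorem ok_p41_4 : stepOKDR rows1 prio1 cap p41_4 lay42
    [256, 386, 450, 387, 257, 257, 448, 256, 449] = true := by
  decide +kernel

theorem ok_p41_5 : stepOKDR rows1 prio1 cap p41_5 lay42
    [579, 641, 579, 640, 640, 641, 642, 643, 704, 704] = true := by
  decide +kernel

theorem ok_p41_6 : stepOKDR rows1 prio1 cap p41_6 lay42
    [451, 512, 513, 514, 704, 704, 193, 193, 704, 704, 258, 258] = true := by
  decide +kernel

theorem ok_p41_7 : stepOKDR rows1 prio1 cap p41_7 lay42
    [515, 576, 704, 704, 321, 321, 577, 578, 704, 704, 384, 384] = true := by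
  decide +kernel

theorem ok_p41_8 : stepOKDR rows1 prio1 cap p41_8 lay42
    [64, 707, 705, 706, 704, 704, 704, 450, 387, 387, 834, 770] = true := by
  decide +kernel

theorem ok_p41_9 : stepOKDR rows1 prio1 cap p41_9 lay42
    [130, 3, 192, 64, 832, 833, 768, 769, 834, 834, 834, 835] = true := by
  decide +kernel

theorem ok_p41_10 : stepOKDR rows1 prio1 cap p41_10 lay42
    [64, 771, 834] = true := by
  decide +kernel

theorem ok_p42_0 : stepOKDR rows1 prio1 cap p42_0 lay43
    [67, 67, 128, 194, 130, 0, 131, 0, 1, 2, 192] = true := by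
  decide +kernel

theorem ok_p42_1 : stepOKDR rows1 prio1 cap p42_1 lay43
    [67, 129, 129, 129, 192, 193, 194, 195, 256, 257, 320, 259] = true := by
  decide +kernel

theorem ok_p42_2 : stepOKDR rows1 prio1 cap p42_2 lay43
    [128, 130, 194, 195, 256, 257, 257, 258, 320] = true := by
  decide +kernel

end Vale.Agent.Lib.P302.helper26.C755
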