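import Mathlib
import Vale.Agent.Lib.P302.helper26.C755.Base
import Vale.Agent.Lib.P302.helper26.C755.K11

/-!
# P302: chunks of the mask search of the 755-item instance (part 14)
-/

namespace Vale.Agent.Lib.P302.helper26.C755

open Vale.Agent.Lib.P302.helper14 Vale.Agent.Lib.P302.helper8 Vale.Agent.Lib.P302.helper9

theorem ok_p42_3 : stepOKDR rows1 prio1 cap p42_3 lay43
    [323, 323, 323, 384, 3, 385, 386, 131, 387, 258] = true := by
  decide +kernel

theorem ok_p42_4 : stepOKDR rows1 prio1 cap p42_4 lay43
    [322, 321, 448, 448, 384, 64, 449, 384, 386, 386, 387, 386] = true := by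
  decide +kernel

theorem ok_p42_5 : stepOKDR rows1 prio1 cap p42_5 lay43
    [450, 450, 450, 448, 384, 65, 451, 386, 387, 387] = true := by
  decide +kernel

theorem ok_p42_6 : stepOKDR rows1 prio1 cap p42_6 lay43
    [512, 512, 512, 384, 66, 513, 386, 387, 576, 384, 514] = true := by
  decide +kernel

theorem ok_p42_7 : stepOKDR rows1 prio1 cap p42_7 lay43
    [578, 3, 576, 576, 384, 515, 577, 386, 387] = true := by
  decide +kernel

theorem ok_p42_8 : stepOKDR rows1 prio1 cap p42_8 lay43
    [578, 579, 3, 65, 578, 579, 64, 64] = true := by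
  decide +kernel

theorem ok_p42_9 : stepOKDR rows1 prio1 cap p42_9 lay43
    [640, 322, 579, 65, 578, 579, 66, 66] = true := by
  decide +kernel

theorem ok_p42_10 : stepOKDR rows1 prio1 cap p42_10 lay43
    [640, 641, 642, 641, 322, 321, 578, 384, 384, 579] = true := by
  decide +kernel

theorem ok_p42_11 : stepOKDR rows1 prio1 cap p42_11 lay43
    [642, 643, 386, 579, 578, 579, 515, 514, 514] = true := by
  decide +kernel

theorem ok_p42_12 : stepOKDR rows1 prio1 cap p42_12 lay43
    [0, 1, 192, 2, 704, 706, 705] = true := by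
  decide +kernel

theorem ok_p42_13 : stepOKDR rows1 prio1 cap p42_13 lay43
    [130, 131, 194, 195, 704, 706, 705, 707] = true := by
  decide +kernel

theorem ok_p43_0 : stepOKDR rows1 prio1 cap p43_0 lay44
    [194, 67, 0, 2, 129, 64, 66, 320] = true := by
  decide +kernel

theorem ok_p43_1 : stepOKDR rows1 prio1 cap p43_1 lay44
    [194, 0, 256, 131, 130, 129, 129, 192, 129] = true := by
  decide +kernel

theorem ok_p43_2 : stepOKDR rows1 prio1 cap p43_2 lay44
    [194, 195, 256, 1, 2, 257, 259, 258, 64, 66] = true := by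
  decide +kernel

theorem ok_p43_3 : stepOKDR rows1 prio1 cap p43_3 lay44
    [259, 259, 257, 257, 320, 3, 321, 65, 320, 321] = true := by
  decide +kernel

theorem ok_p43_4 : stepOKDR rows1 prio1 cap p43_4 lay44
    [194, 257, 195, 258, 257, 323, 323, 322, 258] = true := by
  decide +kernel

theorem ok_p43_5 : stepOKDR rows1 prio1 cap p43_5 lay44
    [193, 384, 385, 386, 385, 387, 67, 256, 323] = true := by
  decide +kernel

theorem ok_p43_6 : stepOKDR rows1 prio1 cap p43_6 lay44
    [384, 385, 386, 387, 67, 129, 448, 128, 448] = true := by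
  decide +kernel

theorem ok_p43_7 : stepOKDR rows1 prio1 cap p43_7 lay44
    [387, 131, 131, 387, 130, 130, 448, 448] = true := by
  decide +kernel

theorem ok_p43_8 : stepOKDR rows1 prio1 cap p43_8 lay44
    [387, 192, 192, 448, 450, 449, 129, 129] = true := by
  decide +kernel

end Vale.Agent.Lib.P302.helper26.C755
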