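import Mathlib
import Vale.Agent.Lib.P302.helper26.C755.Base
import Vale.Agent.Lib.P302.helper26.C755.K12

/-!
# P302: chunks of the mask search of the 755-item instance (part 15)
-/

namespace Vale.Agent.Lib.P302.helper26.C755

open Vale.Agent.Lib.P302.helper14 Vale.Agent.Lib.P302.helper8 Vale.Agent.Lib.P302.helper9

theorem ok_p43_9 : stepOKDR rows1 prio1 cap p43_9 lay44
    [451, 513, 129, 129, 387, 449, 449, 448] = true := by
  decide +kernel

theorem ok_p43_10 : stepOKDR rows1 prio1 cap p43_10 lay44
    [451, 514, 384, 384, 512, 513, 514, 385, 448] = true := by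
  decide +kernel

theorem ok_p43_11 : stepOKDR rows1 prio1 cap p43_11 lay44
    [64, 320, 66, 321] = true := by
  decide +kernel

theorem ok_p44_0 : stepOKDR rows1 prio1 cap p44_0 lay45
    [0, 1, 2, 449, 449, 193, 194, 195, 257, 257, 256, 194] = true := by
  decide +kernel

theorem ok_p44_1 : stepOKDR rows1 prio1 cap p44_1 lay45
    [3, 449, 449, 449, 449, 320, 449, 449, 321, 193, 194, 195] = true := by
  decide +kernel

theorem ok_p44_2 : stepOKDR rows1 prio1 cap p44_2 lay45
    [65, 64, 320, 320, 259, 258, 320, 320, 320, 323, 320, 322, 320, 320] = true := by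
  decide +kernel

theorem ok_p44_3 : stepOKDR rows1 prio1 cap p44_3 lay45
    [67, 449, 449, 66, 450, 385, 386, 386, 320, 384] = true := by
  decide +kernel

theorem ok_p44_4 : stepOKDR rows1 prio1 cap p44_4 lay45
    [128, 129, 449, 130, 386, 387, 449, 448, 448, 450, 450] = true := by
  decide +kernel

theorem ok_p44_5 : stepOKDR rows1 prio1 cap p44_5 lay45
    [449, 448, 449, 449, 449, 449, 449, 449, 385, 448] = true := by
  decide +kernel

theorem ok_p44_6 : stepOKDR rows1 prio1 cap p44_6 lay45
    [451, 451, 451, 320, 451, 451, 451, 451, 451, 451, 320] = true := by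
  decide +kernel

theorem ok_p44_7 : stepOKDR rows1 prio1 cap p44_7 lay45
    [451, 320, 192, 131, 451, 259, 512, 320, 320, 320, 320, 513] = true := by
  decide +kernel

theorem ok_p44_8 : stepOKDR rows1 prio1 cap p44_8 lay45
    [451, 451, 451, 451, 259, 258, 451, 451, 512] = true := by
  decide +kernel

theorem ok_p45_0 : stepOKDR rows1 prio1 cap p45_0 lay46
    [193, 65, 66, 67, 194, 128, 129, 130, 3, 0, 195, 192, 192, 1, 131, 2] = true := by
  decide +kernel

theorem ok_p45_1 : stepOKDR rows1 prio1 cap p45_1 lay46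
    [259, 256, 514, 386, 387, 194, 258, 320, 194, 64, 257, 322, 194, 321, 323] = true := by
  decide +kernel

theorem ok_p45_2 : stepOKDR rows1 prio1 cap p45_2 lay46
    [449, 384, 450, 451, 512, 385, 514, 513, 448, 514, 576, 194, 515, 577] = true := by
  decide +kernel

theorem ok_p45_3 : stepOKDR rows1 prio1 cap p45_3 lay46
    [128, 129, 130, 579, 194, 578, 128, 129, 641, 641, 640, 130] = true := by
  decide +kernel

theorem ok_p45_4 : stepOKDR rows1 prio1 cap p45_4 lay46
    [643, 643, 192, 131, 643, 643, 643, 643, 641, 640, 192, 131, 642, 642] = true := by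
  decide +kernel

theorem ok_p45_5 : stepOKDR rows1 prio1 cap p45_5 lay46
    [194, 195, 320, 257, 643, 194, 704, 704, 195, 320, 704, 257] = true := by
  decide +kernel

theorem ok_p45_6 : stepOKDR rows1 prio1 cap p45_6 lay46
    [386, 449, 450, 323, 449, 450, 706, 705, 642, 704, 323] = true := by
  decide +kernel

end Vale.Agent.Lib.P302.helper26.C755
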