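import Mathlib
import Vale.Agent.Lib.P302.helper26.C755.Base
import Vale.Agent.Lib.P302.helper26.C755.K13

/-!
# P302: chunks of the mask search of the 755-item instance (part 16)
-/

namespace Vale.Agent.Lib.P302.helper26.C755

open Vale.Agent.Lib.P302.helper14 Vale.Agent.Lib.P302.helper8 Vale.Agent.Lib.P302.helper9

theorem ok_p45_7 : stepOKDR rows1 prio1 cap p45_7 lay46
    [643, 513, 451, 514, 451, 643, 643, 642, 513, 706, 706, 514] = true := by
  decide +kernel

theorem ok_p45_8 : stepOKDR rows1 prio1 cap p45_8 lay46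
    [643, 577, 643, 643, 704, 577] = true := by
  decide +kernel

theorem ok_p46_0 : stepOKDR rows1 prio1 cap p46_0 lay47
    [128, 0, 1, 2, 321, 193, 194, 195, 322, 257, 257, 256] = true := by
  decide +kernel

theorem ok_p46_1 : stepOKDR rows1 prio1 cap p46_1 lay47
    [193, 194, 195, 0, 1, 2, 257, 257, 256, 131, 321, 385] = true := by
  decide +kernel

theorem ok_p46_2 : stepOKDR rows1 prio1 cap p46_2 lay47
    [193, 194, 195, 256, 3, 64, 65, 259, 259, 258, 66, 320] = true := by
  decide +kernel

theorem ok_p46_3 : stepOKDR rows1 prio1 cap p46_3 lay47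
    [321, 321, 128, 322, 322, 257, 323, 129, 384, 259, 130, 67, 320] = true := by
  decide +kernel

theorem ok_p46_4 : stepOKDR rows1 prio1 cap p46_4 lay47
    [321, 386, 386, 448, 321, 131, 385, 385, 321, 448, 384, 192] = true := by
  decide +kernel

theorem ok_p46_5 : stepOKDR rows1 prio1 cap p46_5 lay47
    [448, 384, 387, 321, 449, 449, 451, 451, 321, 384, 450, 451] = true := by
  decide +kernel

theorem ok_p46_6 : stepOKDR rows1 prio1 cap p46_6 lay47
    [512, 513, 515, 514, 576, 705, 577, 704, 704, 579] = true := by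
  decide +kernel

theorem ok_p46_7 : stepOKDR rows1 prio1 cap p46_7 lay47
    [513, 642, 514, 320, 576, 705, 578, 643, 704] = true := by
  decide +kernel

theorem ok_p46_8 : stepOKDR rows1 prio1 cap p46_8 lay47
    [643, 643, 578, 704, 704, 320, 640, 705, 641, 706, 321, 768] = true := by
  decide +kernel

theorem ok_p46_9 : stepOKDR rows1 prio1 cap p46_9 lay47
    [321, 321, 769, 706, 769, 768, 768, 321, 384, 707] = true := by
  decide +kernel

theorem ok_p46_10 : stepOKDR rows1 prio1 cap p46_10 lay47
    [323, 259, 258, 320, 323, 832, 259, 770, 258, 770, 320, 771] = true := by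
  decide +kernel

theorem ok_p46_11 : stepOKDR rows1 prio1 cap p46_11 lay47
    [384, 642, 705, 642, 832, 384, 770, 770, 705] = true := by
  decide +kernel

theorem ok_p47_0 : stepOKDR rows1 prio1 cap p47_0 lay48
    [0, 1, 2, 130, 131, 130, 192, 67, 194, 194, 128, 193, 129, 130, 256] = true := by
  decide +kernel

theorem ok_p47_1 : stepOKDR rows1 prio1 cap p47_1 lay48
    [131, 192, 194, 193, 131, 256, 195, 192, 194, 193, 257, 257] = true := by
  decide +kernel

theorem ok_p47_2 : stepOKDR rows1 prio1 cap p47_2 lay48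
    [3, 64, 259, 259, 258, 320, 320, 259, 323, 384, 321, 259, 322, 320] = true := by
  decide +kernel

theorem ok_p47_3 : stepOKDR rows1 prio1 cap p47_3 lay48
    [130, 131, 386, 386, 130, 385, 131, 192, 192, 384, 322, 384] = true := by
  decide +kernel

theorem ok_p47_4 : stepOKDR rows1 prio1 cap p47_4 lay48
    [386, 386, 385, 385, 194, 193, 387, 194, 387, 193, 386, 385, 448, 448] = true := by
  decide +kernel

theorem ok_p47_5 : stepOKDR rows1 prio1 cap p47_5 lay48
    [450, 450, 259, 451, 259, 320, 320, 387, 450, 512, 448, 387, 449] = true := by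
  decide +kernel

end Vale.Agent.Lib.P302.helper26.C755
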