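import Mathlib
import Vale.Agent.Lib.P302.helper26.C755.Base
import Vale.Agent.Lib.P302.helper26.C755.K14

/-!
# P302: chunks of the mask search of the 755-item instance (part 17)
-/

namespace Vale.Agent.Lib.P302.helper26.C755

open Vale.Agent.Lib.P302.helper14 Vale.Agent.Lib.P302.helper8 Vale.Agent.Lib.P302.helper9

theorem ok_p47_6 : stepOKDR rows1 prio1 cap p47_6 lay48
    [65, 259, 451, 513, 514, 514, 451, 384, 384, 512, 322, 451, 514] = true := by
  decide +kernel

theorem ok_p47_7 : stepOKDR rows1 prio1 cap p47_7 lay48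
    [451, 514, 514, 66, 259, 451, 515, 576, 576, 576, 576, 322, 576] = true := by
  decide +kernel

theorem ok_p47_8 : stepOKDR rows1 prio1 cap p47_8 lay48
    [578, 768, 641, 577, 704, 704, 704, 643, 705, 705, 705, 257] = true := by
  decide +kernel

theorem ok_p47_9 : stepOKDR rows1 prio1 cap p47_9 lay48
    [640, 579, 707, 706, 706, 770, 706, 769, 642, 768, 768, 641] = true := by
  decide +kernel

theorem ok_p47_10 : stepOKDR rows1 prio1 cap p47_10 lay48
    [643, 448, 643, 707, 707, 770, 707, 768, 257, 707, 769, 768] = true := by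
  decide +kernel

theorem ok_p47_11 : stepOKDR rows1 prio1 cap p47_11 lay48
    [387, 770, 770, 768, 768, 448, 770, 771, 259, 833, 834, 834, 322, 834] = true := by
  decide +kernel

theorem ok_p47_12 : stepOKDR rows1 prio1 cap p47_12 lay48
    [832, 259, 451, 835, 834, 834, 448, 448, 896, 449, 449] = true := by
  decide +kernel

theorem ok_p47_13 : stepOKDR rows1 prio1 cap p47_13 lay48
    [512, 512] = true := by
  decide +kernel

theorem ok_p48_0 : stepOKDR rows1 prio1 cap p48_0 lay49
    [448, 193, 194, 195, 3, 0, 129, 128, 128, 1, 67, 2] = true := by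
  decide +kernel

theorem ok_p48_1 : stepOKDR rows1 prio1 cap p48_1 lay49
    [448, 0, 65, 131, 448, 64, 130, 835, 320, 448, 66, 192] = true := by
  decide +kernel

theorem ok_p48_2 : stepOKDR rows1 prio1 cap p48_2 lay49
    [193, 194, 1, 2, 259, 835, 258, 835, 320, 320] = true := by
  decide +kernel

theorem ok_p48_3 : stepOKDR rows1 prio1 cap p48_3 lay49
    [195, 257, 256, 259, 259, 258, 321, 320, 320, 386] = true := by
  decide +kernel

theorem ok_p48_4 : stepOKDR rows1 prio1 cap p48_4 lay49
    [448, 3, 451, 512, 512, 323, 449, 385, 322, 386, 387] = true := by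
  decide +kernel

theorem ok_p48_5 : stepOKDR rows1 prio1 cap p48_5 lay49
    [449, 64, 451, 512, 513, 512, 515, 450, 514] = true := by
  decide +kernel

theorem ok_p48_6 : stepOKDR rows1 prio1 cap p48_6 lay49
    [515, 323, 321, 322, 576, 576, 385, 577, 512] = true := by
  decide +kernel

theorem ok_p48_7 : stepOKDR rows1 prio1 cap p48_7 lay49
    [451, 450, 579, 513, 322, 384, 578, 578] = true := by
  decide +kernel

theorem ok_p48_8 : stepOKDR rows1 prio1 cap p48_8 lay49
    [640, 65, 450, 512, 512, 640, 66, 512, 641] = true := by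
  decide +kernel

theorem ok_p48_9 : stepOKDR rows1 prio1 cap p48_9 lay49
    [642, 643, 704, 769, 706, 771, 707, 707, 768, 641, 512] = true := by
  decide +kernel

theorem ok_p48_10 : stepOKDR rows1 prio1 cap p48_10 lay49
    [768, 832, 835, 705, 705, 707, 834, 386, 835, 320] = true := by
  decide +kernel

theorem ok_p48_11 : stepOKDR rows1 prio1 cap p48_11 lay49
    [769, 770, 832, 771, 834, 834, 320, 835, 835] = true := by
  decide +kernel

end Vale.Agent.Lib.P302.helper26.C755
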