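import Mathlib
import Vale.Agent.Lib.P302.helper26.C755.Base
import Vale.Agent.Lib.P302.helper26.C755.K15

/-!
# P302: chunks of the mask search of the 755-item instance (part 18)
-/

namespace Vale.Agent.Lib.P302.helper26.C755

open Vale.Agent.Lib.P302.helper14 Vale.Agent.Lib.P302.helper8 Vale.Agent.Lib.P302.helper9

theorem ok_p48_12 : stepOKDR rows1 prio1 cap p48_12 lay49
    [833, 576, 320, 835, 896, 386, 448, 897, 899] = true := by
  decide +kernel

theorem ok_p48_13 : stepOKDR rows1 prio1 cap p48_13 lay49
    [448, 960, 898, 898, 897, 512, 512, 512, 960] = true := by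
  decide +kernel

theorem ok_p48_14 : stepOKDR rows1 prio1 cap p48_14 lay49
    [961] = true := by
  decide +kernel

theorem ok_p49_0 : stepOKDR rows1 prio1 cap p49_0 lay50
    [67, 64, 65, 66, 322, 257, 258, 259, 323, 321, 321, 320] = true := by
  decide +kernel

theorem ok_p49_1 : stepOKDR rows1 prio1 cap p49_1 lay50
    [129, 128, 130, 322, 387, 449, 385, 322, 384, 195, 322, 386] = true := by
  decide +kernel

theorem ok_p49_2 : stepOKDR rows1 prio1 cap p49_2 lay50
    [192, 131, 194, 193, 640, 640, 448, 323, 449, 385, 640, 384] = true := by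
  decide +kernel

theorem ok_p49_3 : stepOKDR rows1 prio1 cap p49_3 lay50
    [257, 258, 259, 451, 451, 450, 256, 640, 386] = true := by
  decide +kernel

theorem ok_p49_4 : stepOKDR rows1 prio1 cap p49_4 lay50
    [448, 387, 321, 320, 451, 450, 512, 512, 513, 513] = true := by
  decide +kernel

theorem ok_p49_5 : stepOKDR rows1 prio1 cap p49_5 lay50
    [451, 450, 513, 449, 451, 513, 450, 576, 513, 576, 513, 515, 514] = true := by
  decide +kernel

theorem ok_p49_6 : stepOKDR rows1 prio1 cap p49_6 lay50
    [512, 514, 513, 514, 576, 515, 512, 577, 514, 514, 513, 578, 514] = true := by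
  decide +kernel

theorem ok_p49_7 : stepOKDR rows1 prio1 cap p49_7 lay50
    [579, 642, 579, 322, 323, 641, 579, 643, 642, 642] = true := by
  decide +kernel

theorem ok_p49_8 : stepOKDR rows1 prio1 cap p49_8 lay50
    [640, 641, 384, 641, 642, 642, 643, 642, 641, 641, 642] = true := by
  decide +kernel

theorem ok_p49_9 : stepOKDR rows1 prio1 cap p49_9 lay50
    [642, 513, 514, 704, 642, 642, 513, 704, 704, 514, 514, 704] = true := by
  decide +kernel

theorem ok_p49_10 : stepOKDR rows1 prio1 cap p49_10 lay50
    [0, 1, 832, 3, 768, 769, 385, 641, 386, 641] = true := by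
  decide +kernel

theorem ok_p49_11 : stepOKDR rows1 prio1 cap p49_11 lay50
    [2, 705, 706, 770, 707, 832, 834, 449, 449, 771, 835, 832] = true := by
  decide +kernel

theorem ok_p49_12 : stepOKDR rows1 prio1 cap p49_12 lay50
    [3, 768, 769, 770, 896, 833, 512, 896] = true := by
  decide +kernel

theorem ok_p49_13 : stepOKDR rows1 prio1 cap p49_13 lay50
    [834, 771, 835, 832, 512, 896, 513, 513] = true := by
  decide +kernel

theorem ok_p49_14 : stepOKDR rows1 prio1 cap p49_14 lay50
    [896, 576, 896, 898, 897, 899, 322, 322, 640, 960, 960] = true := by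
  decide +kernel

theorem ok_p49_15 : stepOKDR rows1 prio1 cap p49_15 lay50
    [704, 960, 641, 704, 704] = true := by
  decide +kernel

theorem ok_p50_0 : stepOKDR rows1 prio1 cap p50_0 lay51
    [832, 896, 832, 128, 129, 130, 898, 131, 896] = true := by
  decide +kernel

end Vale.Agent.Lib.P302.helper26.C755
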