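import Mathlib
import Vale.Agent.Lib.P302.helper26.C755.Base
import Vale.Agent.Lib.P302.helper26.C755.K17

/-!
# P302: chunks of the mask search of the 755-item instance (part 20)
-/

namespace Vale.Agent.Lib.P302.helper26.C755

open Vale.Agent.Lib.P302.helper14 Vale.Agent.Lib.P302.helper8 Vale.Agent.Lib.P302.helper9

theorem ok_p51_5 : stepOKDR rows1 prio1 cap p51_5 lay52
    [128, 1, 2, 514, 258, 450, 451, 128, 193] = true := by
  decide +kernel

theorem ok_p51_6 : stepOKDR rows1 prio1 cap p51_6 lay52
    [3, 64, 65, 66, 195, 195, 194, 256] = true := by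
  decide +kernel

theorem ok_p51_7 : stepOKDR rows1 prio1 cap p51_7 lay52
    [129, 130, 67, 131, 257, 258, 195, 256, 258] = true := by
  decide +kernel

theorem ok_p51_8 : stepOKDR rows1 prio1 cap p51_8 lay52
    [192, 195, 194, 256, 258, 512, 512, 513] = true := by
  decide +kernel

theorem ok_p51_9 : stepOKDR rows1 prio1 cap p51_9 lay52
    [257, 258, 193, 450, 0, 515, 258] = true := by
  decide +kernel

theorem ok_p51_10 : stepOKDR rows1 prio1 cap p51_10 lay52
    [259, 514, 258, 450, 128, 1, 451, 2, 450, 576] = true := by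
  decide +kernel

theorem ok_p51_11 : stepOKDR rows1 prio1 cap p51_11 lay52
    [320, 512, 513, 576, 451, 576, 513, 512, 576, 513, 577, 577] = true := by
  decide +kernel

theorem ok_p51_12 : stepOKDR rows1 prio1 cap p51_12 lay52
    [321, 515, 322, 2, 577, 514, 515, 515, 577, 577] = true := by
  decide +kernel

theorem ok_p51_13 : stepOKDR rows1 prio1 cap p51_13 lay52
    [384, 322, 323, 2, 387, 323, 450, 450] = true := by
  decide +kernel

theorem ok_p51_14 : stepOKDR rows1 prio1 cap p51_14 lay52
    [386, 385, 387, 450, 322, 256, 387, 512, 512] = true := by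
  decide +kernel

theorem ok_p51_15 : stepOKDR rows1 prio1 cap p51_15 lay52
    [448, 450, 323, 258, 128, 448] = true := by
  decide +kernel

theorem ok_p52_0 : stepOKDR rows1 prio1 cap p52_0 lay53
    [1, 129, 129, 130] = true := by
  decide +kernel

theorem ok_p52_1 : stepOKDR rows1 prio1 cap p52_1 lay53
    [1, 0, 2, 2] = true := by
  decide +kernel

theorem ok_p52_2 : stepOKDR rows1 prio1 cap p52_2 lay53
    [3, 131, 65, 64, 65, 66, 65] = true := by
  decide +kernel

theorem ok_p52_3 : stepOKDR rows1 prio1 cap p52_3 lay53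
    [65, 1, 0, 67, 194, 194, 65, 128] = true := by
  decide +kernel

theorem ok_p52_4 : stepOKDR rows1 prio1 cap p52_4 lay53
    [3, 257, 65, 192, 2, 194, 129, 385, 195] = true := by
  decide +kernel

theorem ok_p52_5 : stepOKDR rows1 prio1 cap p52_5 lay53
    [256, 131, 193, 385, 129, 129, 130] = true := by
  decide +kernel

theorem ok_p52_6 : stepOKDR rows1 prio1 cap p52_6 lay53
    [194, 321, 2, 258, 194] = true := by
  decide +kernel

theorem ok_p52_7 : stepOKDR rows1 prio1 cap p52_7 lay53
    [192, 193, 65, 65, 320, 259, 321, 385, 322] = true := by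
  decide +kernel

theorem ok_p52_8 : stepOKDR rows1 prio1 cap p52_8 lay53
    [256, 257, 194, 195, 323, 386] = true := by
  decide +kernel

theorem ok_p52_9 : stepOKDR rows1 prio1 cap p52_9 lay53
    [385, 386, 384] = true := by
  decide +kernel

end Vale.Agent.Lib.P302.helper26.C755
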