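import Mathlib
import Vale.Agent.Lib.P302.helper26.C755.Base
import Vale.Agent.Lib.P302.helper26.C755.K18

/-!
# P302: chunks of the mask search of the 755-item instance (part 21)
-/

namespace Vale.Agent.Lib.P302.helper26.C755

open Vale.Agent.Lib.P302.helper14 Vale.Agent.Lib.P302.helper8 Vale.Agent.Lib.P302.helper9

theorem ok_p53_0 : stepOKDR rows1 prio1 cap p53_0 lay54
    [0, 192, 192, 256, 130, 130, 256, 130, 131] = true := by
  decide +kernel

theorem ok_p53_1 : stepOKDR rows1 prio1 cap p53_1 lay54
    [1, 3, 2, 192, 193, 193, 193, 193, 193] = true := by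
  decide +kernel

theorem ok_p53_2 : stepOKDR rows1 prio1 cap p53_2 lay54
    [65, 64, 192, 192, 256, 194, 194, 131, 193] = true := by
  decide +kernel

theorem ok_p53_3 : stepOKDR rows1 prio1 cap p53_3 lay54
    [66, 256, 67, 256, 195, 195, 131, 131, 256, 256] = true := by
  decide +kernel

theorem ok_p53_4 : stepOKDR rows1 prio1 cap p53_4 lay54
    [128, 192, 192, 192, 192, 130, 256, 193] = true := by
  decide +kernel

theorem ok_p53_5 : stepOKDR rows1 prio1 cap p53_5 lay54
    [129, 193, 257, 192, 131, 192, 256, 258, 258] = true := by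
  decide +kernel

theorem ok_p53_6 : stepOKDR rows1 prio1 cap p53_6 lay54
    [256, 256, 256, 256, 256, 256] = true := by
  decide +kernel

theorem ok_p54_0 : stepOKDR rows1 prio1 cap p54_0 lay55
    [64, 64, 1, 65, 3, 0, 67, 64, 66] = true := by
  decide +kernel

theorem ok_p54_1 : stepOKDR rows1 prio1 cap p54_1 lay55
    [131, 192, 0, 0, 193, 129, 194, 130, 0, 64, 128] = true := by
  decide +kernel

theorem ok_p54_2 : stepOKDR rows1 prio1 cap p54_2 lay55
    [1, 2, 64, 64, 256, 195, 1, 258, 258, 259, 257] = true := by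
  decide +kernel

theorem ok_p54_3 : stepOKDR rows1 prio1 cap p54_3 lay55
    [320, 64, 131, 129, 320, 320, 320, 64, 258, 131, 129, 258] = true := by
  decide +kernel

theorem ok_p54_4 : stepOKDR rows1 prio1 cap p54_4 lay55
    [193, 258, 0, 321, 321, 322, 258, 321] = true := by
  decide +kernel

theorem ok_p55_0 : stepOKDR rows1 prio1 cap p55_0 lay56
    [192, 257, 257, 256, 257, 194, 1, 0, 258, 195, 195, 193, 195] = true := by
  decide +kernel

theorem ok_p55_1 : stepOKDR rows1 prio1 cap p55_1 lay56
    [259, 320, 320, 320, 320, 2, 64, 320, 3] = true := by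
  decide +kernel

theorem ok_p55_2 : stepOKDR rows1 prio1 cap p55_2 lay56
    [322, 194, 322, 321, 321, 321, 194, 66, 195, 320, 65] = true := by
  decide +kernel

theorem ok_p55_3 : stepOKDR rows1 prio1 cap p55_3 lay56
    [322, 194, 195, 67, 195, 323, 323, 128, 320, 129] = true := by
  decide +kernel

theorem ok_p55_4 : stepOKDR rows1 prio1 cap p55_4 lay56
    [258, 320, 130, 256, 386, 384, 258, 193, 385] = true := by
  decide +kernel

theorem ok_p55_5 : stepOKDR rows1 prio1 cap p55_5 lay56
    [259, 259, 194, 195, 387, 387, 387, 131] = true := by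
  decide +kernel

theorem ok_p56_0 : stepOKDR rows1 prio1 cap p56_0 lay57
    [387, 323, 1, 64, 2, 3, 321, 0, 387, 65] = true := by
  decide +kernel

theorem ok_p56_1 : stepOKDR rows1 prio1 cap p56_1 lay57
    [387, 449, 321, 130, 66, 448, 128, 321, 387, 67] = true := by
  decide +kernel

end Vale.Agent.Lib.P302.helper26.C755
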