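import Mathlib
import Vale.Agent.Lib.P302.helper26.C755.Base
import Vale.Agent.Lib.P302.helper26.C755.K16

/-!
# P302: chunks of the mask search of the 755-item instance (part 19)
-/

namespace Vale.Agent.Lib.P302.helper26.C755

open Vale.Agent.Lib.P302.helper14 Vale.Agent.Lib.P302.helper8 Vale.Agent.Lib.P302.helper9

theorem ok_p50_1 : stepOKDR rows1 prio1 cap p50_1 lay51
    [3, 0, 1, 2, 449, 384, 385, 386, 450, 448, 448, 387] = true := by
  decide +kernel

theorem ok_p50_2 : stepOKDR rows1 prio1 cap p50_2 lay51
    [65, 64, 195, 194, 449, 512, 449, 451, 320, 259, 321, 321] = true := by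
  decide +kernel

theorem ok_p50_3 : stepOKDR rows1 prio1 cap p50_3 lay51
    [66, 256, 258, 257, 322, 322, 450, 512, 322, 451, 449, 578] = true := by
  decide +kernel

theorem ok_p50_4 : stepOKDR rows1 prio1 cap p50_4 lay51
    [384, 385, 386, 514, 514, 513, 323, 322, 578] = true := by
  decide +kernel

theorem ok_p50_5 : stepOKDR rows1 prio1 cap p50_5 lay51
    [449, 450, 448, 387, 576, 577, 514, 513, 515, 515] = true := by
  decide +kernel

theorem ok_p50_6 : stepOKDR rows1 prio1 cap p50_6 lay51
    [579, 512, 451, 577, 643, 259, 577, 578, 577] = true := by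
  decide +kernel

theorem ok_p50_7 : stepOKDR rows1 prio1 cap p50_7 lay51
    [640, 641, 514, 513, 643, 320, 704, 321, 705, 514, 705, 513] = true := by
  decide +kernel

theorem ok_p50_8 : stepOKDR rows1 prio1 cap p50_8 lay51
    [515, 705, 643, 706, 515, 704, 643, 707, 704, 707, 707, 707, 706] = true := by
  decide +kernel

theorem ok_p50_9 : stepOKDR rows1 prio1 cap p50_9 lay51
    [576, 770, 576, 705, 706, 705, 768, 707, 706, 707, 707] = true := by
  decide +kernel

theorem ok_p50_10 : stepOKDR rows1 prio1 cap p50_10 lay51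
    [642, 769, 770, 769, 577, 577, 322, 577, 769, 770, 770, 770] = true := by
  decide +kernel

theorem ok_p50_11 : stepOKDR rows1 prio1 cap p50_11 lay51
    [67, 771, 832, 835, 896, 833, 321, 321, 834, 707, 707, 707] = true := by
  decide +kernel

theorem ok_p50_12 : stepOKDR rows1 prio1 cap p50_12 lay51
    [129, 130, 131, 835, 897, 515, 898, 898] = true := by
  decide +kernel

theorem ok_p50_13 : stepOKDR rows1 prio1 cap p50_13 lay51
    [899, 960, 896, 897, 643, 643, 833, 515, 898, 834, 705] = true := by
  decide +kernel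

theorem ok_p50_14 : stepOKDR rows1 prio1 cap p50_14 lay51
    [193, 192, 898, 705, 898, 961, 449, 449, 962, 322, 962] = true := by
  decide +kernel

theorem ok_p50_15 : stepOKDR rows1 prio1 cap p50_15 lay51
    [962, 577] = true := by
  decide +kernel

theorem ok_p51_0 : stepOKDR rows1 prio1 cap p51_0 lay52
    [129, 3, 64, 65, 130, 67, 67, 66] = true := by
  decide +kernel

theorem ok_p51_1 : stepOKDR rows1 prio1 cap p51_1 lay52
    [129, 192, 129, 131, 384, 385, 129, 193] = true := by
  decide +kernel

theorem ok_p51_2 : stepOKDR rows1 prio1 cap p51_2 lay52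
    [386, 323, 256, 2, 387, 387, 323] = true := by
  decide +kernel

theorem ok_p51_3 : stepOKDR rows1 prio1 cap p51_3 lay52
    [129, 129, 449, 448, 1, 0, 2, 2] = true := by
  decide +kernel

theorem ok_p51_4 : stepOKDR rows1 prio1 cap p51_4 lay52
    [0, 128, 128, 130, 192, 128, 131, 450] = true := by
  decide +kernel

end Vale.Agent.Lib.P302.helper26.C755
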