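import Mathlib
import Vale.Agent.Lib.P302.helper26.C755.Base
import Vale.Agent.Lib.P302.helper26.C755.K19

/-!
# P302: chunks of the mask search of the 755-item instance (part 22)
-/

namespace Vale.Agent.Lib.P302.helper26.C755

open Vale.Agent.Lib.P302.helper14 Vale.Agent.Lib.P302.helper8 Vale.Agent.Lib.P302.helper9

theorem ok_p56_2 : stepOKDR rows1 prio1 cap p56_2 lay57
    [129, 321, 131, 193, 387, 387, 192, 321, 451, 194] = true := by
  decide +kernel

theorem ok_p56_3 : stepOKDR rows1 prio1 cap p56_3 lay57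
    [195, 256, 256, 256, 320, 320, 257, 320, 321, 258, 259, 0] = true := by
  decide +kernel

theorem ok_p56_4 : stepOKDR rows1 prio1 cap p56_4 lay57
    [386, 386, 323, 322, 384, 320, 1, 257, 385, 3, 259] = true := by
  decide +kernel

theorem ok_p56_5 : stepOKDR rows1 prio1 cap p56_5 lay57
    [386, 387, 320, 449, 320, 131, 448, 320] = true := by
  decide +kernel

theorem ok_p56_6 : stepOKDR rows1 prio1 cap p56_6 lay57
    [384, 257, 259, 384, 257, 450, 259, 320, 451] = true := by
  decide +kernel

theorem ok_p57_0 : stepOKDR rows1 prio1 cap p57_0 lay58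
    [66, 0, 1, 3, 65, 66, 66, 2, 64, 450, 3, 3] = true := by
  decide +kernel

theorem ok_p57_1 : stepOKDR rows1 prio1 cap p57_1 lay58
    [67, 130, 129, 128, 128, 128, 131, 128] = true := by
  decide +kernel

theorem ok_p57_2 : stepOKDR rows1 prio1 cap p57_2 lay58
    [64, 194, 195, 256, 192, 448, 257, 64, 193, 64] = true := by
  decide +kernel

theorem ok_p57_3 : stepOKDR rows1 prio1 cap p57_3 lay58
    [322, 322, 128, 259, 258, 128, 64, 320, 321] = true := by
  decide +kernel

theorem ok_p57_4 : stepOKDR rows1 prio1 cap p57_4 lay58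
    [323, 322, 323, 386, 3, 3, 385, 386, 386, 387, 3] = true := by
  decide +kernel

theorem ok_p57_5 : stepOKDR rows1 prio1 cap p57_5 lay58
    [322, 323, 65, 66, 448, 64, 448, 65, 449, 385, 448, 64] = true := by
  decide +kernel

theorem ok_p57_6 : stepOKDR rows1 prio1 cap p57_6 lay58
    [451, 128, 66, 384, 451, 451, 449, 128, 66, 386, 450, 387] = true := by
  decide +kernel

theorem ok_p57_7 : stepOKDR rows1 prio1 cap p57_7 lay58
    [257, 193, 448, 257, 386, 448, 193, 386, 448, 321, 321] = true := by
  decide +kernel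

theorem ok_p58_0 : stepOKDR rows1 prio1 cap p58_0 lay59
    [449, 3, 64, 65, 2, 66, 1, 1, 67, 512, 67, 67] = true := by
  decide +kernel

theorem ok_p58_1 : stepOKDR rows1 prio1 cap p58_1 lay59
    [0, 130, 3, 64, 131, 2, 513, 128, 67] = true := by
  decide +kernel

theorem ok_p58_2 : stepOKDR rows1 prio1 cap p58_2 lay59
    [130, 130, 194, 130, 193, 192, 130, 195] = true := by
  decide +kernel

theorem ok_p58_3 : stepOKDR rows1 prio1 cap p58_3 lay59
    [128, 258, 2, 259, 320, 256, 256, 257, 2, 128] = true := by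
  decide +kernel

theorem ok_p58_4 : stepOKDR rows1 prio1 cap p58_4 lay59
    [258, 2, 320, 321, 128, 130, 130, 323, 322] = true := by
  decide +kernel

theorem ok_p58_5 : stepOKDR rows1 prio1 cap p58_5 lay59
    [386, 0, 386, 386, 0, 2, 128, 384, 384, 385] = true := by
  decide +kernel

end Vale.Agent.Lib.P302.helper26.C755
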