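import Mathlib
import Vale.Agent.Lib.P302.helper26.C755.Base
import Vale.Agent.Lib.P302.helper26.C755.K20

/-!
# P302: chunks of the mask search of the 755-item instance (part 23)
-/

namespace Vale.Agent.Lib.P302.helper26.C755

open Vale.Agent.Lib.P302.helper14 Vale.Agent.Lib.P302.helper8 Vale.Agent.Lib.P302.helper9

theorem ok_p58_6 : stepOKDR rows1 prio1 cap p58_6 lay59
    [449, 448, 67, 450, 387, 512, 451, 67, 512, 451, 67] = true := by
  decide +kernel

theorem ok_p58_7 : stepOKDR rows1 prio1 cap p58_7 lay59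
    [386, 513, 192, 192, 513, 128, 129, 128, 513, 451, 512] = true := by
  decide +kernel

theorem ok_p59_0 : stepOKDR rows1 prio1 cap p59_0 lay60
    [2, 2, 2, 3, 66, 65, 64, 577, 195, 193] = true := by
  decide +kernel

theorem ok_p59_1 : stepOKDR rows1 prio1 cap p59_1 lay60
    [67, 128, 129, 193, 578, 512, 66, 67, 193, 193, 65, 64, 579] = true := by
  decide +kernel

theorem ok_p59_2 : stepOKDR rows1 prio1 cap p59_2 lay60
    [3, 131, 192, 130, 195, 258, 194, 131, 195, 257, 256] = true := by
  decide +kernel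

theorem ok_p59_3 : stepOKDR rows1 prio1 cap p59_3 lay60
    [320, 259, 258, 258, 131, 131, 321, 131] = true := by
  decide +kernel

theorem ok_p59_4 : stepOKDR rows1 prio1 cap p59_4 lay60
    [384, 385, 322, 323, 195, 384, 65, 322, 195, 65] = true := by
  decide +kernel

theorem ok_p59_5 : stepOKDR rows1 prio1 cap p59_5 lay60
    [0, 1, 386, 195, 65, 386, 387, 131, 131] = true := by
  decide +kernel

theorem ok_p59_6 : stepOKDR rows1 prio1 cap p59_6 lay60
    [3, 3, 3, 450, 577, 576, 195, 65, 448, 449, 448] = true := by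
  decide +kernel

theorem ok_p59_7 : stepOKDR rows1 prio1 cap p59_7 lay60
    [512, 451, 513, 576, 194, 578, 512, 577, 451, 576, 579, 450, 579] = true := by
  decide +kernel

theorem ok_p59_8 : stepOKDR rows1 prio1 cap p59_8 lay60
    [515, 514, 257, 256, 579] = true := by
  decide +kernel

theorem ok_p60_0 : stepOKDR rows1 prio1 cap p60_0 lay61
    [1, 194, 195, 257, 66, 320, 320, 321] = true := by
  decide +kernel

theorem ok_p60_1 : stepOKDR rows1 prio1 cap p60_1 lay61
    [2, 3, 1, 0, 321, 641, 640, 448, 384] = true := by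
  decide +kernel

theorem ok_p60_2 : stepOKDR rows1 prio1 cap p60_2 lay61
    [64, 66, 451, 322, 322, 2, 576, 1, 515, 449, 385] = true := by
  decide +kernel

theorem ok_p60_3 : stepOKDR rows1 prio1 cap p60_3 lay61
    [65, 320, 66, 386, 387, 323, 577, 448, 384] = true := by
  decide +kernel

theorem ok_p60_4 : stepOKDR rows1 prio1 cap p60_4 lay61
    [67, 66, 451, 449, 385, 450] = true := by
  decide +kernel

theorem ok_p60_5 : stepOKDR rows1 prio1 cap p60_5 lay61
    [128, 131, 130, 129, 66, 130, 448, 1, 66] = true := by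
  decide +kernel

theorem ok_p60_6 : stepOKDR rows1 prio1 cap p60_6 lay61
    [193, 192, 195, 256, 448, 448, 192, 1, 66] = true := by
  decide +kernel

theorem ok_p60_7 : stepOKDR rows1 prio1 cap p60_7 lay61
    [513, 512, 259, 258, 641, 640, 579, 448, 1, 258] = true := by
  decide +kernel

theorem ok_p60_8 : stepOKDR rows1 prio1 cap p60_8 lay61
    [514, 387, 641, 322, 640, 576, 576, 515, 515, 449, 385, 578] = true := by
  decide +kernel

end Vale.Agent.Lib.P302.helper26.C755
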