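import Mathlib
import Vale.Agent.Lib.P302.helper26.C755.Base
import Vale.Agent.Lib.P302.helper26.C755.K21

/-!
# P302: chunks of the mask search of the 755-item instance (part 24)
-/

namespace Vale.Agent.Lib.P302.helper26.C755

open Vale.Agent.Lib.P302.helper14 Vale.Agent.Lib.P302.helper8 Vale.Agent.Lib.P302.helper9

theorem ok_p60_9 : stepOKDR rows1 prio1 cap p60_9 lay61
    [386, 323, 641, 577, 640, 579, 578, 450] = true := by
  decide +kernel

theorem ok_p61_0 : stepOKDR rows1 prio1 cap p61_0 lay62
    [66, 131, 514, 130, 513, 129, 67] = true := by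
  decide +kernel

theorem ok_p61_1 : stepOKDR rows1 prio1 cap p61_1 lay62
    [1, 0, 2, 192, 193, 131, 130, 193] = true := by
  decide +kernel

theorem ok_p61_2 : stepOKDR rows1 prio1 cap p61_2 lay62
    [3, 65, 64, 193, 256, 130, 129, 193] = true := by
  decide +kernel

theorem ok_p61_3 : stepOKDR rows1 prio1 cap p61_3 lay62
    [257, 258, 130, 259, 130, 129, 129, 320] = true := by
  decide +kernel

theorem ok_p61_4 : stepOKDR rows1 prio1 cap p61_4 lay62
    [322, 321, 193, 193, 323, 130, 129, 384] = true := by
  decide +kernel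

theorem ok_p61_5 : stepOKDR rows1 prio1 cap p61_5 lay62
    [66, 385, 128, 387, 386, 448, 449] = true := by
  decide +kernel

theorem ok_p61_6 : stepOKDR rows1 prio1 cap p61_6 lay62
    [128, 67, 194, 386, 451, 448, 449, 450, 577] = true := by
  decide +kernel

theorem ok_p61_7 : stepOKDR rows1 prio1 cap p61_7 lay62
    [192, 129, 195, 385, 387, 450, 450, 450] = true := by
  decide +kernel

theorem ok_p61_8 : stepOKDR rows1 prio1 cap p61_8 lay62
    [128, 514, 513, 512, 386, 576] = true := by
  decide +kernel

theorem ok_p61_9 : stepOKDR rows1 prio1 cap p61_9 lay62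
    [512, 515, 387, 576, 576, 448, 577, 450] = true := by
  decide +kernel

theorem ok_p61_10 : stepOKDR rows1 prio1 cap p61_10 lay62
    [514, 513, 451, 449, 577] = true := by
  decide +kernel

theorem ok_p62_0 : stepOKDR rows1 prio1 cap p62_0 lay63
    [64, 3, 129, 128, 67, 67, 66, 65, 67] = true := by
  decide +kernel

theorem ok_p62_1 : stepOKDR rows1 prio1 cap p62_1 lay63
    [194, 386, 194, 386, 131, 192, 65, 130, 67, 193, 193, 194] = true := by
  decide +kernel

theorem ok_p62_2 : stepOKDR rows1 prio1 cap p62_2 lay63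
    [66, 65, 257, 2, 66, 65, 257, 194, 193, 256, 195, 257, 257] = true := by
  decide +kernel

theorem ok_p62_3 : stepOKDR rows1 prio1 cap p62_3 lay63
    [258, 67, 256, 195, 258, 67, 256, 195, 194, 258, 258, 259] = true := by
  decide +kernel

theorem ok_p62_4 : stepOKDR rows1 prio1 cap p62_4 lay63
    [0, 321, 192, 320, 321, 192, 321, 65, 65, 322, 257, 257] = true := by
  decide +kernel

theorem ok_p62_5 : stepOKDR rows1 prio1 cap p62_5 lay63
    [1, 322, 257, 323, 67, 67, 65, 384, 385] = true := by
  decide +kernel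

theorem ok_p62_6 : stepOKDR rows1 prio1 cap p62_6 lay63
    [385, 193, 256, 195, 193, 385, 257, 193, 256, 195, 194, 386] = true := by
  decide +kernel

theorem ok_p62_7 : stepOKDR rows1 prio1 cap p62_7 lay63
    [386, 194, 256, 386, 195, 386, 193, 193, 387] = true := by
  decide +kernel

end Vale.Agent.Lib.P302.helper26.C755
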