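import Mathlib
import Vale.Agent.Lib.P302.helper26.C755.Base
import Vale.Agent.Lib.P302.helper26.C755.K22

/-!
# P302: chunks of the mask search of the 755-item instance (part 25)
-/

namespace Vale.Agent.Lib.P302.helper26.C755

open Vale.Agent.Lib.P302.helper14 Vale.Agent.Lib.P302.helper8 Vale.Agent.Lib.P302.helper9

theorem ok_p62_8 : stepOKDR rows1 prio1 cap p62_8 lay63
    [256, 195, 386, 386, 256, 195, 386, 386, 194, 193, 193, 448] = true := by
  decide +kernel

theorem ok_p62_9 : stepOKDR rows1 prio1 cap p62_9 lay63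
    [386, 386, 386, 386, 193, 193] = true := by
  decide +kernel

theorem ok_p63_0 : stepOKDR rows1 prio1 cap p63_0 lay64
    [67, 1, 0, 256, 129, 130, 259, 193, 258, 257, 256, 195] = true := by
  decide +kernel

theorem ok_p63_1 : stepOKDR rows1 prio1 cap p63_1 lay64
    [2, 259, 258, 256, 259, 258, 256, 194, 259, 321, 320] = true := by
  decide +kernel

theorem ok_p63_2 : stepOKDR rows1 prio1 cap p63_2 lay64
    [64, 3, 66, 65, 259, 259, 322, 256, 259] = true := by
  decide +kernel

theorem ok_p63_3 : stepOKDR rows1 prio1 cap p63_3 lay64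
    [322, 194, 323, 195, 194, 323, 194, 323, 195, 322, 320, 194, 323, 323, 384] = true := by
  decide +kernel

theorem ok_p63_4 : stepOKDR rows1 prio1 cap p63_4 lay64
    [321, 257, 320, 384, 321, 320, 384, 321, 257, 320, 384, 323, 323, 384] = true := by
  decide +kernel

theorem ok_p63_5 : stepOKDR rows1 prio1 cap p63_5 lay64
    [128, 385, 129, 131, 385, 385, 256, 320, 320, 259] = true := by
  decide +kernel

theorem ok_p63_6 : stepOKDR rows1 prio1 cap p63_6 lay64
    [192, 386, 384, 384, 384, 323, 386, 256, 320, 386, 384, 384, 323] = true := by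
  decide +kernel

theorem ok_p63_7 : stepOKDR rows1 prio1 cap p63_7 lay64
    [384, 384, 384, 323] = true := by
  decide +kernel

theorem ok_p64_0 : stepOKDR rows1 prio1 cap p64_0 lay65
    [1, 0, 2, 66, 256, 195, 194, 193, 192, 256] = true := by
  decide +kernel

theorem ok_p64_1 : stepOKDR rows1 prio1 cap p64_1 lay65
    [67, 3, 65, 64, 193, 258, 256, 257, 193, 256] = true := by
  decide +kernel

theorem ok_p64_2 : stepOKDR rows1 prio1 cap p64_2 lay65
    [128, 130, 129, 258, 259, 193, 386, 256, 256] = true := by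
  decide +kernel

theorem ok_p64_3 : stepOKDR rows1 prio1 cap p64_3 lay65
    [66, 131, 321, 193, 320, 323, 321, 323, 322, 321, 323, 384, 385] = true := by
  decide +kernel

theorem ok_p64_4 : stepOKDR rows1 prio1 cap p64_4 lay65
    [256, 195, 322, 193, 322, 323, 387, 386, 385] = true := by
  decide +kernel

theorem ok_p64_5 : stepOKDR rows1 prio1 cap p64_5 lay65
    [257, 387, 386, 384, 387, 386, 384, 386, 384] = true := by
  decide +kernel

theorem ok_p64_6 : stepOKDR rows1 prio1 cap p64_6 lay65
    [259, 320, 385, 386, 385, 384, 386] = true := by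
  decide +kernel

theorem ok_p65_0 : stepOKDR rows1 prio1 cap p65_0 lay66
    [1, 0, 67, 2, 66, 66, 64, 3, 66] = true := by
  decide +kernel

theorem ok_p65_1 : stepOKDR rows1 prio1 cap p65_1 lay66
    [3, 256, 129, 195, 65, 130, 3, 128, 66, 131, 193, 192] = true := by
  decide +kernel

theorem ok_p65_2 : stepOKDR rows1 prio1 cap p65_2 lay66
    [194, 257, 3, 259, 258, 66, 66, 3, 320, 321] = true := by
  decide +kernel

theorem ok_p65_3 : stepOKDR rows1 prio1 cap p65_3 lay66
    [64, 193, 3, 192, 64, 3, 322, 322, 193, 192, 384, 323] = true := by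
  decide +kernel

end Vale.Agent.Lib.P302.helper26.C755
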