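import Mathlib
import Vale.Agent.Lib.P302.helper26.C755.Base
import Vale.Agent.Lib.P302.helper26.C755.K23

/-!
# P302: chunks of the mask search of the 755-item instance (part 26)
-/

namespace Vale.Agent.Lib.P302.helper26.C755

open Vale.Agent.Lib.P302.helper14 Vale.Agent.Lib.P302.helper8 Vale.Agent.Lib.P302.helper9

theorem ok_p65_4 : stepOKDR rows1 prio1 cap p65_4 lay66
    [195, 66, 257, 130, 66, 257, 384, 130, 385, 384, 384] = true := by
  decide +kernel

theorem ok_p65_5 : stepOKDR rows1 prio1 cap p65_5 lay66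
    [321, 193, 192, 322, 321, 384, 193, 192, 322, 322, 386, 387] = true := by
  decide +kernel

theorem ok_p65_6 : stepOKDR rows1 prio1 cap p65_6 lay66
    [385, 384, 387, 385, 384, 386, 387, 387, 387, 386] = true := by
  decide +kernel

theorem ok_p66_0 : stepOKDR rows1 prio1 cap p66_0 lay67
    [4, 2, 0, 65, 64, 1, 0, 64, 66, 68] = true := by
  decide +kernel

theorem ok_p66_1 : stepOKDR rows1 prio1 cap p66_1 lay67
    [130, 3, 64, 1, 64, 129, 128, 67, 68] = true := by
  decide +kernel

theorem ok_p66_2 : stepOKDR rows1 prio1 cap p66_2 lay67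
    [192, 132, 3, 132, 0, 68, 131, 64, 195, 194, 193] = true := by
  decide +kernel

theorem ok_p66_3 : stepOKDR rows1 prio1 cap p66_3 lay67
    [257, 259, 256, 0, 68, 128, 67, 194, 193, 66, 196] = true := by
  decide +kernel

theorem ok_p66_4 : stepOKDR rows1 prio1 cap p66_4 lay67
    [256, 258, 0, 259, 68, 320, 260, 64, 64] = true := by
  decide +kernel

theorem ok_p66_5 : stepOKDR rows1 prio1 cap p66_5 lay67
    [66, 196, 0, 68, 322, 321, 321, 66, 66, 196, 323, 323, 196] = true := by
  decide +kernel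

theorem ok_p66_6 : stepOKDR rows1 prio1 cap p66_6 lay67
    [129, 68, 129, 68, 196, 129, 68, 323, 323, 196, 323, 196, 323, 323] = true := by
  decide +kernel

theorem ok_p67_0 : stepOKDR rows2 prio2 cap p67_0 lay68
    [0, 66, 64, 4, 3, 2, 67, 3, 2, 196, 195, 128] = true := by
  decide +kernel

theorem ok_p67_1 : stepOKDR rows2 prio2 cap p67_1 lay68
    [0, 129, 67, 130, 67, 1, 128, 0, 131, 257] = true := by
  decide +kernel

theorem ok_p67_2 : stepOKDR rows2 prio2 cap p67_2 lay68
    [132, 67, 193, 128, 129, 65, 257, 192, 67] = true := by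
  decide +kernel

theorem ok_p67_3 : stepOKDR rows2 prio2 cap p67_3 lay68
    [4, 65, 1, 194, 193, 2, 68, 256, 65, 1, 196, 195, 68, 257] = true := by
  decide +kernel

theorem ok_p67_4 : stepOKDR rows2 prio2 cap p67_4 lay68
    [258, 2, 260, 259, 259, 2, 128, 128, 320, 320, 322, 67] = true := by
  decide +kernel

theorem ok_p67_5 : stepOKDR rows2 prio2 cap p67_5 lay68
    [131, 321, 67, 2, 128, 324, 323, 323] = true := by
  decide +kernel

theorem ok_p68_0 : stepOKDR rows2 prio2 cap p68_0 lay69
    [128, 64, 3, 1, 0, 128, 128, 129, 2, 0, 131, 130] = true := by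
  decide +kernel

theorem ok_p68_1 : stepOKDR rows2 prio2 cap p68_1 lay69
    [65, 4, 66, 2, 130, 129, 132, 66, 3, 1, 130, 130] = true := by
  decide +kernel

theorem ok_p68_2 : stepOKDR rows2 prio2 cap p68_2 lay69
    [132, 68, 67, 131, 129, 129, 129, 66, 66] = true := by
  decide +kernel

end Vale.Agent.Lib.P302.helper26.C755
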