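import Mathlib
import Vale.Agent.Lib.P302.helper26.C755.Base
import Vale.Agent.Lib.P302.helper26.C755.K24

/-!
# P302: chunks of the mask search of the 755-item instance (part 27)
-/

namespace Vale.Agent.Lib.P302.helper26.C755

open Vale.Agent.Lib.P302.helper14 Vale.Agent.Lib.P302.helper8 Vale.Agent.Lib.P302.helper9

theorem ok_p68_3 : stepOKDR rows2 prio2 cap p68_3 lay69
    [194, 193, 128, 193, 1, 131, 192, 66, 196, 195, 259, 258, 257] = true := by
  decide +kernel

theorem ok_p68_4 : stepOKDR rows2 prio2 cap p68_4 lay69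
    [320, 1, 260, 256, 321, 260, 1, 131, 129, 256, 257, 259, 258, 257] = true := by
  decide +kernel

theorem ok_p68_5 : stepOKDR rows2 prio2 cap p68_5 lay69
    [321, 131, 323, 322, 66, 66, 384, 324, 1, 131, 324] = true := by
  decide +kernel

theorem ok_p69_0 : stepOKDR rows2 prio2 cap p69_0 lay70
    [0, 0, 4, 3, 64, 1, 2, 130] = true := by
  decide +kernel

theorem ok_p69_1 : stepOKDR rows2 prio2 cap p69_1 lay70
    [65, 67, 67, 66, 128, 64, 1, 67, 68] = true := by
  decide +kernel

theorem ok_p69_2 : stepOKDR rows2 prio2 cap p69_2 lay70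
    [0, 65, 2, 129, 129, 130] = true := by
  decide +kernel

theorem ok_p69_3 : stepOKDR rows2 prio2 cap p69_3 lay70
    [0, 132, 3, 2, 67, 131, 195, 194, 192] = true := by
  decide +kernel

theorem ok_p69_4 : stepOKDR rows2 prio2 cap p69_4 lay70
    [196, 2, 0, 129, 195, 194, 192, 195, 194, 193, 192] = true := by
  decide +kernel

theorem ok_p69_5 : stepOKDR rows2 prio2 cap p69_5 lay70
    [196, 3, 2, 195, 257, 67, 67, 256, 2, 258] = true := by
  decide +kernel

theorem ok_p69_6 : stepOKDR rows2 prio2 cap p69_6 lay70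
    [3, 258] = true := by
  decide +kernel

theorem ok_p70_0 : stepOKDR rows2 prio2 cap p70_0 lay71
    [1, 1, 0, 64, 3] = true := by
  decide +kernel

theorem ok_p70_1 : stepOKDR rows2 prio2 cap p70_1 lay71
    [2, 67, 65, 66, 3, 66] = true := by
  decide +kernel

theorem ok_p70_2 : stepOKDR rows2 prio2 cap p70_2 lay71
    [68, 0, 66, 3, 64, 0, 129, 66] = true := by
  decide +kernel

theorem ok_p70_3 : stepOKDR rows2 prio2 cap p70_3 lay71
    [64, 4, 1, 128, 130, 128] = true := by
  decide +kernel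

theorem ok_p70_4 : stepOKDR rows2 prio2 cap p70_4 lay71
    [132, 131, 66, 66, 64] = true := by
  decide +kernel

theorem ok_p71_0 : stepOKDR rows2 prio2 cap p71_0 lay72
    [1, 65, 67, 68, 67, 67, 66, 67, 67, 67, 67] = true := by
  decide +kernel

theorem ok_p71_1 : stepOKDR rows2 prio2 cap p71_1 lay72
    [3, 2, 67, 68, 68, 67, 68, 128, 128, 67] = true := by
  decide +kernel

theorem ok_p71_2 : stepOKDR rows2 prio2 cap p71_2 lay72
    [0, 4, 64, 67, 67, 67, 68, 67, 68, 68] = true := by
  decide +kernel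

theorem ok_p72_0 : stepOKDR rows2 prio2 cap p72_0 lay73
    [0, 2, 1, 3, 64, 67, 67, 67, 67, 67] = true := by
  decide +kernel

end Vale.Agent.Lib.P302.helper26.C755
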