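import Mathlib
import Vale.Agent.Lib.P302.helper26.C755.Base
import Vale.Agent.Lib.P302.helper26.C755.K25

/-!
# P302: chunks of the mask search of the 755-item instance (part 28)
-/

namespace Vale.Agent.Lib.P302.helper26.C755

open Vale.Agent.Lib.P302.helper14 Vale.Agent.Lib.P302.helper8 Vale.Agent.Lib.P302.helper9

theorem ok_p72_1 : stepOKDR rows2 prio2 cap p72_1 lay73
    [4, 65, 67, 66, 128, 67, 67, 68, 128, 130, 130, 128, 129] = true := by
  decide +kernel

theorem ok_p72_2 : stepOKDR rows2 prio2 cap p72_2 lay73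
    [130, 130, 130] = true := by
  decide +kernel

theorem ok_p73_0 : stepOKDR rows2 prio2 cap p73_0 lay74
    [1, 3, 2, 66, 66, 66, 4, 66, 64, 66] = true := by
  decide +kernel

theorem ok_p73_1 : stepOKDR rows2 prio2 cap p73_1 lay74
    [0, 66, 65, 66, 128, 67, 68, 131, 66, 129, 130, 132, 192, 128] = true := by
  decide +kernel

theorem ok_p73_2 : stepOKDR rows2 prio2 cap p73_2 lay74
    [129, 131, 192, 131, 131, 129, 130] = true := by
  decide +kernel

theorem ok_p74_0 : stepOKDR rows2 prio2 cap p74_0 lay75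
    [0, 2, 1, 3, 64, 66, 66, 66, 66, 66] = true := by
  decide +kernel

theorem ok_p74_1 : stepOKDR rows2 prio2 cap p74_1 lay75
    [65, 66, 4, 65, 68, 129, 66, 67, 68, 128] = true := by
  decide +kernel

theorem ok_p74_2 : stepOKDR rows2 prio2 cap p74_2 lay75
    [67, 129, 68, 128, 130, 131, 132, 192, 192, 193, 129, 129, 192, 194] = true := by
  decide +kernel

theorem ok_p74_3 : stepOKDR rows2 prio2 cap p74_3 lay75
    [193, 193, 194] = true := by
  decide +kernel

theorem ok_p75_0 : stepOKDR rows2 prio2 cap p75_0 lay76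
    [0, 4, 3, 2, 2, 2, 64, 2, 65, 2] = true := by
  decide +kernel

theorem ok_p75_1 : stepOKDR rows2 prio2 cap p75_1 lay76
    [67, 2, 68, 1, 128, 2, 66, 2, 129, 68, 130, 131, 68, 128] = true := by
  decide +kernel

theorem ok_p75_2 : stepOKDR rows2 prio2 cap p75_2 lay76
    [68, 128, 131, 128, 131, 131, 132, 68, 192, 193, 131, 193, 128, 193] = true := by
  decide +kernel

theorem ok_p75_3 : stepOKDR rows2 prio2 cap p75_3 lay76
    [130, 194, 131, 195, 195, 195, 195] = true := by
  decide +kernel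

theorem ok_p76_0 : stepOKDR rows2 prio2 cap p76_0 lay77
    [0, 1, 65, 2, 2, 64, 2, 4, 2, 3] = true := by
  decide +kernel

theorem ok_p76_1 : stepOKDR rows2 prio2 cap p76_1 lay77
    [0, 3, 129, 130, 4, 130, 66, 2, 2, 68, 67, 2] = true := by
  decide +kernel

theorem ok_p76_2 : stepOKDR rows2 prio2 cap p76_2 lay77
    [4, 4, 128, 131, 193, 132, 192, 193, 193, 194, 195, 196] = true := by
  decide +kernel

theorem ok_p76_3 : stepOKDR rows2 prio2 cap p76_3 lay77
    [128, 131, 193, 256, 256, 193, 257, 258, 193] = true := by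
  decide +kernel

theorem ok_p77_0 : stepOKDR rows2 prio2 cap p77_0 lay78
    [0, 1, 3, 4, 4, 64, 3, 3, 65] = true := by
  decide +kernel

theorem ok_p77_1 : stepOKDR rows2 prio2 cap p77_1 lay78
    [4, 67, 4, 66, 4, 68, 4, 4, 129, 128] = true := by
  decide +kernel

theorem ok_p77_2 : stepOKDR rows2 prio2 cap p77_2 lay78
    [0, 1, 2, 131, 132, 3, 192, 65, 193, 130, 194, 131, 195, 257, 256] = true := by
  decide +kernel

end Vale.Agent.Lib.P302.helper26.C755
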