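import Mathlib
import Vale.Agent.Lib.P302.helper26.C755.Base
import Vale.Agent.Lib.P302.helper26.C755.K27

/-!
# P302: chunks of the mask search of the 755-item instance (part 30)
-/

namespace Vale.Agent.Lib.P302.helper26.C755

open Vale.Agent.Lib.P302.helper14 Vale.Agent.Lib.P302.helper8 Vale.Agent.Lib.P302.helper9

theorem ok_p81_1 : stepOKDR rows2 prio2 cap p81_1 lay82
    [64, 68, 68, 128, 132, 68, 131, 129, 130, 68, 192] = true := by
  decide +kernel

theorem ok_p81_2 : stepOKDR rows2 prio2 cap p81_2 lay82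
    [2, 195, 196, 0, 64, 68, 68, 194, 193, 256, 256, 257] = true := by
  decide +kernel

theorem ok_p81_3 : stepOKDR rows2 prio2 cap p81_3 lay82
    [195, 65, 67, 129, 67, 67, 256, 256] = true := by
  decide +kernel

theorem ok_p82_0 : stepOKDR rows2 prio2 cap p82_0 lay83
    [64, 65, 0, 66, 0, 67, 128, 68, 1, 2, 128, 3] = true := by
  decide +kernel

theorem ok_p82_1 : stepOKDR rows2 prio2 cap p82_1 lay83
    [4, 132, 132, 132, 132, 67, 128, 192, 129, 130] = true := by
  decide +kernel

theorem ok_p82_2 : stepOKDR rows2 prio2 cap p82_2 lay83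
    [131, 196, 195, 67, 128, 192, 192, 192, 193, 194] = true := by
  decide +kernel

theorem ok_p82_3 : stepOKDR rows2 prio2 cap p82_3 lay83
    [259, 67, 260, 128, 256, 192, 258, 257, 192, 192] = true := by
  decide +kernel

theorem ok_p82_4 : stepOKDR rows2 prio2 cap p82_4 lay83
    [0, 3, 0, 320, 3] = true := by
  decide +kernel

theorem ok_p83_0 : stepOKDR rows2 prio2 cap p83_0 lay84
    [65, 64, 2, 0, 0, 64, 1, 2, 2, 3, 4, 64, 64] = true := by
  decide +kernel

theorem ok_p83_1 : stepOKDR rows2 prio2 cap p83_1 lay84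
    [65, 67, 128, 130, 0, 132, 131, 132, 132, 192] = true := by
  decide +kernel

theorem ok_p83_2 : stepOKDR rows2 prio2 cap p83_2 lay84
    [66, 68, 129, 194, 195, 195, 132, 192, 193] = true := by
  decide +kernel

theorem ok_p83_3 : stepOKDR rows2 prio2 cap p83_3 lay84
    [258, 257, 194, 194, 194, 195, 132, 192, 196, 256] = true := by
  decide +kernel

theorem ok_p83_4 : stepOKDR rows2 prio2 cap p83_4 lay84
    [321, 322, 132, 192, 259, 194, 320, 260, 194, 194] = true := by
  decide +kernel

theorem ok_p83_5 : stepOKDR rows2 prio2 cap p83_5 lay84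
    [3, 3] = true := by
  decide +kernel

theorem ok_p84_0 : stepOKDR rows2 prio2 cap p84_0 lay85
    [4, 2, 0, 1, 1, 4, 2, 1, 2, 3, 4] = true := by
  decide +kernel

theorem ok_p84_1 : stepOKDR rows2 prio2 cap p84_1 lay85
    [4, 2, 64, 4, 2, 2, 66, 129, 128, 132, 130, 2, 4] = true := by
  decide +kernel

theorem ok_p84_2 : stepOKDR rows2 prio2 cap p84_2 lay85
    [64, 67, 68, 128, 131, 1, 131, 132, 192, 1, 193, 1] = true := by
  decide +kernel

theorem ok_p84_3 : stepOKDR rows2 prio2 cap p84_3 lay85
    [65, 194, 130, 132, 192, 194, 132, 194, 194, 193, 195, 196] = true := by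
  decide +kernel

theorem ok_p84_4 : stepOKDR rows2 prio2 cap p84_4 lay85
    [257, 256, 130, 130, 193, 196, 258, 130, 259, 130] = true := by
  decide +kernel

theorem ok_p84_5 : stepOKDR rows2 prio2 cap p84_5 lay85
    [320, 321, 321, 132, 193, 260, 130] = true := by
  decide +kernel

end Vale.Agent.Lib.P302.helper26.C755
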