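import Mathlib
import Vale.Agent.Lib.P302.helper26.C755.Base
import Vale.Agent.Lib.P302.helper26.C755.K28

/-!
# P302: chunks of the mask search of the 755-item instance (part 31)
-/

namespace Vale.Agent.Lib.P302.helper26.C755

open Vale.Agent.Lib.P302.helper14 Vale.Agent.Lib.P302.helper8 Vale.Agent.Lib.P302.helper9

theorem ok_p85_0 : stepOKDR rows2 prio2 cap p85_0 lay86
    [4, 3, 3, 0, 1, 2, 3, 3, 1, 2, 3, 3, 3] = true := by
  decide +kernel

theorem ok_p85_1 : stepOKDR rows2 prio2 cap p85_1 lay86
    [3, 4, 3, 4, 64, 3, 65, 68, 128, 129, 129, 66, 130, 67] = true := by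
  decide +kernel

theorem ok_p85_2 : stepOKDR rows2 prio2 cap p85_2 lay86
    [4, 131, 192, 132, 193, 68, 128, 129, 192, 193, 193] = true := by
  decide +kernel

theorem ok_p85_3 : stepOKDR rows2 prio2 cap p85_3 lay86
    [64, 129, 130, 193, 132, 132, 193, 193, 195, 194, 195] = true := by
  decide +kernel

theorem ok_p85_4 : stepOKDR rows2 prio2 cap p85_4 lay86
    [256, 196, 192, 192, 257, 192, 259, 258, 192, 192] = true := by
  decide +kernel

theorem ok_p85_5 : stepOKDR rows2 prio2 cap p85_5 lay86
    [320, 129, 260, 320, 193] = true := by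
  decide +kernel

theorem ok_p86_0 : stepOKDR rows2 prio2 cap p86_0 lay87
    [130, 130, 131, 130, 131, 0, 1, 2, 65, 4, 64, 65, 65] = true := by
  decide +kernel

theorem ok_p86_1 : stepOKDR rows2 prio2 cap p86_1 lay87
    [131, 131, 0, 132, 192, 193, 195, 194, 195, 196, 193, 256] = true := by
  decide +kernel

theorem ok_p86_2 : stepOKDR rows2 prio2 cap p86_2 lay87
    [130, 3, 258, 257, 257, 194, 195, 196, 256, 256] = true := by
  decide +kernel

theorem ok_p86_3 : stepOKDR rows2 prio2 cap p86_3 lay87
    [131, 66, 258, 256, 195, 257, 258, 256, 256, 259, 260, 260] = true := by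
  decide +kernel

theorem ok_p86_4 : stepOKDR rows2 prio2 cap p86_4 lay87
    [320, 67, 258, 321, 195, 68, 258, 258, 129, 128, 258] = true := by
  decide +kernel

theorem ok_p86_5 : stepOKDR rows2 prio2 cap p86_5 lay87
    [321, 256] = true := by
  decide +kernel

theorem ok_p87_0 : stepOKDR rows2 prio2 cap p87_0 lay88
    [1, 130, 65, 3, 4, 3, 4, 64, 64] = true := by
  decide +kernel

theorem ok_p87_1 : stepOKDR rows2 prio2 cap p87_1 lay88
    [68, 67, 130, 131, 65, 65, 4, 64, 64, 66, 128, 65] = true := by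
  decide +kernel

theorem ok_p87_2 : stepOKDR rows2 prio2 cap p87_2 lay88
    [0, 131, 130, 131, 131, 132, 192, 129, 65, 65] = true := by
  decide +kernel

theorem ok_p87_3 : stepOKDR rows2 prio2 cap p87_3 lay88
    [130, 3, 132, 192, 193, 2, 195, 194, 194, 194] = true := by
  decide +kernel

theorem ok_p87_4 : stepOKDR rows2 prio2 cap p87_4 lay88
    [131, 192, 65, 195, 194, 194, 196] = true := by
  decide +kernel

theorem ok_p87_5 : stepOKDR rows2 prio2 cap p87_5 lay88
    [256, 192, 194] = true := by
  decide +kernel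

theorem ok_p88_0 : stepOKDR rows2 prio2 cap p88_0 lay89
    [0, 1, 3, 66, 66, 131, 67, 130] = true := by
  decide +kernel

theorem ok_p88_1 : stepOKDR rows2 prio2 cap p88_1 lay89
    [4, 2, 66, 66, 66, 129, 68, 128, 130] = true := by
  decide +kernel

end Vale.Agent.Lib.P302.helper26.C755
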