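import Mathlib
import Vale.Agent.Lib.P302.helper26.C755.Base
import Vale.Agent.Lib.P302.helper26.C755.K26

/-!
# P302: chunks of the mask search of the 755-item instance (part 29)
-/

namespace Vale.Agent.Lib.P302.helper26.C755

open Vale.Agent.Lib.P302.helper14 Vale.Agent.Lib.P302.helper8 Vale.Agent.Lib.P302.helper9

theorem ok_p77_3 : stepOKDR rows2 prio2 cap p77_3 lay78
    [130, 132, 195, 196, 257, 258, 131, 259, 260, 257, 320] = true := by
  decide +kernel

theorem ok_p77_4 : stepOKDR rows2 prio2 cap p77_4 lay78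
    [132, 195, 131, 321, 322, 257, 323] = true := by
  decide +kernel

theorem ok_p78_0 : stepOKDR rows2 prio2 cap p78_0 lay79
    [4, 65, 1, 1, 2, 4, 64, 65, 65, 66] = true := by
  decide +kernel

theorem ok_p78_1 : stepOKDR rows2 prio2 cap p78_1 lay79
    [1, 3, 128, 68, 66, 66, 66, 65, 67, 129, 66] = true := by
  decide +kernel

theorem ok_p78_2 : stepOKDR rows2 prio2 cap p78_2 lay79
    [0, 132, 192, 4, 64, 193, 194, 193, 131, 130, 66, 66] = true := by
  decide +kernel

theorem ok_p78_3 : stepOKDR rows2 prio2 cap p78_3 lay79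
    [1, 2, 65, 195, 195, 132, 192, 196, 196, 256, 257] = true := by
  decide +kernel

theorem ok_p78_4 : stepOKDR rows2 prio2 cap p78_4 lay79
    [132, 192, 193, 256, 257, 258, 259, 259, 260, 320] = true := by
  decide +kernel

theorem ok_p78_5 : stepOKDR rows2 prio2 cap p78_5 lay79
    [193, 196, 194, 260, 320, 321, 258] = true := by
  decide +kernel

theorem ok_p79_0 : stepOKDR rows2 prio2 cap p79_0 lay80
    [0, 1, 2, 67, 68, 132, 129, 128, 130, 131] = true := by
  decide +kernel

theorem ok_p79_1 : stepOKDR rows2 prio2 cap p79_1 lay80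
    [3, 129, 128, 129, 130, 130, 132, 132] = true := by
  decide +kernel

theorem ok_p79_2 : stepOKDR rows2 prio2 cap p79_2 lay80
    [0, 4, 64, 66, 65, 192, 193, 129, 129, 129, 129] = true := by
  decide +kernel

theorem ok_p79_3 : stepOKDR rows2 prio2 cap p79_3 lay80
    [1, 192, 194, 128, 130, 67, 194, 195, 132, 192, 196] = true := by
  decide +kernel

theorem ok_p79_4 : stepOKDR rows2 prio2 cap p79_4 lay80
    [192, 193, 193, 194, 196, 256] = true := by
  decide +kernel

theorem ok_p79_5 : stepOKDR rows2 prio2 cap p79_5 lay80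
    [194, 256] = true := by
  decide +kernel

theorem ok_p80_0 : stepOKDR rows2 prio2 cap p80_0 lay81
    [0, 132, 1, 131, 132, 4, 4, 64, 67, 4, 66] = true := by
  decide +kernel

theorem ok_p80_1 : stepOKDR rows2 prio2 cap p80_1 lay81
    [2, 3, 4, 68, 4, 4, 129, 128, 132, 131, 192] = true := by
  decide +kernel

theorem ok_p80_2 : stepOKDR rows2 prio2 cap p80_2 lay81
    [4, 192, 132, 65, 193, 132, 131, 193, 193, 192, 194, 193] = true := by
  decide +kernel

theorem ok_p80_3 : stepOKDR rows2 prio2 cap p80_3 lay81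
    [132, 132, 130, 132, 132, 195, 0, 131, 132, 194, 195] = true := by
  decide +kernel

theorem ok_p80_4 : stepOKDR rows2 prio2 cap p80_4 lay81
    [195, 132] = true := by
  decide +kernel

theorem ok_p81_0 : stepOKDR rows2 prio2 cap p81_0 lay82
    [67, 1, 2, 256, 3, 0, 4, 64, 68, 65, 66] = true := by
  decide +kernel

end Vale.Agent.Lib.P302.helper26.C755
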