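import Mathlib
import Vale.Agent.Lib.P302.helper26.C755.Base
import Vale.Agent.Lib.P302.helper26.C755.K29

/-!
# P302: chunks of the mask search of the 755-item instance (part 32)
-/

namespace Vale.Agent.Lib.P302.helper26.C755

open Vale.Agent.Lib.P302.helper14 Vale.Agent.Lib.P302.helper8 Vale.Agent.Lib.P302.helper9

theorem ok_p88_2 : stepOKDR rows2 prio2 cap p88_2 lay89
    [64, 65, 131, 132, 192, 66, 66] = true := by
  decide +kernel

theorem ok_p88_3 : stepOKDR rows2 prio2 cap p88_3 lay89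
    [131, 132, 129, 129, 192, 192, 67] = true := by
  decide +kernel

theorem ok_p88_4 : stepOKDR rows2 prio2 cap p88_4 lay89
    [192] = true := by
  decide +kernel

theorem ok_p89_0 : stepOKDR rows2 prio2 cap p89_0 lay90
    [1, 3, 2, 0, 64, 65, 65, 65, 65, 66] = true := by
  decide +kernel

theorem ok_p89_1 : stepOKDR rows2 prio2 cap p89_1 lay90
    [4, 5, 65, 66, 128, 65, 65, 128, 68, 68] = true := by
  decide +kernel

theorem ok_p89_2 : stepOKDR rows2 prio2 cap p89_2 lay90
    [69, 128, 128, 128, 67, 128, 128, 128, 68, 128] = true := by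
  decide +kernel

theorem ok_p89_3 : stepOKDR rows2 prio2 cap p89_3 lay90
    [128, 128] = true := by
  decide +kernel

theorem ok_p90_0 : stepOKDR rows3 prio3 cap p90_0 lay91
    [3, 64, 5, 1, 4, 4, 4, 2, 65, 4, 66, 4] = true := by
  decide +kernel

theorem ok_p90_1 : stepOKDR rows3 prio3 cap p90_1 lay91
    [129, 4, 0, 4, 67, 68, 2, 68, 130, 68, 69, 128, 68] = true := by
  decide +kernel

theorem ok_p90_2 : stepOKDR rows3 prio3 cap p90_2 lay91
    [130, 130, 68] = true := by
  decide +kernel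

theorem ok_p91_0 : stepOKDR rows3 prio3 cap p91_0 lay92
    [0, 1, 68, 3, 68, 69, 68, 67, 67, 69, 64, 68] = true := by
  decide +kernel

theorem ok_p91_1 : stepOKDR rows3 prio3 cap p91_1 lay92
    [2, 69, 68, 4, 68, 5, 68, 128, 128, 128, 129, 69, 65, 130] = true := by
  decide +kernel

theorem ok_p91_2 : stepOKDR rows3 prio3 cap p91_2 lay92
    [131, 66, 131, 129, 131, 69, 130] = true := by
  decide +kernel

theorem ok_p92_0 : stepOKDR rows3 prio3 cap p92_0 lay93
    [0, 2, 1, 3, 4, 65, 66, 66, 66, 67, 66, 66] = true := by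
  decide +kernel

theorem ok_p92_1 : stepOKDR rows3 prio3 cap p92_1 lay93
    [5, 69, 66, 128, 67, 128, 132, 66, 64, 68] = true := by
  decide +kernel

theorem ok_p92_2 : stepOKDR rows3 prio3 cap p92_2 lay93
    [64, 132, 128, 68, 129, 130, 130, 130, 131] = true := by
  decide +kernel

theorem ok_p93_0 : stepOKDR rows3 prio3 cap p93_0 lay94
    [1, 1, 2, 4, 1, 3, 1, 5, 65, 1, 1, 64] = true := by
  decide +kernel

theorem ok_p93_1 : stepOKDR rows3 prio3 cap p93_1 lay94
    [0, 66, 130, 67, 67, 68, 128, 1, 68, 69, 129, 68, 69, 67, 67] = true := by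
  decide +kernel

theorem ok_p93_2 : stepOKDR rows3 prio3 cap p93_2 lay94
    [130, 67, 69, 129, 69, 129, 69, 69, 129, 131, 67, 132, 132, 67, 67] = true := by
  decide +kernel

theorem ok_p94_0 : stepOKDR rows3 prio3 cap p94_0 lay95
    [1, 65, 3, 64, 2, 5, 64, 64, 4, 64, 66, 64] = true := by
  decide +kernel

end Vale.Agent.Lib.P302.helper26.C755
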