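import Mathlib
import Vale.Agent.Lib.P302.helper26.C755.Base
import Vale.Agent.Lib.P302.helper26.C755.K30

/-!
# P302: chunks of the mask search of the 755-item instance (part 33)
-/

namespace Vale.Agent.Lib.P302.helper26.C755

open Vale.Agent.Lib.P302.helper14 Vale.Agent.Lib.P302.helper8 Vale.Agent.Lib.P302.helper9

theorem ok_p94_1 : stepOKDR rows3 prio3 cap p94_1 lay95
    [0, 4, 68, 67, 64, 64, 69, 131, 69, 132, 5, 5] = true := by
  decide +kernel

theorem ok_p94_2 : stepOKDR rows3 prio3 cap p94_2 lay95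
    [129, 131, 131, 132, 128, 130, 130, 5, 133, 192, 192] = true := by
  decide +kernel

theorem ok_p95_0 : stepOKDR rows3 prio3 cap p95_0 lay96
    [0, 129, 193, 65, 4, 3, 65, 5, 64, 64, 66, 66] = true := by
  decide +kernel

theorem ok_p95_1 : stepOKDR rows3 prio3 cap p95_1 lay96
    [2, 65, 67, 65, 66, 65, 68, 65, 65, 128, 69, 193] = true := by
  decide +kernel

theorem ok_p95_2 : stepOKDR rows3 prio3 cap p95_2 lay96
    [129, 133, 192, 1, 131, 132, 132, 129, 130, 133, 130, 66, 194, 193] = true := by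
  decide +kernel

theorem ok_p95_3 : stepOKDR rows3 prio3 cap p95_3 lay96
    [193, 195] = true := by
  decide +kernel

theorem ok_p96_0 : stepOKDR rows3 prio3 cap p96_0 lay97
    [1, 2, 133, 5, 5, 64, 65, 192, 68, 66, 67, 68] = true := by
  decide +kernel

theorem ok_p96_1 : stepOKDR rows3 prio3 cap p96_1 lay97
    [3, 4, 68, 68, 66, 69, 69, 68, 128, 68] = true := by
  decide +kernel

theorem ok_p96_2 : stepOKDR rows3 prio3 cap p96_2 lay97
    [0, 65, 192, 64, 132, 131, 132, 69, 68, 129, 129, 130, 129] = true := by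
  decide +kernel

theorem ok_p96_3 : stepOKDR rows3 prio3 cap p96_3 lay97
    [133, 133, 192, 65, 193, 129, 194, 194] = true := by
  decide +kernel

theorem ok_p97_0 : stepOKDR rows3 prio3 cap p97_0 lay98
    [1, 3, 2, 4, 64, 65, 65, 65, 65, 65, 132] = true := by
  decide +kernel

theorem ok_p97_1 : stepOKDR rows3 prio3 cap p97_1 lay98
    [0, 65, 67, 68, 128, 128, 69] = true := by
  decide +kernel

theorem ok_p97_2 : stepOKDR rows3 prio3 cap p97_2 lay98
    [5, 130, 66, 67, 132, 67, 131, 128, 65, 129, 66] = true := by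
  decide +kernel

theorem ok_p97_3 : stepOKDR rows3 prio3 cap p97_3 lay98
    [132, 68, 66] = true := by
  decide +kernel

theorem ok_p98_0 : stepOKDR rows3 prio3 cap p98_0 lay99
    [2, 5, 3, 3, 0, 4, 3, 1, 64, 3, 65, 3] = true := by
  decide +kernel

theorem ok_p98_1 : stepOKDR rows3 prio3 cap p98_1 lay99
    [3, 66, 3, 69, 67, 69, 68, 1, 69, 68, 68, 69, 68] = true := by
  decide +kernel

theorem ok_p98_2 : stepOKDR rows3 prio3 cap p98_2 lay99
    [128, 69, 68, 129, 129, 68, 69, 68, 68, 129, 68, 69, 69] = true := by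
  decide +kernel

theorem ok_p99_0 : stepOKDR rows3 prio3 cap p99_0 lay100
    [1, 65, 64, 4, 4, 2, 5, 3, 5, 5, 3, 5] = true := by
  decide +kernel

theorem ok_p99_1 : stepOKDR rows3 prio3 cap p99_1 lay100
    [0, 4, 66, 5, 68, 67, 5, 5, 128, 69, 128, 4, 4, 128] = true := by
  decide +kernel

theorem ok_p99_2 : stepOKDR rows3 prio3 cap p99_2 lay100
    [130, 129, 130, 4, 130] = true := by
  decide +kernel

end Vale.Agent.Lib.P302.helper26.C755
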