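import Mathlib
import Vale.Agent.Lib.P302.helper26.C755.Base
import Vale.Agent.Lib.P302.helper26.C755.K31

/-!
# P302: chunks of the mask search of the 755-item instance (part 34)
-/

namespace Vale.Agent.Lib.P302.helper26.C755

open Vale.Agent.Lib.P302.helper14 Vale.Agent.Lib.P302.helper8 Vale.Agent.Lib.P302.helper9

theorem ok_p100_0 : stepOKDR rows3 prio3 cap p100_0 lay101
    [0, 1, 3, 2, 4, 64, 64, 5] = true := by
  decide +kernel

theorem ok_p100_1 : stepOKDR rows3 prio3 cap p100_1 lay101
    [0, 66, 65, 4, 4, 67, 4, 69, 68, 4, 4, 1] = true := by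
  decide +kernel

theorem ok_p100_2 : stepOKDR rows3 prio3 cap p100_2 lay101
    [1, 129, 64, 130, 130, 64, 128] = true := by
  decide +kernel

theorem ok_p101_0 : stepOKDR rows3 prio3 cap p101_0 lay102
    [64, 0, 2, 1, 2, 2, 5, 3, 65, 4, 64, 65, 4, 64] = true := by
  decide +kernel

theorem ok_p101_1 : stepOKDR rows3 prio3 cap p101_1 lay102
    [64, 67, 66, 65, 65, 64, 68, 65, 128, 69, 65, 65] = true := by
  decide +kernel

theorem ok_p101_2 : stepOKDR rows3 prio3 cap p101_2 lay102
    [2, 129, 130, 130, 130, 64, 64, 2] = true := by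
  decide +kernel

theorem ok_p102_0 : stepOKDR rows3 prio3 cap p102_0 lay103
    [65, 0, 0, 1, 1, 2, 3, 3, 4, 66, 64, 5, 65, 64] = true := by
  decide +kernel

theorem ok_p102_1 : stepOKDR rows3 prio3 cap p102_1 lay103
    [68, 67, 66, 66, 65, 66, 69, 66, 128, 66] = true := by
  decide +kernel

theorem ok_p102_2 : stepOKDR rows3 prio3 cap p102_2 lay103
    [130, 131, 65, 131, 129, 66] = true := by
  decide +kernel

theorem ok_p103_0 : stepOKDR rows3 prio3 cap p103_0 lay104
    [67, 67, 1, 0, 0, 1, 2, 4, 3, 4, 64, 65, 5, 66] = true := by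
  decide +kernel

theorem ok_p103_1 : stepOKDR rows3 prio3 cap p103_1 lay104
    [69, 68, 65, 65, 65, 67, 67, 67, 66, 128, 65] = true := by
  decide +kernel

theorem ok_p103_2 : stepOKDR rows3 prio3 cap p103_2 lay104
    [132, 131, 67, 132, 129, 130, 65, 65] = true := by
  decide +kernel

theorem ok_p104_0 : stepOKDR rows3 prio3 cap p104_0 lay105
    [0, 69, 69, 69, 3, 4, 3, 5, 5, 64, 64, 67] = true := by
  decide +kernel

theorem ok_p104_1 : stepOKDR rows3 prio3 cap p104_1 lay105
    [1, 65, 2, 68, 68, 68, 67, 69, 69] = true := by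
  decide +kernel

theorem ok_p104_2 : stepOKDR rows3 prio3 cap p104_2 lay105
    [66, 129, 130, 130, 69, 68, 3, 128, 68, 68] = true := by
  decide +kernel

theorem ok_p105_0 : stepOKDR rows3 prio3 cap p105_0 lay106
    [1, 1, 0, 3, 3, 2] = true := by
  decide +kernel

theorem ok_p105_1 : stepOKDR rows3 prio3 cap p105_1 lay106
    [1, 1, 0, 3, 2, 1, 3, 3] = true := by
  decide +kernel

theorem ok_p105_2 : stepOKDR rows3 prio3 cap p105_2 lay106
    [4, 3, 1] = true := by
  decide +kernel

theorem ok_p106_0 : stepOKDR rows3 prio3 cap p106_0 lay107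
    [0, 0, 0, 0] = true := by
  decide +kernel

theorem ok_p107_0 : stepOKDR rows4 prio4 cap p107_0 lay108
    [0] = true := by
  decide +kernel

theorem ok_p108_0 : stepOKDR rows4 prio4 cap p108_0 lay109
    [0, 1, 2] = true := by
  decide +kernel

theorem ok_p109_0 : stepOKDR rows4 prio4 cap p109_0 lay110
    [0, 1, 2, 3, 2, 4, 5, 64, 5] = true := by
  decide +kernel

end Vale.Agent.Lib.P302.helper26.C755
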