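import Mathlib
import Vale.Agent.Lib.P302.helper26.C755.Base
import Vale.Agent.Lib.P302.helper26.C755.K32

/-!
# P302: chunks of the mask search of the 755-item instance (part 35)
-/

namespace Vale.Agent.Lib.P302.helper26.C755

open Vale.Agent.Lib.P302.helper14 Vale.Agent.Lib.P302.helper8 Vale.Agent.Lib.P302.helper9

theorem ok_p110_0 : stepOKDR rows4 prio4 cap p110_0 lay111
    [0, 65, 1, 2, 3, 68, 65, 65, 66, 67, 67, 4, 68, 68, 5] = true := by
  decide +kernel

theorem ok_p110_1 : stepOKDR rows4 prio4 cap p110_1 lay111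
    [3, 65, 68, 64] = true := by
  decide +kernel

theorem ok_p111_0 : stepOKDR rows4 prio4 cap p111_0 lay112
    [1, 1, 2, 1, 1, 3, 3, 4, 3, 4, 4, 5, 4, 0, 64, 65, 66] = true := by
  decide +kernel

theorem ok_p111_1 : stepOKDR rows4 prio4 cap p111_1 lay112
    [1, 2, 4, 0, 67, 68, 68, 64, 68, 69, 65, 1, 128, 66, 4] = true := by
  decide +kernel

theorem ok_p112_0 : stepOKDR rows4 prio4 cap p112_0 lay113
    [4, 4, 5, 5, 68, 5, 64, 1, 65, 0, 65, 66, 2, 67, 3] = true := by
  decide +kernel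

theorem ok_p112_1 : stepOKDR rows4 prio4 cap p112_1 lay113
    [64, 5, 1, 5, 5, 3, 128, 5, 68, 129, 129, 69, 69, 5, 5] = true := by
  decide +kernel

theorem ok_p112_2 : stepOKDR rows4 prio4 cap p112_2 lay113
    [67, 129] = true := by
  decide +kernel

theorem ok_p113_0 : stepOKDR rows4 prio4 cap p113_0 lay114
    [4, 1, 0, 2, 3, 131, 129, 4, 131, 131, 129, 192, 67, 67, 130, 64, 68, 68] = true := by
  decide +kernel

theorem ok_p113_1 : stepOKDR rows4 prio4 cap p113_1 lay114
    [5, 64, 65, 66, 131, 132, 129, 69, 69, 133, 130, 128, 128, 193, 129, 192, 130] = true := by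
  decide +kernel

theorem ok_p113_2 : stepOKDR rows4 prio4 cap p113_2 lay114
    [132, 133, 193, 132, 194, 133] = true := by
  decide +kernel

theorem ok_p114_0 : stepOKDR rows4 prio4 cap p114_0 lay115
    [64, 2, 0, 65, 2, 66, 3, 67, 4, 1, 5] = true := by
  decide +kernel

theorem ok_p114_1 : stepOKDR rows4 prio4 cap p114_1 lay115
    [64, 66, 67, 1, 68, 129, 69, 130, 66, 128, 3, 5] = true := by
  decide +kernel

theorem ok_p114_2 : stepOKDR rows4 prio4 cap p114_2 lay115
    [132, 132, 129, 131, 64, 69, 133, 129, 131, 69, 130, 130, 128, 130, 128, 68] = true := by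
  decide +kernel

theorem ok_p114_3 : stepOKDR rows4 prio4 cap p114_3 lay115
    [132, 133, 131, 132, 192, 193, 193, 133, 131] = true := by
  decide +kernel

theorem ok_p115_0 : stepOKDR rows4 prio4 cap p115_0 lay116
    [68, 0, 128, 64, 65, 4, 64, 1, 4] = true := by
  decide +kernel

theorem ok_p115_1 : stepOKDR rows4 prio4 cap p115_1 lay116
    [2, 64, 4, 0, 67, 5, 64, 3, 4, 65, 128] = true := by
  decide +kernel

theorem ok_p115_2 : stepOKDR rows4 prio4 cap p115_2 lay116
    [2, 3, 1, 66, 132, 130, 67, 67, 69, 128, 65, 68, 132, 132] = true := by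
  decide +kernel

theorem ok_p115_3 : stepOKDR rows4 prio4 cap p115_3 lay116
    [129, 131, 133, 133] = true := by
  decide +kernel

theorem ok_p116_0 : stepOKDR rows4 prio4 cap p116_0 lay117
    [3, 1, 5, 5, 2, 0, 67, 67, 67, 67, 3, 1, 67, 67, 67, 67] = true := by
  decide +kernel

theorem ok_p116_1 : stepOKDR rows4 prio4 cap p116_1 lay117
    [65, 67, 65, 67, 4, 5, 64, 67, 67, 67, 67, 65, 67, 67] = true := by
  decide +kernel

theorem ok_p116_2 : stepOKDR rows4 prio4 cap p116_2 lay117
    [69, 129, 129, 66, 68, 67, 69, 128, 67, 129, 67, 129] = true := by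
  decide +kernel

theorem ok_p117_0 : stepOKDR rows4 prio4 cap p117_0 lay118
    [0, 0, 1, 65, 4, 66, 5, 67, 64, 67, 64, 68, 69, 128, 128, 67, 64, 128] = true := by
  decide +kernel

end Vale.Agent.Lib.P302.helper26.C755
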