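import Mathlib
import Vale.Agent.Lib.P302.helper26.C755.Base
import Vale.Agent.Lib.P302.helper26.C755.K33

/-!
# P302: chunks of the mask search of the 755-item instance (part 36)
-/

namespace Vale.Agent.Lib.P302.helper26.C755

open Vale.Agent.Lib.P302.helper14 Vale.Agent.Lib.P302.helper8 Vale.Agent.Lib.P302.helper9

theorem ok_p117_1 : stepOKDR rows4 prio4 cap p117_1 lay118
    [3, 2, 3, 129, 130, 131, 130, 132, 133, 192, 193, 130, 133, 133] = true := by
  decide +kernel

theorem ok_p117_2 : stepOKDR rows4 prio4 cap p117_2 lay118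
    [3, 194, 195, 195, 195] = true := by
  decide +kernel

theorem ok_p118_0 : stepOKDR rows4 prio4 cap p118_0 lay119
    [0, 1, 2, 1, 0, 0, 2, 3, 3, 4, 4, 0, 5, 5, 64, 65] = true := by
  decide +kernel

theorem ok_p118_1 : stepOKDR rows4 prio4 cap p118_1 lay119
    [1, 1, 66, 66, 67, 67, 64, 68, 67, 64, 69, 69, 128, 129] = true := by
  decide +kernel

theorem ok_p118_2 : stepOKDR rows4 prio4 cap p118_2 lay119
    [2, 3, 4, 128, 128, 130, 130, 131, 132, 132, 133, 133, 192, 133] = true := by
  decide +kernel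

theorem ok_p118_3 : stepOKDR rows4 prio4 cap p118_3 lay119
    [4, 4, 193, 194, 195, 195, 196] = true := by
  decide +kernel

theorem ok_p119_0 : stepOKDR rows4 prio4 cap p119_0 lay120
    [0, 1, 2, 1, 1, 2, 1, 4, 4, 1, 64, 64, 65, 1, 65, 67, 68, 69] = true := by
  decide +kernel

theorem ok_p119_1 : stepOKDR rows4 prio4 cap p119_1 lay120
    [2, 2, 3, 3, 128, 129, 129, 129, 130, 68, 68, 129, 68, 129, 68, 131, 132, 133] = true := by
  decide +kernel

theorem ok_p119_2 : stepOKDR rows4 prio4 cap p119_2 lay120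
    [4, 5, 64, 65, 132, 132, 132, 132, 192, 194, 193, 193, 195, 193, 195, 196, 195] = true := by
  decide +kernel

theorem ok_p119_3 : stepOKDR rows4 prio4 cap p119_3 lay120
    [65, 66, 66, 195, 195, 197, 256, 197, 257, 258, 258, 258] = true := by
  decide +kernel

theorem ok_p120_0 : stepOKDR rows4 prio4 cap p120_0 lay121
    [0, 0, 0, 0, 3, 3, 1, 4, 4, 3, 3, 1, 1, 1, 3, 2, 2, 3, 1, 4,
     4, 4, 4] = true := by
  decide +kernel

theorem ok_p120_1 : stepOKDR rows4 prio4 cap p120_1 lay121
    [2, 3, 5, 64, 64, 5, 5, 64, 64, 1, 64, 2, 64, 65, 66, 67, 65, 67, 132] = true := by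
  decide +kernel

theorem ok_p120_2 : stepOKDR rows4 prio4 cap p120_2 lay121
    [3, 4, 68, 69, 128, 129, 130, 131, 68, 128, 133, 129, 131, 192] = true := by
  decide +kernel

theorem ok_p120_3 : stepOKDR rows4 prio4 cap p120_3 lay121
    [64, 5, 64, 193, 195, 194, 196, 197, 256, 193, 195, 197, 260] = true := by
  decide +kernel

theorem ok_p120_4 : stepOKDR rows4 prio4 cap p120_4 lay121
    [64, 257, 258, 259, 256, 258] = true := by
  decide +kernel

theorem ok_p121_0 : stepOKDR rows4 prio4 cap p121_0 lay122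
    [0, 5, 1, 2, 2, 2, 3, 4, 64, 65] = true := by
  decide +kernel

theorem ok_p121_1 : stepOKDR rows4 prio4 cap p121_1 lay122
    [66, 2, 69, 128, 128, 129, 130, 67, 67, 69, 197, 68, 129, 68] = true := by
  decide +kernel

theorem ok_p121_2 : stepOKDR rows4 prio4 cap p121_2 lay122
    [2, 2, 197, 130, 133, 133, 197, 131, 192, 132, 192, 128, 67] = true := by
  decide +kernel

theorem ok_p121_3 : stepOKDR rows4 prio4 cap p121_3 lay122
    [2, 133, 195, 257, 195, 257, 193, 197, 197, 196, 258, 194, 256, 258] = true := by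
  decide +kernel

theorem ok_p121_4 : stepOKDR rows4 prio4 cap p121_4 lay122
    [2, 197, 197, 256, 256, 259, 259, 260, 261, 261, 320, 257] = true := by
  decide +kernel

end Vale.Agent.Lib.P302.helper26.C755
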