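import Mathlib
import Vale.Agent.Lib.P302.helper26.C755.Base
import Vale.Agent.Lib.P302.helper26.C755.K34

/-!
# P302: chunks of the mask search of the 755-item instance (part 37)
-/

namespace Vale.Agent.Lib.P302.helper26.C755

open Vale.Agent.Lib.P302.helper14 Vale.Agent.Lib.P302.helper8 Vale.Agent.Lib.P302.helper9

theorem ok_p122_0 : stepOKDR rows4 prio4 cap p122_0 lay123
    [5, 5, 5, 5, 0, 5, 2, 4, 1, 5, 5, 4, 4, 2, 1, 5, 5, 4, 5, 5,
     5] = true := by
  decide +kernel

theorem ok_p122_1 : stepOKDR rows4 prio4 cap p122_1 lay123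
    [1, 2, 3, 4, 4, 3, 64, 65, 4, 65, 68, 69, 66, 66, 67] = true := by
  decide +kernel

theorem ok_p122_2 : stepOKDR rows4 prio4 cap p122_2 lay123
    [2, 1, 3, 68, 128, 128, 129, 130, 131, 192, 132, 131, 133] = true := by
  decide +kernel

theorem ok_p122_3 : stepOKDR rows4 prio4 cap p122_3 lay123
    [1, 64, 1, 192, 193, 197, 194, 256, 197, 195, 257, 194, 258, 196] = true := by
  decide +kernel

theorem ok_p122_4 : stepOKDR rows4 prio4 cap p122_4 lay123
    [65, 65, 65, 259, 259, 256, 260, 258, 261, 320] = true := by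
  decide +kernel

theorem ok_p122_5 : stepOKDR rows4 prio4 cap p122_5 lay123
    [320, 258] = true := by
  decide +kernel

theorem ok_p123_0 : stepOKDR rows4 prio4 cap p123_0 lay124
    [0, 0, 0, 0, 2, 2, 2, 1, 5, 3, 3, 1, 64, 2, 1] = true := by
  decide +kernel

theorem ok_p123_1 : stepOKDR rows4 prio4 cap p123_1 lay124
    [2, 3, 4, 5, 2, 65, 66, 69, 69, 67] = true := by
  decide +kernel

theorem ok_p123_2 : stepOKDR rows4 prio4 cap p123_2 lay124
    [3, 5, 4, 68, 69, 128, 128] = true := by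
  decide +kernel

theorem ok_p123_3 : stepOKDR rows4 prio4 cap p123_3 lay124
    [3, 4, 64, 65, 129, 131, 130, 130] = true := by
  decide +kernel

theorem ok_p123_4 : stepOKDR rows4 prio4 cap p123_4 lay124
    [66, 3, 66, 4, 132, 131, 131] = true := by
  decide +kernel

theorem ok_p123_5 : stepOKDR rows4 prio4 cap p123_5 lay124
    [66, 131] = true := by
  decide +kernel

theorem ok_p124_0 : stepOKDR rows4 prio4 cap p124_0 lay125
    [0, 3, 1, 3, 2, 3, 65, 4, 5, 64] = true := by
  decide +kernel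

theorem ok_p124_1 : stepOKDR rows4 prio4 cap p124_1 lay125
    [1, 1, 65, 64, 65, 66, 1, 5, 67] = true := by
  decide +kernel

theorem ok_p124_2 : stepOKDR rows4 prio4 cap p124_2 lay125
    [64, 64, 66, 67, 64] = true := by
  decide +kernel

theorem ok_p125_0 : stepOKDR rows4 prio4 cap p125_0 lay126
    [0, 2, 4, 5, 6, 0, 0, 0, 1, 1, 2, 2, 2, 3, 3, 4, 4, 4, 5, 5,
     5, 6, 6, 6, 64, 64, 65, 65, 66, 66] = true := by
  decide +kernel

theorem ok_p125_1 : stepOKDR rows4 prio4 cap p125_1 lay126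
    [1, 1, 1, 3, 3, 3, 64, 65, 66, 64, 65, 66, 64, 65, 66, 1, 3, 64, 65, 66] = true := by
  decide +kernel

theorem ok_p126_0 : stepOKDR rows5 prio5 cap p126_0 lay127
    [0, 1, 2, 2, 2, 66, 66, 5, 6, 3, 66, 4, 67, 67, 68, 68] = true := by
  decide +kernel

theorem ok_p126_1 : stepOKDR rows5 prio5 cap p126_1 lay127
    [2, 66, 64, 65, 67, 68] = true := by
  decide +kernel

theorem ok_p127_0 : stepOKDR rows5 prio5 cap p127_0 lay128
    [0, 0, 2, 3, 1, 4, 2, 3, 1, 5, 6, 64, 68, 65, 66, 65, 66] = true := by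
  decide +kernel

theorem ok_p127_1 : stepOKDR rows5 prio5 cap p127_1 lay128
    [4, 2, 3, 6, 64, 67, 69, 70, 68, 65, 66, 128] = true := by
  decide +kernel

theorem ok_p128_0 : stepOKDR rows5 prio5 cap p128_0 lay129
    [0, 1, 2, 65, 67, 68, 66, 128, 69, 70] = true := by
  decide +kernel

end Vale.Agent.Lib.P302.helper26.C755
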