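import Mathlib
import Vale.Agent.Lib.P302.helper26.C755.Base
import Vale.Agent.Lib.P302.helper26.C755.K35

/-!
# P302: chunks of the mask search of the 755-item instance (part 38)
-/

namespace Vale.Agent.Lib.P302.helper26.C755

open Vale.Agent.Lib.P302.helper14 Vale.Agent.Lib.P302.helper8 Vale.Agent.Lib.P302.helper9

theorem ok_p128_1 : stepOKDR rows5 prio5 cap p128_1 lay129
    [3, 4, 5, 6, 128, 69, 70, 129, 131, 130] = true := by
  decide +kernel

theorem ok_p128_2 : stepOKDR rows5 prio5 cap p128_2 lay129
    [64, 132] = true := by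
  decide +kernel

theorem ok_p129_0 : stepOKDR rows5 prio5 cap p129_0 lay130
    [0, 65, 66, 68, 67, 69, 70, 130, 128] = true := by
  decide +kernel

theorem ok_p129_1 : stepOKDR rows5 prio5 cap p129_1 lay130
    [1, 3, 2, 4, 5, 6, 132, 131, 133, 134] = true := by
  decide +kernel

theorem ok_p129_2 : stepOKDR rows5 prio5 cap p129_2 lay130
    [64, 68, 130, 129, 132, 192, 68, 130, 193, 132] = true := by
  decide +kernel

theorem ok_p130_0 : stepOKDR rows5 prio5 cap p130_0 lay131
    [1, 3, 2, 0, 4, 65, 5, 66, 6] = true := by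
  decide +kernel

theorem ok_p130_1 : stepOKDR rows5 prio5 cap p130_1 lay131
    [67, 64, 68, 69, 70, 128, 70, 129, 130] = true := by
  decide +kernel

theorem ok_p130_2 : stepOKDR rows5 prio5 cap p130_2 lay131
    [65, 66, 131, 134, 131, 133, 132, 192, 193, 192, 65, 66] = true := by
  decide +kernel

theorem ok_p130_3 : stepOKDR rows5 prio5 cap p130_3 lay131
    [67, 133, 67, 133] = true := by
  decide +kernel

theorem ok_p131_0 : stepOKDR rows5 prio5 cap p131_0 lay132
    [0, 2, 1, 64, 4, 3, 5] = true := by
  decide +kernel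

theorem ok_p131_1 : stepOKDR rows5 prio5 cap p131_1 lay132
    [3, 6, 5, 65, 67, 66, 6, 68, 70, 129, 128] = true := by
  decide +kernel

theorem ok_p131_2 : stepOKDR rows5 prio5 cap p131_2 lay132
    [69, 129, 130, 131, 192, 192, 133, 134, 132, 193, 132] = true := by
  decide +kernel

theorem ok_p131_3 : stepOKDR rows5 prio5 cap p131_3 lay132
    [194, 195, 196, 196] = true := by
  decide +kernel

theorem ok_p132_0 : stepOKDR rows5 prio5 cap p132_0 lay133
    [3, 5, 4, 67, 128, 69, 68, 130, 129, 70] = true := by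
  decide +kernel

theorem ok_p132_1 : stepOKDR rows5 prio5 cap p132_1 lay133
    [6, 64, 66, 65, 128, 130, 129, 131, 134, 134, 133, 192] = true := by
  decide +kernel

theorem ok_p132_2 : stepOKDR rows5 prio5 cap p132_2 lay133
    [0, 132, 134, 197, 197, 194, 195, 196, 193, 256, 257] = true := by
  decide +kernel

theorem ok_p132_3 : stepOKDR rows5 prio5 cap p132_3 lay133
    [1, 2, 198, 197, 257, 259, 259, 258, 260, 259] = true := by
  decide +kernel

theorem ok_p133_0 : stepOKDR rows5 prio5 cap p133_0 lay134
    [3, 5, 6, 192, 130, 194, 193, 134, 133, 132] = true := by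
  decide +kernel

theorem ok_p133_1 : stepOKDR rows5 prio5 cap p133_1 lay134
    [70, 192, 129, 128, 194, 193, 131, 195, 197, 196] = true := by
  decide +kernel

theorem ok_p133_2 : stepOKDR rows5 prio5 cap p133_2 lay134
    [0, 2, 1, 64, 192, 194, 193, 198, 258, 256, 256, 257] = true := by
  decide +kernel

theorem ok_p133_3 : stepOKDR rows5 prio5 cap p133_3 lay134
    [65, 66, 256, 321, 261, 261, 320, 320, 260, 262, 259, 322] = true := by
  decide +kernel

theorem ok_p133_4 : stepOKDR rows5 prio5 cap p133_4 lay134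
    [4, 67, 68, 69, 261, 320, 324, 323, 323, 323] = true := by
  decide +kernel

end Vale.Agent.Lib.P302.helper26.C755
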