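import Mathlib
import Vale.Agent.Lib.P302.helper26.C755.Base
import Vale.Agent.Lib.P302.helper26.C755.K37

/-!
# P302: chunks of the mask search of the 755-item instance (part 40)
-/

namespace Vale.Agent.Lib.P302.helper26.C755

open Vale.Agent.Lib.P302.helper14 Vale.Agent.Lib.P302.helper8 Vale.Agent.Lib.P302.helper9

theorem ok_p139_0 : stepOKDR rows5 prio5 cap p139_0 lay140
    [0, 2, 1, 3, 5, 4, 6, 65, 64, 67] = true := by
  decide +kernel

theorem ok_p139_1 : stepOKDR rows5 prio5 cap p139_1 lay140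
    [66, 68, 68, 69, 70, 129, 128, 130] = true := by
  decide +kernel

theorem ok_p139_2 : stepOKDR rows5 prio5 cap p139_2 lay140
    [129, 131, 132, 133, 133] = true := by
  decide +kernel

theorem ok_p140_0 : stepOKDR rows5 prio5 cap p140_0 lay141
    [0, 2, 1, 0, 2, 1, 3] = true := by
  decide +kernel

theorem ok_p140_1 : stepOKDR rows5 prio5 cap p140_1 lay141
    [64, 5, 4, 64, 6, 66, 65, 67, 66, 67] = true := by
  decide +kernel

theorem ok_p140_2 : stepOKDR rows5 prio5 cap p140_2 lay141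
    [64, 67, 70, 69, 128, 68, 68, 70, 128, 129] = true := by
  decide +kernel

theorem ok_p141_0 : stepOKDR rows5 prio5 cap p141_0 lay142
    [3, 0, 5, 4, 2, 1, 6, 3, 5, 4, 6] = true := by
  decide +kernel

theorem ok_p141_1 : stepOKDR rows5 prio5 cap p141_1 lay142
    [64, 6, 64, 65, 66, 67, 68, 69] = true := by
  decide +kernel

theorem ok_p141_2 : stepOKDR rows5 prio5 cap p141_2 lay142
    [67, 70] = true := by
  decide +kernel

theorem ok_p142_0 : stepOKDR rows5 prio5 cap p142_0 lay143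
    [0, 2, 1, 4, 6, 5, 7] = true := by
  decide +kernel

theorem ok_p142_1 : stepOKDR rows5 prio5 cap p142_1 lay143
    [7, 3, 64, 8, 64, 65, 66, 67] = true := by
  decide +kernel

theorem ok_p143_0 : stepOKDR rows6 prio6 cap p143_0 lay144
    [0, 1, 6, 5, 0, 3, 2, 4, 6, 5, 7, 8, 64] = true := by
  decide +kernel

theorem ok_p143_1 : stepOKDR rows6 prio6 cap p143_1 lay144
    [8, 64, 65, 66] = true := by
  decide +kernel

theorem ok_p144_0 : stepOKDR rows6 prio6 cap p144_0 lay145
    [4, 1, 0, 2, 1, 0, 2, 1, 0, 6] = true := by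
  decide +kernel

theorem ok_p144_1 : stepOKDR rows6 prio6 cap p144_1 lay145
    [3, 5, 6] = true := by
  decide +kernel

theorem ok_p145_0 : stepOKDR rows6 prio6 cap p145_0 lay146
    [1, 1, 1, 0, 2, 3] = true := by
  decide +kernel

theorem ok_p146_0 : stepOKDR rows6 prio6 cap p146_0 lay147
    [0, 1, 2, 3, 4, 5, 5] = true := by
  decide +kernel

theorem ok_p147_0 : stepOKDR rows6 prio6 cap p147_0 lay148
    [0, 1, 2, 3, 3, 4, 5, 6, 6, 6, 4] = true := by
  decide +kernel

theorem ok_p148_0 : stepOKDR rows6 prio6 cap p148_0 lay149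
    [0, 1, 2, 3, 3, 3, 1, 5, 4, 5, 6, 7, 8] = true := by
  decide +kernel

theorem ok_p149_0 : stepOKDR rows6 prio6 cap p149_0 lay150
    [0, 2, 1, 2, 3, 4, 5, 6, 8, 7, 8, 6, 64, 65, 66] = true := by
  decide +kernel

theorem ok_p150_0 : stepOKDR rows6 prio6 cap p150_0 lay151
    [1, 0, 2, 3, 5, 4, 5, 3, 6, 7, 8, 64, 65, 65, 66] = true := by
  decide +kernel

theorem ok_p150_1 : stepOKDR rows6 prio6 cap p150_1 lay151
    [0, 65, 67, 67, 68, 69] = true := by
  decide +kernel

end Vale.Agent.Lib.P302.helper26.C755
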