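import Mathlib
import Vale.Agent.Lib.P302.helper26.C755.Base
import Vale.Agent.Lib.P302.helper26.C755.K38

/-!
# P302: chunks of the mask search of the 755-item instance (part 41)
-/

namespace Vale.Agent.Lib.P302.helper26.C755

open Vale.Agent.Lib.P302.helper14 Vale.Agent.Lib.P302.helper8 Vale.Agent.Lib.P302.helper9

theorem ok_p151_0 : stepOKDR rows6 prio6 cap p151_0 lay152
    [0, 1, 2, 1, 4, 3, 5, 6, 7, 7, 7, 8, 64, 64, 65, 66] = true := by
  decide +kernel

theorem ok_p151_1 : stepOKDR rows6 prio6 cap p151_1 lay152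
    [4, 3, 4, 67, 67, 68, 67, 69, 67] = true := by
  decide +kernel

theorem ok_p152_0 : stepOKDR rows6 prio6 cap p152_0 lay153
    [0, 1, 3, 2, 2, 3, 5, 4, 6, 7, 8, 64, 7] = true := by
  decide +kernel

theorem ok_p152_1 : stepOKDR rows6 prio6 cap p152_1 lay153
    [3, 5, 6, 5, 7, 65, 7] = true := by
  decide +kernel

theorem ok_p153_0 : stepOKDR rows6 prio6 cap p153_0 lay154
    [0, 0, 0, 0, 7, 1, 5, 6, 7, 7, 3, 2, 7, 4, 4, 5, 5, 5, 6, 6,
     6, 7] = true := by
  decide +kernel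

theorem ok_p153_1 : stepOKDR rows6 prio6 cap p153_1 lay154
    [3, 3] = true := by
  decide +kernel

theorem ok_p154_0 : stepOKDR rows6 prio6 cap p154_0 lay155
    [0, 3, 0, 0, 0, 1, 2, 4, 3, 5, 3, 4, 4, 4, 3, 5, 5, 5, 6, 7] = true := by
  decide +kernel

theorem ok_p155_0 : stepOKDR rows6 prio6 cap p155_0 lay156
    [0, 1, 2, 3, 4, 5, 6, 7, 8] = true := by
  decide +kernel

theorem ok_p156_0 : stepOKDR rows7 prio7 cap p156_0 lay157
    [0, 1, 2, 3, 4, 5, 6, 7, 8, 9, 64] = true := by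
  decide +kernel

theorem ok_p157_0 : stepOKDR rows7 prio7 cap p157_0 lay158
    [0, 1, 2, 3, 3, 4, 5, 7, 8, 9, 9, 64] = true := by
  decide +kernel

theorem ok_p157_1 : stepOKDR rows7 prio7 cap p157_1 lay158
    [6] = true := by
  decide +kernel

theorem ok_p158_0 : stepOKDR rows7 prio7 cap p158_0 lay159
    [5, 0, 0, 1, 2, 3, 3, 5, 4, 4, 5, 6, 7, 8] = true := by
  decide +kernel

theorem ok_p158_1 : stepOKDR rows7 prio7 cap p158_1 lay159
    [8] = true := by
  decide +kernel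

theorem ok_p159_0 : stepOKDR rows7 prio7 cap p159_0 lay160
    [0, 1, 1, 2, 2, 3, 4, 5, 5, 6, 7] = true := by
  decide +kernel

theorem ok_p160_0 : stepOKDR rows7 prio7 cap p160_0 lay161
    [0, 1, 1, 2, 3, 4, 5, 6, 4] = true := by
  decide +kernel

theorem ok_p161_0 : stepOKDR rows7 prio7 cap p161_0 lay162
    [0, 1, 2, 3, 4, 5, 5, 4] = true := by
  decide +kernel

theorem ok_p162_0 : stepOKDR rows7 prio7 cap p162_0 lay163
    [0, 1, 3, 3, 2, 2] = true := by
  decide +kernel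

theorem ok_p163_0 : stepOKDR rows7 prio7 cap p163_0 lay164
    [0, 1, 2, 3] = true := by
  decide +kernel

theorem ok_p164_0 : stepOKDR rows7 prio7 cap p164_0 lay165
    [1, 0, 1, 1, 2, 3, 4] = true := by
  decide +kernel

theorem ok_p165_0 : stepOKDR rows7 prio7 cap p165_0 lay166
    [0, 1, 1, 1, 2, 2, 3, 4] = true := by
  decide +kernel

theorem ok_p166_0 : stepOKDR rows7 prio7 cap p166_0 lay167
    [5, 0, 1, 2, 3, 5, 4, 4, 1, 2, 3, 5] = true := by
  decide +kernel

theorem ok_p167_0 : stepOKDR rows7 prio7 cap p167_0 lay168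
    [7, 0, 7, 1, 7, 2, 3, 4, 5, 6, 0, 1, 2, 7] = true := by
  decide +kernel

theorem ok_p168_0 : stepOKDR rows8 prio8 cap p168_0 lay169
    [0, 1, 1, 2, 3, 4, 5, 6, 7] = true := by
  decide +kernel

theorem ok_p169_0 : stepOKDR rows8 prio8 cap p169_0 lay170
    [0, 1, 2, 2, 3, 1, 4, 5, 6] = true := by
  decide +kernel

theorem ok_p170_0 : stepOKDR rows8 prio8 cap p170_0 lay171
    [0, 1, 2, 2, 3, 0, 4, 5] = true := by
  decide +kernel

end Vale.Agent.Lib.P302.helper26.C755
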