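import Mathlib
import Vale.Agent.Lib.P302.helper26.C755.Base
import Vale.Agent.Lib.P302.helper26.C755.K36

/-!
# P302: chunks of the mask search of the 755-item instance (part 39)
-/

namespace Vale.Agent.Lib.P302.helper26.C755

open Vale.Agent.Lib.P302.helper14 Vale.Agent.Lib.P302.helper8 Vale.Agent.Lib.P302.helper9

theorem ok_p134_0 : stepOKDR rows5 prio5 cap p134_0 lay135
    [0, 2, 1, 3, 4, 5, 6] = true := by
  decide +kernel

theorem ok_p134_1 : stepOKDR rows5 prio5 cap p134_1 lay135
    [130, 130, 134, 134, 193, 193, 194] = true := by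
  decide +kernel

theorem ok_p134_2 : stepOKDR rows5 prio5 cap p134_2 lay135
    [64, 67, 66, 65, 195, 197, 196, 256, 198, 257] = true := by
  decide +kernel

theorem ok_p134_3 : stepOKDR rows5 prio5 cap p134_3 lay135
    [68, 70, 69, 128, 258, 195, 195, 260, 259, 256, 198, 256, 198] = true := by
  decide +kernel

theorem ok_p134_4 : stepOKDR rows5 prio5 cap p134_4 lay135
    [3, 3, 4, 130, 129, 132, 133, 131, 261, 320, 262] = true := by
  decide +kernel

theorem ok_p134_5 : stepOKDR rows5 prio5 cap p134_5 lay135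
    [4, 6, 6, 134, 192, 193, 321, 262, 262, 322] = true := by
  decide +kernel

theorem ok_p135_0 : stepOKDR rows5 prio5 cap p135_0 lay136
    [0, 1, 2, 3, 5, 4, 6] = true := by
  decide +kernel

theorem ok_p135_1 : stepOKDR rows5 prio5 cap p135_1 lay136
    [69, 69, 68, 128, 70, 128, 70] = true := by
  decide +kernel

theorem ok_p135_2 : stepOKDR rows5 prio5 cap p135_2 lay136
    [0, 1, 129, 130, 131, 132, 133] = true := by
  decide +kernel

theorem ok_p135_3 : stepOKDR rows5 prio5 cap p135_3 lay136
    [2, 3, 4, 64, 66, 65, 133, 134, 192] = true := by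
  decide +kernel

theorem ok_p135_4 : stepOKDR rows5 prio5 cap p135_4 lay136
    [3, 5, 4, 5, 0, 6, 69, 128, 70, 67, 193, 194] = true := by
  decide +kernel

theorem ok_p135_5 : stepOKDR rows5 prio5 cap p135_5 lay136
    [1, 6, 2, 133] = true := by
  decide +kernel

theorem ok_p136_0 : stepOKDR rows5 prio5 cap p136_0 lay137
    [0, 3, 2, 1, 4, 5, 6, 66, 64, 68] = true := by
  decide +kernel

theorem ok_p136_1 : stepOKDR rows5 prio5 cap p136_1 lay137
    [0, 3, 1, 69, 128, 70, 129] = true := by
  decide +kernel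

theorem ok_p136_2 : stepOKDR rows5 prio5 cap p136_2 lay137
    [2, 4, 6, 65, 67, 64, 0] = true := by
  decide +kernel

theorem ok_p136_3 : stepOKDR rows5 prio5 cap p136_3 lay137
    [2, 1, 64] = true := by
  decide +kernel

theorem ok_p137_0 : stepOKDR rows5 prio5 cap p137_0 lay138
    [0, 2, 3, 1, 64, 64, 6, 4, 65, 66, 66, 67, 67] = true := by
  decide +kernel

theorem ok_p137_1 : stepOKDR rows5 prio5 cap p137_1 lay138
    [0, 1, 64, 5, 67, 68, 69, 128, 69, 128, 70, 129] = true := by
  decide +kernel

theorem ok_p137_2 : stepOKDR rows5 prio5 cap p137_2 lay138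
    [3, 5] = true := by
  decide +kernel

theorem ok_p138_0 : stepOKDR rows5 prio5 cap p138_0 lay139
    [0, 2, 1, 4, 4, 6, 5, 6, 5, 64, 64] = true := by
  decide +kernel

theorem ok_p138_1 : stepOKDR rows5 prio5 cap p138_1 lay139
    [3, 64, 65, 66, 67, 68, 69, 128, 70, 129] = true := by
  decide +kernel

theorem ok_p138_2 : stepOKDR rows5 prio5 cap p138_2 lay139
    [130, 131, 132] = true := by
  decide +kernel

end Vale.Agent.Lib.P302.helper26.C755
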