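import Mathlib
import Vale.Agent.Lib.P302.helper26.C755.Base
import Vale.Agent.Lib.P302.helper26.C755.K39

/-!
# P302: chunks of the mask search of the 755-item instance (part 42)
-/

namespace Vale.Agent.Lib.P302.helper26.C755

open Vale.Agent.Lib.P302.helper14 Vale.Agent.Lib.P302.helper8 Vale.Agent.Lib.P302.helper9

theorem ok_p171_0 : stepOKDR rows8 prio8 cap p171_0 lay172
    [3, 0, 1, 2, 0, 3] = true := by
  decide +kernel

theorem ok_p172_0 : stepOKDR rows8 prio8 cap p172_0 lay173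
    [0, 1, 2] = true := by
  decide +kernel

theorem ok_p173_0 : stepOKDR rows8 prio8 cap p173_0 lay174
    [0, 1, 2, 3] = true := by
  decide +kernel

theorem ok_p174_0 : stepOKDR rows8 prio8 cap p174_0 lay175
    [0, 1, 1, 2, 3] = true := by
  decide +kernel

theorem ok_p175_0 : stepOKDR rows8 prio8 cap p175_0 lay176
    [0, 1, 0, 2, 2] = true := by
  decide +kernel

theorem ok_p176_0 : stepOKDR rows8 prio8 cap p176_0 lay177
    [0, 0, 1] = true := by
  decide +kernel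

theorem ok_p177_0 : stepOKDR rows8 prio8 cap p177_0 lay178
    [0, 1] = true := by
  decide +kernel

theorem ok_p178_0 : stepOKDR rows8 prio8 cap p178_0 lay179
    [0, 1] = true := by
  decide +kernel

theorem ok_p179_0 : stepOKDR rows9 prio9 cap p179_0 lay180
    [0] = true := by
  decide +kernel

theorem ok_p180_0 : stepOKDR rows9 prio9 cap p180_0 lay181
    [0, 1] = true := by
  decide +kernel

theorem ok_p181_0 : stepOKDR rows9 prio9 cap p181_0 lay182
    [0, 1, 2, 2, 3] = true := by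
  decide +kernel

theorem ok_p182_0 : stepOKDR rows9 prio9 cap p182_0 lay183
    [2, 3, 4, 2, 3, 3, 0, 3, 1, 5] = true := by
  decide +kernel

theorem ok_p183_0 : stepOKDR rows9 prio9 cap p183_0 lay184
    [2, 3, 4, 5, 0, 1, 1, 4, 5, 1, 0, 1, 0, 1, 1] = true := by
  decide +kernel

theorem ok_p184_0 : stepOKDR rows9 prio9 cap p184_0 lay185
    [0, 1, 1, 4, 5, 6, 7, 2, 3, 5, 7, 2] = true := by
  decide +kernel

theorem ok_p185_0 : stepOKDR rows9 prio9 cap p185_0 lay186
    [0, 0, 1, 1, 1, 2, 0, 2, 1, 5, 5, 6, 7, 8, 8, 9, 10, 3, 3, 4] = true := by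
  decide +kernel

theorem ok_p186_0 : stepOKDR rows9 prio9 cap p186_0 lay187
    [0, 0, 1, 1, 2, 1, 0, 4, 3, 3, 4, 3, 5, 0, 7, 7, 8, 8, 6] = true := by
  decide +kernel

theorem ok_p187_0 : stepOKDR rows9 prio9 cap p187_0 lay188
    [0, 1, 2, 3, 4, 3, 2, 2, 5, 3, 3, 6] = true := by
  decide +kernel

theorem ok_p188_0 : stepOKDR rows9 prio9 cap p188_0 lay189
    [1, 1, 1, 1, 1, 1, 2, 3, 0, 4, 2, 3, 0, 4, 2, 3, 0, 4, 2, 3,
     0, 4, 2, 3, 0, 4, 2, 3, 0, 4, 1, 2, 3, 0, 4] = true := by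
  decide +kernel

theorem ok_p189_0 : stepOKDR rows10 prio10 cap p189_0 lay190
    [2, 3, 4, 5, 6, 0, 7, 8, 1] = true := by
  decide +kernel

theorem ok_p190_0 : stepOKDR rows10 prio10 cap p190_0 lay191
    [6, 7, 7, 8, 9, 0, 0, 10, 10, 11, 11, 1, 2, 2, 3, 3, 4, 5] = true := by
  decide +kernel

theorem ok_p191_0 : stepOKDR rows10 prio10 cap p191_0 lay192
    [8, 9, 10, 11, 12, 0, 13, 1, 2, 14, 3, 64, 4, 5, 6, 7] = true := by
  decide +kernel

theorem ok_p192_0 : stepOKDR rows10 prio10 cap p192_0 lay193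
    [0, 11, 12, 13, 14, 64, 65, 1, 2, 3, 4, 66, 5, 6, 7, 8, 9, 10] = true := by
  decide +kernel

theorem ok_p192_1 : stepOKDR rows10 prio10 cap p192_1 lay193
    [67] = true := by
  decide +kernel

theorem ok_p193_0 : stepOKDR rows10 prio10 cap p193_0 lay194
    [8, 0, 1, 2, 3, 12, 13, 14, 64, 0, 4, 5, 6, 7, 4, 5] = true := by
  decide +kernel

theorem ok_p193_1 : stepOKDR rows10 prio10 cap p193_1 lay194
    [9, 10, 11, 65, 66, 67, 68] = true := by
  decide +kernel

theorem ok_p194_0 : stepOKDR rows10 prio10 cap p194_0 lay195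
    [0, 1, 2, 3, 4, 8, 9, 10, 11, 12, 13, 0, 14, 5, 1, 2, 3, 6, 7, 4] = true := by
  decide +kernel

theorem ok_p194_1 : stepOKDR rows10 prio10 cap p194_1 lay195
    [64, 9, 10, 13, 14] = true := by
  decide +kernel

theorem ok_p195_0 : stepOKDR rows10 prio10 cap p195_0 lay196
    [6, 7, 8, 0, 1, 0, 2, 3, 4, 5, 5, 6, 7, 10, 11, 8, 12, 9, 13] = true := by
  decide +kernel

theorem ok_p195_1 : stepOKDR rows10 prio10 cap p195_1 lay196
    [9] = true := by
  decide +kernel

theorem ok_p196_0 : stepOKDR rows10 prio10 cap p196_0 lay197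
    [6, 7, 8, 9, 9, 0, 1, 2, 10, 11, 12, 3, 4, 5, 3] = true := by
  decide +kernel

theorem ok_p197_0 : stepOKDR rows10 prio10 cap p197_0 lay198
    [5, 6, 7, 8, 6, 6, 9, 10, 0, 11, 1, 1, 2, 10, 10, 3, 3, 4, 4] = true := by
  decide +kernel

theorem ok_p198_0 : stepOKDR rows10 prio10 cap p198_0 lay199
    [4, 6, 4, 4, 4, 5, 5, 6, 6, 0, 6, 1, 2, 3] = true := by
  decide +kernel

theorem ok_p199_0 : stepOKDR rows11 prio11 cap p199_0 lay200
    [0, 1, 1, 1, 3, 2] = true := by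
  decide +kernel

end Vale.Agent.Lib.P302.helper26.C755
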