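import Mathlib
import Vale.Agent.Lib.P302.helper26.C755.Base
import Vale.Agent.Lib.P302.helper26.C755.K40

/-!
# P302: chunks of the mask search of the 755-item instance (part 43)
-/

namespace Vale.Agent.Lib.P302.helper26.C755

open Vale.Agent.Lib.P302.helper14 Vale.Agent.Lib.P302.helper8 Vale.Agent.Lib.P302.helper9

theorem ok_p200_0 : stepOKDR rows11 prio11 cap p200_0 lay201
    [1, 0, 0, 0, 2, 3, 4] = true := by
  decide +kernel

theorem ok_p201_0 : stepOKDR rows11 prio11 cap p201_0 lay202
    [0, 1, 2, 2, 2, 1, 4, 3] = true := by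
  decide +kernel

theorem ok_p202_0 : stepOKDR rows11 prio11 cap p202_0 lay203
    [2, 0, 1, 3, 5, 0, 5, 4] = true := by
  decide +kernel

theorem ok_p203_0 : stepOKDR rows11 prio11 cap p203_0 lay204
    [4, 5, 0, 2, 2, 1, 3, 4, 2, 7, 6] = true := by
  decide +kernel

theorem ok_p204_0 : stepOKDR rows11 prio11 cap p204_0 lay205
    [0, 1, 2, 7, 7, 5, 8, 3, 4, 4, 6, 4, 7, 6, 9] = true := by
  decide +kernel

theorem ok_p205_0 : stepOKDR rows11 prio11 cap p205_0 lay206
    [4, 5, 0, 1, 3, 2, 2, 3, 2, 6, 7, 7, 8, 7, 1, 8] = true := by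
  decide +kernel

theorem ok_p206_0 : stepOKDR rows11 prio11 cap p206_0 lay207
    [2, 4, 3, 3, 4, 0, 1, 1, 3, 2] = true := by
  decide +kernel

theorem ok_p207_0 : stepOKDR rows12 prio12 cap p207_0 lay208
    [0, 2, 2, 1, 1] = true := by
  decide +kernel

theorem ok_p208_0 : stepOKDR rows12 prio12 cap p208_0 lay209
    [0, 1, 2, 2] = true := by
  decide +kernel

theorem ok_p209_0 : stepOKDR rows12 prio12 cap p209_0 lay210
    [0, 2, 1, 3] = true := by
  decide +kernel

theorem ok_p210_0 : stepOKDR rows12 prio12 cap p210_0 lay211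
    [1, 0, 0, 2, 3] = true := by
  decide +kernel

theorem ok_p211_0 : stepOKDR rows12 prio12 cap p211_0 lay212
    [0, 1, 2, 1, 2] = true := by
  decide +kernel

theorem ok_p212_0 : stepOKDR rows13 prio13 cap p212_0 lay213
    [0, 0, 1] = true := by
  decide +kernel

theorem ok_p213_0 : stepOKDR rows13 prio13 cap p213_0 lay214
    [0, 1] = true := by
  decide +kernel

theorem ok_p214_0 : stepOKDR rows13 prio13 cap p214_0 lay215
    [0, 1] = true := by
  decide +kernel

theorem ok_p215_0 : stepOKDR rows13 prio13 cap p215_0 lay216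
    [0] = true := by
  decide +kernel

theorem ok_p216_0 : stepOKDR rows14 prio14 cap p216_0 lay217
    [0, 1] = true := by
  decide +kernel

theorem ok_p217_0 : stepOKDR rows14 prio14 cap p217_0 lay218
    [0, 1, 1, 2] = true := by
  decide +kernel

theorem ok_p218_0 : stepOKDR rows14 prio14 cap p218_0 lay219
    [0, 2, 1, 2, 2, 1] = true := by
  decide +kernel

theorem ok_p219_0 : stepOKDR rows14 prio14 cap p219_0 lay220
    [0, 1, 2, 3, 4, 4] = true := by
  decide +kernel

theorem ok_p220_0 : stepOKDR rows14 prio14 cap p220_0 lay221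
    [0, 5, 1, 2, 3, 4, 4, 5] = true := by
  decide +kernel

theorem ok_p221_0 : stepOKDR rows14 prio14 cap p221_0 lay222
    [0, 2, 1, 2, 2, 3, 2, 4, 5, 7, 6, 7] = true := by
  decide +kernel

theorem ok_p222_0 : stepOKDR rows14 prio14 cap p222_0 lay223
    [1, 1, 0, 0, 2, 2, 3, 1, 3, 4, 4, 5, 0] = true := by
  decide +kernel

theorem ok_p223_0 : stepOKDR rows15 prio15 cap p223_0 lay224
    [0, 3, 1, 2, 1, 3] = true := by
  decide +kernel

theorem ok_p224_0 : stepOKDR rows15 prio15 cap p224_0 lay225
    [0, 0, 0, 0, 1, 1, 1, 1, 2, 2, 2, 2] = true := by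
  decide +kernel

theorem ok_p225_0 : stepOKDR rows16 prio16 cap p225_0 lay226
    [0, 1, 2, 3] = true := by
  decide +kernel

theorem ok_p226_0 : stepOKDR rows16 prio16 cap p226_0 lay227
    [0, 1, 2] = true := by
  decide +kernel

theorem ok_p227_0 : stepOKDR rows16 prio16 cap p227_0 lay228
    [0, 1, 2, 3] = true := by
  decide +kernel

theorem ok_p228_0 : stepOKDR rows16 prio16 cap p228_0 lay229
    [0, 1, 1, 2, 3] = true := by
  decide +kernel

theorem ok_p229_0 : stepOKDR rows16 prio16 cap p229_0 lay230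
    [0, 0, 2, 1, 2] = true := by
  decide +kernel

theorem ok_p230_0 : stepOKDR rows17 prio17 cap p230_0 lay231
    [0, 1, 1] = true := by
  decide +kernel

theorem ok_p231_0 : stepOKDR rows17 prio17 cap p231_0 lay232
    [0, 1] = true := by
  decide +kernel

theorem ok_p232_0 : stepOKDR rows17 prio17 cap p232_0 lay233
    [0, 1] = true := by
  decide +kernel

theorem ok_p233_0 : stepOKDR rows18 prio18 cap p233_0 lay234
    [0] = true := by
  decide +kernel

theorem ok_p234_0 : stepOKDR rows18 prio18 cap p234_0 lay235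
    [0, 1] = true := by
  decide +kernel

theorem ok_p235_0 : stepOKDR rows19 prio19 cap p235_0 lay236
    [0, 0, 0, 1] = true := by
  decide +kernel

theorem ok_p236_0 : stepOKDR rows19 prio19 cap p236_0 lay237
    [0, 0, 1] = true := by
  decide +kernel

theorem ok_p237_0 : stepOKDR rows20 prio20 cap p237_0 lay238
    [0, 0, 1, 2] = true := by
  decide +kernel

theorem ok_p238_0 : stepOKDR rows20 prio20 cap p238_0 lay239
    [0, 0, 1, 2, 3, 3] = true := by
  decide +kernel

theorem ok_p239_0 : stepOKDR rows20 prio20 cap p239_0 lay240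
    [0, 1] = true := by
  decide +kernel

theorem ok_p240_0 : stepOKDR rows21 prio21 cap p240_0 lay241
    [0, 1] = true := by
  decide +kernel

theorem ok_p241_0 : stepOKDR rows21 prio21 cap p241_0 lay242
    [0, 1] = true := by
  decide +kernel

theorem ok_p242_0 : stepOKDR rows22 prio22 cap p242_0 lay243
    [0] = true := by
  decide +kernel

theorem ok_p243_0 : stepOKDR rows23 prio23 cap p243_0 lay244
    [0] = true := by
  decide +kernel

theorem ok_p244_0 : stepOKDR rows24 prio24 cap p244_0 lay245
    [0, 1] = true := by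
  decide +kernel

theorem ok_p245_0 : stepOKDR rows24 prio24 cap p245_0 lay246
    [0, 0] = true := by
  decide +kernel

theorem ok_p246_0 : stepOKDR rows25 prio25 cap p246_0 lay247
    [0] = true := by
  decide +kernel

theorem ok_p247_0 : stepOKDR rows26 prio26 cap p247_0 lay248
    [0] = true := by
  decide +kernel

theorem ok_p248_0 : stepOKDR rows27 prio27 cap p248_0 lay249
    [] = true := by
  decide +kernel

end Vale.Agent.Lib.P302.helper26.C755
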