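import Mathlib
import Vale.Agent.Lib.P302.helper26.C755.F0

/-!
# P302: the fractional solution of the 755-item instance, checked in pieces (part 1)
-/

namespace Vale.Agent.Lib.P302.helper26.C755

open Vale.Agent.Lib.P302.helper14 Vale.Agent.Lib.P302.helper8 Vale.Agent.Lib.P302.helper9

theorem cfg_10 : (List.take 8 (List.drop 8 (List.drop 8 (List.drop 8 (List.drop 8 (List.drop 8 (List.drop 8 (List.drop 8 (List.drop 8 (List.drop 8 (List.drop 8 (frac)))))))))))).all (cfgOK sizes cap) = true := by
  decide +kernel

theorem cfg_11 : (List.take 8 (List.drop 8 (List.drop 8 (List.drop 8 (List.drop 8 (List.drop 8 (List.drop 8 (List.drop 8 (List.drop 8 (List.drop 8 (List.drop 8 (List.drop 8 (frac))))))))))))).all (cfgOK sizes cap) = true := by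
  decide +kernel

theorem cfg_12 : (List.take 8 (List.drop 8 (List.drop 8 (List.drop 8 (List.drop 8 (List.drop 8 (List.drop 8 (List.drop 8 (List.drop 8 (List.drop 8 (List.drop 8 (List.drop 8 (List.drop 8 (frac)))))))))))))).all (cfgOK sizes cap) = true := by
  decide +kernel

theorem cfg_13 : (List.take 8 (List.drop 8 (List.drop 8 (List.drop 8 (List.drop 8 (List.drop 8 (List.drop 8 (List.drop 8 (List.drop 8 (List.drop 8 (List.drop 8 (List.drop 8 (List.drop 8 (List.drop 8 (frac))))))))))))))).all (cfgOK sizes cap) = true := by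
  decide +kernel

theorem cfg_14 : (List.take 8 (List.drop 8 (List.drop 8 (List.drop 8 (List.drop 8 (List.drop 8 (List.drop 8 (List.drop 8 (List.drop 8 (List.drop 8 (List.drop 8 (List.drop 8 (List.drop 8 (List.drop 8 (List.drop 8 (frac)))))))))))))))).all (cfgOK sizes cap) = true := by
  decide +kernel

theorem cfg_15 : (List.take 8 (List.drop 8 (List.drop 8 (List.drop 8 (List.drop 8 (List.drop 8 (List.drop 8 (List.drop 8 (List.drop 8 (List.drop 8 (List.drop 8 (List.drop 8 (List.drop 8 (List.drop 8 (List.drop 8 (List.drop 8 (frac))))))))))))))))).all (cfgOK sizes cap) = true := by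
  decide +kernel

theorem cfg_16 : (List.take 8 (List.drop 8 (List.drop 8 (List.drop 8 (List.drop 8 (List.drop 8 (List.drop 8 (List.drop 8 (List.drop 8 (List.drop 8 (List.drop 8 (List.drop 8 (List.drop 8 (List.drop 8 (List.drop 8 (List.drop 8 (List.drop 8 (frac)))))))))))))))))).all (cfgOK sizes cap) = true := by
  decide +kernel

theorem cfg_17 : (List.take 8 (List.drop 8 (List.drop 8 (List.drop 8 (List.drop 8 (List.drop 8 (List.drop 8 (List.drop 8 (List.drop 8 (List.drop 8 (List.drop 8 (List.drop 8 (List.drop 8 (List.drop 8 (List.drop 8 (List.drop 8 (List.drop 8 (List.drop 8 (frac))))))))))))))))))).all (cfgOK sizes cap) = true := by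
  decide +kernel

theorem cfg_18 : (List.take 8 (List.drop 8 (List.drop 8 (List.drop 8 (List.drop 8 (List.drop 8 (List.drop 8 (List.drop 8 (List.drop 8 (List.drop 8 (List.drop 8 (List.drop 8 (List.drop 8 (List.drop 8 (List.drop 8 (List.drop 8 (List.drop 8 (List.drop 8 (List.drop 8 (frac)))))))))))))))))))).all (cfgOK sizes cap) = true := by
  decide +kernel

theorem cfg_19 : (List.take 8 (List.drop 8 (List.drop 8 (List.drop 8 (List.drop 8 (List.drop 8 (List.drop 8 (List.drop 8 (List.drop 8 (List.drop 8 (List.drop 8 (List.drop 8 (List.drop 8 (List.drop 8 (List.drop 8 (List.drop 8 (List.drop 8 (List.drop 8 (List.drop 8 (List.drop 8 (frac))))))))))))))))))))).all (cfgOK sizes cap) = true := by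
  decide +kernel

end Vale.Agent.Lib.P302.helper26.C755
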