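import Mathlib
import Vale.Agent.Lib.P302.helper26.C755.F1

/-!
# P302: the fractional solution of the 755-item instance, checked in pieces (part 2)
-/

namespace Vale.Agent.Lib.P302.helper26.C755

open Vale.Agent.Lib.P302.helper14 Vale.Agent.Lib.P302.helper8 Vale.Agent.Lib.P302.helper9

theorem cfg_20 : (List.take 8 (List.drop 8 (List.drop 8 (List.drop 8 (List.drop 8 (List.drop 8 (List.drop 8 (List.drop 8 (List.drop 8 (List.drop 8 (List.drop 8 (List.drop 8 (List.drop 8 (List.drop 8 (List.drop 8 (List.drop 8 (List.drop 8 (List.drop 8 (List.drop 8 (List.drop 8 (List.drop 8 (frac)))))))))))))))))))))).all (cfgOK sizes cap) = true := by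
  decide +kernel

theorem cfg_21 : (List.take 8 (List.drop 8 (List.drop 8 (List.drop 8 (List.drop 8 (List.drop 8 (List.drop 8 (List.drop 8 (List.drop 8 (List.drop 8 (List.drop 8 (List.drop 8 (List.drop 8 (List.drop 8 (List.drop 8 (List.drop 8 (List.drop 8 (List.drop 8 (List.drop 8 (List.drop 8 (List.drop 8 (List.drop 8 (frac))))))))))))))))))))))).all (cfgOK sizes cap) = true := by
  decide +kernel

theorem cfg_22 : (List.take 8 (List.drop 8 (List.drop 8 (List.drop 8 (List.drop 8 (List.drop 8 (List.drop 8 (List.drop 8 (List.drop 8 (List.drop 8 (List.drop 8 (List.drop 8 (List.drop 8 (List.drop 8 (List.drop 8 (List.drop 8 (List.drop 8 (List.drop 8 (List.drop 8 (List.drop 8 (List.drop 8 (List.drop 8 (List.drop 8 (frac)))))))))))))))))))))))).all (cfgOK sizes cap) = true := by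
  decide +kernel

theorem cfg_23 : (List.take 8 (List.drop 8 (List.drop 8 (List.drop 8 (List.drop 8 (List.drop 8 (List.drop 8 (List.drop 8 (List.drop 8 (List.drop 8 (List.drop 8 (List.drop 8 (List.drop 8 (List.drop 8 (List.drop 8 (List.drop 8 (List.drop 8 (List.drop 8 (List.drop 8 (List.drop 8 (List.drop 8 (List.drop 8 (List.drop 8 (List.drop 8 (frac))))))))))))))))))))))))).all (cfgOK sizes cap) = true := by
  decide +kernel

theorem cfg_24 : (List.take 8 (List.drop 8 (List.drop 8 (List.drop 8 (List.drop 8 (List.drop 8 (List.drop 8 (List.drop 8 (List.drop 8 (List.drop 8 (List.drop 8 (List.drop 8 (List.drop 8 (List.drop 8 (List.drop 8 (List.drop 8 (List.drop 8 (List.drop 8 (List.drop 8 (List.drop 8 (List.drop 8 (List.drop 8 (List.drop 8 (List.drop 8 (List.drop 8 (frac)))))))))))))))))))))))))).all (cfgOK sizes cap) = true := by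
  decide +kernel

theorem cfg_25 : (List.take 8 (List.drop 8 (List.drop 8 (List.drop 8 (List.drop 8 (List.drop 8 (List.drop 8 (List.drop 8 (List.drop 8 (List.drop 8 (List.drop 8 (List.drop 8 (List.drop 8 (List.drop 8 (List.drop 8 (List.drop 8 (List.drop 8 (List.drop 8 (List.drop 8 (List.drop 8 (List.drop 8 (List.drop 8 (List.drop 8 (List.drop 8 (List.drop 8 (List.drop 8 (frac))))))))))))))))))))))))))).all (cfgOK sizes cap) = true := by
  decide +kernel

theorem cfg_26 : (List.take 8 (List.drop 8 (List.drop 8 (List.drop 8 (List.drop 8 (List.drop 8 (List.drop 8 (List.drop 8 (List.drop 8 (List.drop 8 (List.drop 8 (List.drop 8 (List.drop 8 (List.drop 8 (List.drop 8 (List.drop 8 (List.drop 8 (List.drop 8 (List.drop 8 (List.drop 8 (List.drop 8 (List.drop 8 (List.drop 8 (List.drop 8 (List.drop 8 (List.drop 8 (List.drop 8 (frac)))))))))))))))))))))))))))).all (cfgOK sizes cap) = true := by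
  decide +kernel

theorem cfg_27 : (List.take 8 (List.drop 8 (List.drop 8 (List.drop 8 (List.drop 8 (List.drop 8 (List.drop 8 (List.drop 8 (List.drop 8 (List.drop 8 (List.drop 8 (List.drop 8 (List.drop 8 (List.drop 8 (List.drop 8 (List.drop 8 (List.drop 8 (List.drop 8 (List.drop 8 (List.drop 8 (List.drop 8 (List.drop 8 (List.drop 8 (List.drop 8 (List.drop 8 (List.drop 8 (List.drop 8 (List.drop 8 (frac))))))))))))))))))))))))))))).all (cfgOK sizes cap) = true := by
  decide +kernel

theorem cfg_28 : (List.take 8 (List.drop 8 (List.drop 8 (List.drop 8 (List.drop 8 (List.drop 8 (List.drop 8 (List.drop 8 (List.drop 8 (List.drop 8 (List.drop 8 (List.drop 8 (List.drop 8 (List.drop 8 (List.drop 8 (List.drop 8 (List.drop 8 (List.drop 8 (List.drop 8 (List.drop 8 (List.drop 8 (List.drop 8 (List.drop 8 (List.drop 8 (List.drop 8 (List.drop 8 (List.drop 8 (List.drop 8 (List.drop 8 (frac)))))))))))))))))))))))))))))).all (cfgOK sizes cap) = true := by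
  decide +kernel

theorem cfg_29 : (List.take 8 (List.drop 8 (List.drop 8 (List.drop 8 (List.drop 8 (List.drop 8 (List.drop 8 (List.drop 8 (List.drop 8 (List.drop 8 (List.drop 8 (List.drop 8 (List.drop 8 (List.drop 8 (List.drop 8 (List.drop 8 (List.drop 8 (List.drop 8 (List.drop 8 (List.drop 8 (List.drop 8 (List.drop 8 (List.drop 8 (List.drop 8 (List.drop 8 (List.drop 8 (List.drop 8 (List.drop 8 (List.drop 8 (List.drop 8 (frac))))))))))))))))))))))))))))))).all (cfgOK sizes cap) = true := by
  decide +kernel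

end Vale.Agent.Lib.P302.helper26.C755
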