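import Mathlib
import Vale.Agent.Lib.P302.helper26.C755.F2

/-!
# P302: the fractional solution of the 755-item instance, checked in pieces (part 3)
-/

namespace Vale.Agent.Lib.P302.helper26.C755

open Vale.Agent.Lib.P302.helper14 Vale.Agent.Lib.P302.helper8 Vale.Agent.Lib.P302.helper9

theorem cfg_30 : (List.take 8 (List.drop 8 (List.drop 8 (List.drop 8 (List.drop 8 (List.drop 8 (List.drop 8 (List.drop 8 (List.drop 8 (List.drop 8 (List.drop 8 (List.drop 8 (List.drop 8 (List.drop 8 (List.drop 8 (List.drop 8 (List.drop 8 (List.drop 8 (List.drop 8 (List.drop 8 (List.drop 8 (List.drop 8 (List.drop 8 (List.drop 8 (List.drop 8 (List.drop 8 (List.drop 8 (List.drop 8 (List.drop 8 (List.drop 8 (List.drop 8 (frac)))))))))))))))))))))))))))))))).all (cfgOK sizes cap) = true := by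
  decide +kernel

theorem cfg_31 : (List.take 8 (List.drop 8 (List.drop 8 (List.drop 8 (List.drop 8 (List.drop 8 (List.drop 8 (List.drop 8 (List.drop 8 (List.drop 8 (List.drop 8 (List.drop 8 (List.drop 8 (List.drop 8 (List.drop 8 (List.drop 8 (List.drop 8 (List.drop 8 (List.drop 8 (List.drop 8 (List.drop 8 (List.drop 8 (List.drop 8 (List.drop 8 (List.drop 8 (List.drop 8 (List.drop 8 (List.drop 8 (List.drop 8 (List.drop 8 (List.drop 8 (List.drop 8 (frac))))))))))))))))))))))))))))))))).all (cfgOK sizes cap) = true := by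
  decide +kernel

theorem cfg_32 : (List.take 8 (List.drop 8 (List.drop 8 (List.drop 8 (List.drop 8 (List.drop 8 (List.drop 8 (List.drop 8 (List.drop 8 (List.drop 8 (List.drop 8 (List.drop 8 (List.drop 8 (List.drop 8 (List.drop 8 (List.drop 8 (List.drop 8 (List.drop 8 (List.drop 8 (List.drop 8 (List.drop 8 (List.drop 8 (List.drop 8 (List.drop 8 (List.drop 8 (List.drop 8 (List.drop 8 (List.drop 8 (List.drop 8 (List.drop 8 (List.drop 8 (List.drop 8 (List.drop 8 (frac)))))))))))))))))))))))))))))))))).all (cfgOK sizes cap) = true := by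
  decide +kernel

theorem cfg_33 : (List.take 8 (List.drop 8 (List.drop 8 (List.drop 8 (List.drop 8 (List.drop 8 (List.drop 8 (List.drop 8 (List.drop 8 (List.drop 8 (List.drop 8 (List.drop 8 (List.drop 8 (List.drop 8 (List.drop 8 (List.drop 8 (List.drop 8 (List.drop 8 (List.drop 8 (List.drop 8 (List.drop 8 (List.drop 8 (List.drop 8 (List.drop 8 (List.drop 8 (List.drop 8 (List.drop 8 (List.drop 8 (List.drop 8 (List.drop 8 (List.drop 8 (List.drop 8 (List.drop 8 (List.drop 8 (frac))))))))))))))))))))))))))))))))))).all (cfgOK sizes cap) = true := by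
  decide +kernel

theorem cfg_34 : (List.take 8 (List.drop 8 (List.drop 8 (List.drop 8 (List.drop 8 (List.drop 8 (List.drop 8 (List.drop 8 (List.drop 8 (List.drop 8 (List.drop 8 (List.drop 8 (List.drop 8 (List.drop 8 (List.drop 8 (List.drop 8 (List.drop 8 (List.drop 8 (List.drop 8 (List.drop 8 (List.drop 8 (List.drop 8 (List.drop 8 (List.drop 8 (List.drop 8 (List.drop 8 (List.drop 8 (List.drop 8 (List.drop 8 (List.drop 8 (List.drop 8 (List.drop 8 (List.drop 8 (List.drop 8 (List.drop 8 (frac)))))))))))))))))))))))))))))))))))).all (cfgOK sizes cap) = true := by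
  decide +kernel

theorem cfg_35 : (List.take 8 (List.drop 8 (List.drop 8 (List.drop 8 (List.drop 8 (List.drop 8 (List.drop 8 (List.drop 8 (List.drop 8 (List.drop 8 (List.drop 8 (List.drop 8 (List.drop 8 (List.drop 8 (List.drop 8 (List.drop 8 (List.drop 8 (List.drop 8 (List.drop 8 (List.drop 8 (List.drop 8 (List.drop 8 (List.drop 8 (List.drop 8 (List.drop 8 (List.drop 8 (List.drop 8 (List.drop 8 (List.drop 8 (List.drop 8 (List.drop 8 (List.drop 8 (List.drop 8 (List.drop 8 (List.drop 8 (List.drop 8 (frac))))))))))))))))))))))))))))))))))))).all (cfgOK sizes cap) = true := by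
  decide +kernel

theorem cfg_36 : (List.take 8 (List.drop 8 (List.drop 8 (List.drop 8 (List.drop 8 (List.drop 8 (List.drop 8 (List.drop 8 (List.drop 8 (List.drop 8 (List.drop 8 (List.drop 8 (List.drop 8 (List.drop 8 (List.drop 8 (List.drop 8 (List.drop 8 (List.drop 8 (List.drop 8 (List.drop 8 (List.drop 8 (List.drop 8 (List.drop 8 (List.drop 8 (List.drop 8 (List.drop 8 (List.drop 8 (List.drop 8 (List.drop 8 (List.drop 8 (List.drop 8 (List.drop 8 (List.drop 8 (List.drop 8 (List.drop 8 (List.drop 8 (List.drop 8 (frac)))))))))))))))))))))))))))))))))))))).all (cfgOK sizes cap) = true := by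
  decide +kernel

theorem cfg_37 : (List.take 8 (List.drop 8 (List.drop 8 (List.drop 8 (List.drop 8 (List.drop 8 (List.drop 8 (List.drop 8 (List.drop 8 (List.drop 8 (List.drop 8 (List.drop 8 (List.drop 8 (List.drop 8 (List.drop 8 (List.drop 8 (List.drop 8 (List.drop 8 (List.drop 8 (List.drop 8 (List.drop 8 (List.drop 8 (List.drop 8 (List.drop 8 (List.drop 8 (List.drop 8 (List.drop 8 (List.drop 8 (List.drop 8 (List.drop 8 (List.drop 8 (List.drop 8 (List.drop 8 (List.drop 8 (List.drop 8 (List.drop 8 (List.drop 8 (List.drop 8 (frac))))))))))))))))))))))))))))))))))))))).all (cfgOK sizes cap) = true := by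
  decide +kernel

theorem cfg_38 : (List.take 8 (List.drop 8 (List.drop 8 (List.drop 8 (List.drop 8 (List.drop 8 (List.drop 8 (List.drop 8 (List.drop 8 (List.drop 8 (List.drop 8 (List.drop 8 (List.drop 8 (List.drop 8 (List.drop 8 (List.drop 8 (List.drop 8 (List.drop 8 (List.drop 8 (List.drop 8 (List.drop 8 (List.drop 8 (List.drop 8 (List.drop 8 (List.drop 8 (List.drop 8 (List.drop 8 (List.drop 8 (List.drop 8 (List.drop 8 (List.drop 8 (List.drop 8 (List.drop 8 (List.drop 8 (List.drop 8 (List.drop 8 (List.drop 8 (List.drop 8 (List.drop 8 (frac)))))))))))))))))))))))))))))))))))))))).all (cfgOK sizes cap) = true := by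
  decide +kernel

theorem cfg_39 : (List.take 8 (List.drop 8 (List.drop 8 (List.drop 8 (List.drop 8 (List.drop 8 (List.drop 8 (List.drop 8 (List.drop 8 (List.drop 8 (List.drop 8 (List.drop 8 (List.drop 8 (List.drop 8 (List.drop 8 (List.drop 8 (List.drop 8 (List.drop 8 (List.drop 8 (List.drop 8 (List.drop 8 (List.drop 8 (List.drop 8 (List.drop 8 (List.drop 8 (List.drop 8 (List.drop 8 (List.drop 8 (List.drop 8 (List.drop 8 (List.drop 8 (List.drop 8 (List.drop 8 (List.drop 8 (List.drop 8 (List.drop 8 (List.drop 8 (List.drop 8 (List.drop 8 (List.drop 8 (frac))))))))))))))))))))))))))))))))))))))))).all (cfgOK sizes cap) = true := by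
  decide +kernel

end Vale.Agent.Lib.P302.helper26.C755
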