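import Mathlib
import Vale.Agent.Lib.P302.helper26.C755.F3

/-!
# P302: the fractional solution of the 755-item instance, checked in pieces (part 4)
-/

namespace Vale.Agent.Lib.P302.helper26.C755

open Vale.Agent.Lib.P302.helper14 Vale.Agent.Lib.P302.helper8 Vale.Agent.Lib.P302.helper9

theorem cfg_40 : (List.take 8 (List.drop 8 (List.drop 8 (List.drop 8 (List.drop 8 (List.drop 8 (List.drop 8 (List.drop 8 (List.drop 8 (List.drop 8 (List.drop 8 (List.drop 8 (List.drop 8 (List.drop 8 (List.drop 8 (List.drop 8 (List.drop 8 (List.drop 8 (List.drop 8 (List.drop 8 (List.drop 8 (List.drop 8 (List.drop 8 (List.drop 8 (List.drop 8 (List.drop 8 (List.drop 8 (List.drop 8 (List.drop 8 (List.drop 8 (List.drop 8 (List.drop 8 (List.drop 8 (List.drop 8 (List.drop 8 (List.drop 8 (List.drop 8 (List.drop 8 (List.drop 8 (List.drop 8 (List.drop 8 (frac)))))))))))))))))))))))))))))))))))))))))).all (cfgOK sizes cap) = true := by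
  decide +kernel

theorem cfg_41 : (List.take 8 (List.drop 8 (List.drop 8 (List.drop 8 (List.drop 8 (List.drop 8 (List.drop 8 (List.drop 8 (List.drop 8 (List.drop 8 (List.drop 8 (List.drop 8 (List.drop 8 (List.drop 8 (List.drop 8 (List.drop 8 (List.drop 8 (List.drop 8 (List.drop 8 (List.drop 8 (List.drop 8 (List.drop 8 (List.drop 8 (List.drop 8 (List.drop 8 (List.drop 8 (List.drop 8 (List.drop 8 (List.drop 8 (List.drop 8 (List.drop 8 (List.drop 8 (List.drop 8 (List.drop 8 (List.drop 8 (List.drop 8 (List.drop 8 (List.drop 8 (List.drop 8 (List.drop 8 (List.drop 8 (List.drop 8 (frac))))))))))))))))))))))))))))))))))))))))))).all (cfgOK sizes cap) = true := by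
  decide +kernel

theorem cfg_42 : (List.take 8 (List.drop 8 (List.drop 8 (List.drop 8 (List.drop 8 (List.drop 8 (List.drop 8 (List.drop 8 (List.drop 8 (List.drop 8 (List.drop 8 (List.drop 8 (List.drop 8 (List.drop 8 (List.drop 8 (List.drop 8 (List.drop 8 (List.drop 8 (List.drop 8 (List.drop 8 (List.drop 8 (List.drop 8 (List.drop 8 (List.drop 8 (List.drop 8 (List.drop 8 (List.drop 8 (List.drop 8 (List.drop 8 (List.drop 8 (List.drop 8 (List.drop 8 (List.drop 8 (List.drop 8 (List.drop 8 (List.drop 8 (List.drop 8 (List.drop 8 (List.drop 8 (List.drop 8 (List.drop 8 (List.drop 8 (List.drop 8 (frac)))))))))))))))))))))))))))))))))))))))))))).all (cfgOK sizes cap) = true := by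
  decide +kernel

theorem cfg_43 : (List.take 8 (List.drop 8 (List.drop 8 (List.drop 8 (List.drop 8 (List.drop 8 (List.drop 8 (List.drop 8 (List.drop 8 (List.drop 8 (List.drop 8 (List.drop 8 (List.drop 8 (List.drop 8 (List.drop 8 (List.drop 8 (List.drop 8 (List.drop 8 (List.drop 8 (List.drop 8 (List.drop 8 (List.drop 8 (List.drop 8 (List.drop 8 (List.drop 8 (List.drop 8 (List.drop 8 (List.drop 8 (List.drop 8 (List.drop 8 (List.drop 8 (List.drop 8 (List.drop 8 (List.drop 8 (List.drop 8 (List.drop 8 (List.drop 8 (List.drop 8 (List.drop 8 (List.drop 8 (List.drop 8 (List.drop 8 (List.drop 8 (List.drop 8 (frac))))))))))))))))))))))))))))))))))))))))))))).all (cfgOK sizes cap) = true := by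
  decide +kernel

theorem cfg_44 : (List.take 8 (List.drop 8 (List.drop 8 (List.drop 8 (List.drop 8 (List.drop 8 (List.drop 8 (List.drop 8 (List.drop 8 (List.drop 8 (List.drop 8 (List.drop 8 (List.drop 8 (List.drop 8 (List.drop 8 (List.drop 8 (List.drop 8 (List.drop 8 (List.drop 8 (List.drop 8 (List.drop 8 (List.drop 8 (List.drop 8 (List.drop 8 (List.drop 8 (List.drop 8 (List.drop 8 (List.drop 8 (List.drop 8 (List.drop 8 (List.drop 8 (List.drop 8 (List.drop 8 (List.drop 8 (List.drop 8 (List.drop 8 (List.drop 8 (List.drop 8 (List.drop 8 (List.drop 8 (List.drop 8 (List.drop 8 (List.drop 8 (List.drop 8 (List.drop 8 (frac)))))))))))))))))))))))))))))))))))))))))))))).all (cfgOK sizes cap) = true := by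
  decide +kernel

theorem cfg_45 : (List.take 8 (List.drop 8 (List.drop 8 (List.drop 8 (List.drop 8 (List.drop 8 (List.drop 8 (List.drop 8 (List.drop 8 (List.drop 8 (List.drop 8 (List.drop 8 (List.drop 8 (List.drop 8 (List.drop 8 (List.drop 8 (List.drop 8 (List.drop 8 (List.drop 8 (List.drop 8 (List.drop 8 (List.drop 8 (List.drop 8 (List.drop 8 (List.drop 8 (List.drop 8 (List.drop 8 (List.drop 8 (List.drop 8 (List.drop 8 (List.drop 8 (List.drop 8 (List.drop 8 (List.drop 8 (List.drop 8 (List.drop 8 (List.drop 8 (List.drop 8 (List.drop 8 (List.drop 8 (List.drop 8 (List.drop 8 (List.drop 8 (List.drop 8 (List.drop 8 (List.drop 8 (frac))))))))))))))))))))))))))))))))))))))))))))))).all (cfgOK sizes cap) = true := by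
  decide +kernel

theorem cfg_46 : (List.take 8 (List.drop 8 (List.drop 8 (List.drop 8 (List.drop 8 (List.drop 8 (List.drop 8 (List.drop 8 (List.drop 8 (List.drop 8 (List.drop 8 (List.drop 8 (List.drop 8 (List.drop 8 (List.drop 8 (List.drop 8 (List.drop 8 (List.drop 8 (List.drop 8 (List.drop 8 (List.drop 8 (List.drop 8 (List.drop 8 (List.drop 8 (List.drop 8 (List.drop 8 (List.drop 8 (List.drop 8 (List.drop 8 (List.drop 8 (List.drop 8 (List.drop 8 (List.drop 8 (List.drop 8 (List.drop 8 (List.drop 8 (List.drop 8 (List.drop 8 (List.drop 8 (List.drop 8 (List.drop 8 (List.drop 8 (List.drop 8 (List.drop 8 (List.drop 8 (List.drop 8 (List.drop 8 (frac)))))))))))))))))))))))))))))))))))))))))))))))).all (cfgOK sizes cap) = true := by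
  decide +kernel

theorem cfg_47 : (List.take 8 (List.drop 8 (List.drop 8 (List.drop 8 (List.drop 8 (List.drop 8 (List.drop 8 (List.drop 8 (List.drop 8 (List.drop 8 (List.drop 8 (List.drop 8 (List.drop 8 (List.drop 8 (List.drop 8 (List.drop 8 (List.drop 8 (List.drop 8 (List.drop 8 (List.drop 8 (List.drop 8 (List.drop 8 (List.drop 8 (List.drop 8 (List.drop 8 (List.drop 8 (List.drop 8 (List.drop 8 (List.drop 8 (List.drop 8 (List.drop 8 (List.drop 8 (List.drop 8 (List.drop 8 (List.drop 8 (List.drop 8 (List.drop 8 (List.drop 8 (List.drop 8 (List.drop 8 (List.drop 8 (List.drop 8 (List.drop 8 (List.drop 8 (List.drop 8 (List.drop 8 (List.drop 8 (List.drop 8 (frac))))))))))))))))))))))))))))))))))))))))))))))))).all (cfgOK sizes cap) = true := by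
  decide +kernel

theorem cfg_48 : (List.take 8 (List.drop 8 (List.drop 8 (List.drop 8 (List.drop 8 (List.drop 8 (List.drop 8 (List.drop 8 (List.drop 8 (List.drop 8 (List.drop 8 (List.drop 8 (List.drop 8 (List.drop 8 (List.drop 8 (List.drop 8 (List.drop 8 (List.drop 8 (List.drop 8 (List.drop 8 (List.drop 8 (List.drop 8 (List.drop 8 (List.drop 8 (List.drop 8 (List.drop 8 (List.drop 8 (List.drop 8 (List.drop 8 (List.drop 8 (List.drop 8 (List.drop 8 (List.drop 8 (List.drop 8 (List.drop 8 (List.drop 8 (List.drop 8 (List.drop 8 (List.drop 8 (List.drop 8 (List.drop 8 (List.drop 8 (List.drop 8 (List.drop 8 (List.drop 8 (List.drop 8 (List.drop 8 (List.drop 8 (List.drop 8 (frac)))))))))))))))))))))))))))))))))))))))))))))))))).all (cfgOK sizes cap) = true := by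
  decide +kernel

theorem cfg_49 : (List.take 8 (List.drop 8 (List.drop 8 (List.drop 8 (List.drop 8 (List.drop 8 (List.drop 8 (List.drop 8 (List.drop 8 (List.drop 8 (List.drop 8 (List.drop 8 (List.drop 8 (List.drop 8 (List.drop 8 (List.drop 8 (List.drop 8 (List.drop 8 (List.drop 8 (List.drop 8 (List.drop 8 (List.drop 8 (List.drop 8 (List.drop 8 (List.drop 8 (List.drop 8 (List.drop 8 (List.drop 8 (List.drop 8 (List.drop 8 (List.drop 8 (List.drop 8 (List.drop 8 (List.drop 8 (List.drop 8 (List.drop 8 (List.drop 8 (List.drop 8 (List.drop 8 (List.drop 8 (List.drop 8 (List.drop 8 (List.drop 8 (List.drop 8 (List.drop 8 (List.drop 8 (List.drop 8 (List.drop 8 (List.drop 8 (List.drop 8 (frac))))))))))))))))))))))))))))))))))))))))))))))))))).all (cfgOK sizes cap) = true := by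
  decide +kernel

end Vale.Agent.Lib.P302.helper26.C755
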