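import Mathlib
import Vale.Agent.Lib.P302.helper26.C755.F4

/-!
# P302: the fractional solution of the 755-item instance, checked in pieces (part 5)
-/

namespace Vale.Agent.Lib.P302.helper26.C755

open Vale.Agent.Lib.P302.helper14 Vale.Agent.Lib.P302.helper8 Vale.Agent.Lib.P302.helper9

theorem cfg_50 : (List.take 8 (List.drop 8 (List.drop 8 (List.drop 8 (List.drop 8 (List.drop 8 (List.drop 8 (List.drop 8 (List.drop 8 (List.drop 8 (List.drop 8 (List.drop 8 (List.drop 8 (List.drop 8 (List.drop 8 (List.drop 8 (List.drop 8 (List.drop 8 (List.drop 8 (List.drop 8 (List.drop 8 (List.drop 8 (List.drop 8 (List.drop 8 (List.drop 8 (List.drop 8 (List.drop 8 (List.drop 8 (List.drop 8 (List.drop 8 (List.drop 8 (List.drop 8 (List.drop 8 (List.drop 8 (List.drop 8 (List.drop 8 (List.drop 8 (List.drop 8 (List.drop 8 (List.drop 8 (List.drop 8 (List.drop 8 (List.drop 8 (List.drop 8 (List.drop 8 (List.drop 8 (List.drop 8 (List.drop 8 (List.drop 8 (List.drop 8 (List.drop 8 (frac)))))))))))))))))))))))))))))))))))))))))))))))))))).all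 (cfgOK sizes cap) = true := by
  decide +kernel

theorem cfg_51 : (List.take 8 (List.drop 8 (List.drop 8 (List.drop 8 (List.drop 8 (List.drop 8 (List.drop 8 (List.drop 8 (List.drop 8 (List.drop 8 (List.drop 8 (List.drop 8 (List.drop 8 (List.drop 8 (List.drop 8 (List.drop 8 (List.drop 8 (List.drop 8 (List.drop 8 (List.drop 8 (List.drop 8 (List.drop 8 (List.drop 8 (List.drop 8 (List.drop 8 (List.drop 8 (List.drop 8 (List.drop 8 (List.drop 8 (List.drop 8 (List.drop 8 (List.drop 8 (List.drop 8 (List.drop 8 (List.drop 8 (List.drop 8 (List.drop 8 (List.drop 8 (List.drop 8 (List.drop 8 (List.drop 8 (List.drop 8 (List.drop 8 (List.drop 8 (List.drop 8 (List.drop 8 (List.drop 8 (List.drop 8 (List.drop 8 (List.drop 8 (List.drop 8 (List.drop 8 (frac))))))))))))))))))))))))))))))))))))))))))))))))))))).all (cfgOK sizes cap) = true := by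
  decide +kernel

theorem cfg_52 : (List.take 8 (List.drop 8 (List.drop 8 (List.drop 8 (List.drop 8 (List.drop 8 (List.drop 8 (List.drop 8 (List.drop 8 (List.drop 8 (List.drop 8 (List.drop 8 (List.drop 8 (List.drop 8 (List.drop 8 (List.drop 8 (List.drop 8 (List.drop 8 (List.drop 8 (List.drop 8 (List.drop 8 (List.drop 8 (List.drop 8 (List.drop 8 (List.drop 8 (List.drop 8 (List.drop 8 (List.drop 8 (List.drop 8 (List.drop 8 (List.drop 8 (List.drop 8 (List.drop 8 (List.drop 8 (List.drop 8 (List.drop 8 (List.drop 8 (List.drop 8 (List.drop 8 (List.drop 8 (List.drop 8 (List.drop 8 (List.drop 8 (List.drop 8 (List.drop 8 (List.drop 8 (List.drop 8 (List.drop 8 (List.drop 8 (List.drop 8 (List.drop 8 (List.drop 8 (List.drop 8 (frac)))))))))))))))))))))))))))))))))))))))))))))))))))))).all (cfgOK sizes cap) = true := by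
  decide +kernel

theorem cfg_53 : (List.take 8 (List.drop 8 (List.drop 8 (List.drop 8 (List.drop 8 (List.drop 8 (List.drop 8 (List.drop 8 (List.drop 8 (List.drop 8 (List.drop 8 (List.drop 8 (List.drop 8 (List.drop 8 (List.drop 8 (List.drop 8 (List.drop 8 (List.drop 8 (List.drop 8 (List.drop 8 (List.drop 8 (List.drop 8 (List.drop 8 (List.drop 8 (List.drop 8 (List.drop 8 (List.drop 8 (List.drop 8 (List.drop 8 (List.drop 8 (List.drop 8 (List.drop 8 (List.drop 8 (List.drop 8 (List.drop 8 (List.drop 8 (List.drop 8 (List.drop 8 (List.drop 8 (List.drop 8 (List.drop 8 (List.drop 8 (List.drop 8 (List.drop 8 (List.drop 8 (List.drop 8 (List.drop 8 (List.drop 8 (List.drop 8 (List.drop 8 (List.drop 8 (List.drop 8 (List.drop 8 (List.drop 8 (frac))))))))))))))))))))))))))))))))))))))))))))))))))))))).all (cfgOK sizes cap) = true := by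
  decide +kernel

theorem cfg_54 : (List.take 8 (List.drop 8 (List.drop 8 (List.drop 8 (List.drop 8 (List.drop 8 (List.drop 8 (List.drop 8 (List.drop 8 (List.drop 8 (List.drop 8 (List.drop 8 (List.drop 8 (List.drop 8 (List.drop 8 (List.drop 8 (List.drop 8 (List.drop 8 (List.drop 8 (List.drop 8 (List.drop 8 (List.drop 8 (List.drop 8 (List.drop 8 (List.drop 8 (List.drop 8 (List.drop 8 (List.drop 8 (List.drop 8 (List.drop 8 (List.drop 8 (List.drop 8 (List.drop 8 (List.drop 8 (List.drop 8 (List.drop 8 (List.drop 8 (List.drop 8 (List.drop 8 (List.drop 8 (List.drop 8 (List.drop 8 (List.drop 8 (List.drop 8 (List.drop 8 (List.drop 8 (List.drop 8 (List.drop 8 (List.drop 8 (List.drop 8 (List.drop 8 (List.drop 8 (List.drop 8 (List.drop 8 (List.drop 8 (frac)))))))))))))))))))))))))))))))))))))))))))))))))))))))).all (cfgOK sizes cap) = true := by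
  decide +kernel

theorem cfg_55 : (List.take 8 (List.drop 8 (List.drop 8 (List.drop 8 (List.drop 8 (List.drop 8 (List.drop 8 (List.drop 8 (List.drop 8 (List.drop 8 (List.drop 8 (List.drop 8 (List.drop 8 (List.drop 8 (List.drop 8 (List.drop 8 (List.drop 8 (List.drop 8 (List.drop 8 (List.drop 8 (List.drop 8 (List.drop 8 (List.drop 8 (List.drop 8 (List.drop 8 (List.drop 8 (List.drop 8 (List.drop 8 (List.drop 8 (List.drop 8 (List.drop 8 (List.drop 8 (List.drop 8 (List.drop 8 (List.drop 8 (List.drop 8 (List.drop 8 (List.drop 8 (List.drop 8 (List.drop 8 (List.drop 8 (List.drop 8 (List.drop 8 (List.drop 8 (List.drop 8 (List.drop 8 (List.drop 8 (List.drop 8 (List.drop 8 (List.drop 8 (List.drop 8 (List.drop 8 (List.drop 8 (List.drop 8 (List.drop 8 (List.drop 8 (frac))))))))))))))))))))))))))))))))))))))))))))))))))))))))).all (cfgOK sizes cap) = true := by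
  decide +kernel

theorem cfg_56 : (List.take 8 (List.drop 8 (List.drop 8 (List.drop 8 (List.drop 8 (List.drop 8 (List.drop 8 (List.drop 8 (List.drop 8 (List.drop 8 (List.drop 8 (List.drop 8 (List.drop 8 (List.drop 8 (List.drop 8 (List.drop 8 (List.drop 8 (List.drop 8 (List.drop 8 (List.drop 8 (List.drop 8 (List.drop 8 (List.drop 8 (List.drop 8 (List.drop 8 (List.drop 8 (List.drop 8 (List.drop 8 (List.drop 8 (List.drop 8 (List.drop 8 (List.drop 8 (List.drop 8 (List.drop 8 (List.drop 8 (List.drop 8 (List.drop 8 (List.drop 8 (List.drop 8 (List.drop 8 (List.drop 8 (List.drop 8 (List.drop 8 (List.drop 8 (List.drop 8 (List.drop 8 (List.drop 8 (List.drop 8 (List.drop 8 (List.drop 8 (List.drop 8 (List.drop 8 (List.drop 8 (List.drop 8 (List.drop 8 (List.drop 8 (List.drop 8 (frac)))))))))))))))))))))))))))))))))))))))))))))))))))))))))).all (cfgOK sizes cap) = true := by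
  decide +kernel

theorem cfg_57 : (List.take 8 (List.drop 8 (List.drop 8 (List.drop 8 (List.drop 8 (List.drop 8 (List.drop 8 (List.drop 8 (List.drop 8 (List.drop 8 (List.drop 8 (List.drop 8 (List.drop 8 (List.drop 8 (List.drop 8 (List.drop 8 (List.drop 8 (List.drop 8 (List.drop 8 (List.drop 8 (List.drop 8 (List.drop 8 (List.drop 8 (List.drop 8 (List.drop 8 (List.drop 8 (List.drop 8 (List.drop 8 (List.drop 8 (List.drop 8 (List.drop 8 (List.drop 8 (List.drop 8 (List.drop 8 (List.drop 8 (List.drop 8 (List.drop 8 (List.drop 8 (List.drop 8 (List.drop 8 (List.drop 8 (List.drop 8 (List.drop 8 (List.drop 8 (List.drop 8 (List.drop 8 (List.drop 8 (List.drop 8 (List.drop 8 (List.drop 8 (List.drop 8 (List.drop 8 (List.drop 8 (List.drop 8 (List.drop 8 (List.drop 8 (List.drop 8 (List.drop 8 (frac))))))))))))))))))))))))))))))))))))))))))))))))))))))))))).all (cfgOK sizes cap) = true := by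
  decide +kernel

theorem cfg_58 : (List.take 8 (List.drop 8 (List.drop 8 (List.drop 8 (List.drop 8 (List.drop 8 (List.drop 8 (List.drop 8 (List.drop 8 (List.drop 8 (List.drop 8 (List.drop 8 (List.drop 8 (List.drop 8 (List.drop 8 (List.drop 8 (List.drop 8 (List.drop 8 (List.drop 8 (List.drop 8 (List.drop 8 (List.drop 8 (List.drop 8 (List.drop 8 (List.drop 8 (List.drop 8 (List.drop 8 (List.drop 8 (List.drop 8 (List.drop 8 (List.drop 8 (List.drop 8 (List.drop 8 (List.drop 8 (List.drop 8 (List.drop 8 (List.drop 8 (List.drop 8 (List.drop 8 (List.drop 8 (List.drop 8 (List.drop 8 (List.drop 8 (List.drop 8 (List.drop 8 (List.drop 8 (List.drop 8 (List.drop 8 (List.drop 8 (List.drop 8 (List.drop 8 (List.drop 8 (List.drop 8 (List.drop 8 (List.drop 8 (List.drop 8 (List.drop 8 (List.drop 8 (List.drop 8 (frac)))))))))))))))))))))))))))))))))))))))))))))))))))))))))))).all (cfgOK sizes cap) = true := by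
  decide +kernel

theorem cfg_59 : (List.take 8 (List.drop 8 (List.drop 8 (List.drop 8 (List.drop 8 (List.drop 8 (List.drop 8 (List.drop 8 (List.drop 8 (List.drop 8 (List.drop 8 (List.drop 8 (List.drop 8 (List.drop 8 (List.drop 8 (List.drop 8 (List.drop 8 (List.drop 8 (List.drop 8 (List.drop 8 (List.drop 8 (List.drop 8 (List.drop 8 (List.drop 8 (List.drop 8 (List.drop 8 (List.drop 8 (List.drop 8 (List.drop 8 (List.drop 8 (List.drop 8 (List.drop 8 (List.drop 8 (List.drop 8 (List.drop 8 (List.drop 8 (List.drop 8 (List.drop 8 (List.drop 8 (List.drop 8 (List.drop 8 (List.drop 8 (List.drop 8 (List.drop 8 (List.drop 8 (List.drop 8 (List.drop 8 (List.drop 8 (List.drop 8 (List.drop 8 (List.drop 8 (List.drop 8 (List.drop 8 (List.drop 8 (List.drop 8 (List.drop 8 (List.drop 8 (List.drop 8 (List.drop 8 (List.drop 8 (frac))))))))))))))))))))))))))))))))))))))))))))))))))))))))))))).all (cfgOK sizes cap) = true := by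
  decide +kernel

end Vale.Agent.Lib.P302.helper26.C755
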