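import Mathlib
import Vale.Agent.Lib.P302.helper26.C755.F9

/-!
# P302: the fractional solution of the 755-item instance, checked in pieces (part 10)
-/

namespace Vale.Agent.Lib.P302.helper26.C755

open Vale.Agent.Lib.P302.helper14 Vale.Agent.Lib.P302.helper8 Vale.Agent.Lib.P302.helper9

theorem cov_26 : (List.take 7 (List.drop 7 (List.drop 7 (List.drop 7 (List.drop 7 (List.drop 7 (List.drop 7 (List.drop 7 (List.drop 7 (List.drop 7 (List.drop 7 (List.drop 7 (List.drop 7 (List.drop 7 (List.drop 7 (List.drop 7 (List.drop 7 (List.drop 7 (List.drop 7 (List.drop 7 (List.drop 7 (List.drop 7 (List.drop 7 (List.drop 7 (List.drop 7 (List.drop 7 (List.drop 7 (sizes)))))))))))))))))))))))))))).all (covOK sizes 63700992 frac) = true := by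
  decide +kernel

theorem cov_27 : (List.take 7 (List.drop 7 (List.drop 7 (List.drop 7 (List.drop 7 (List.drop 7 (List.drop 7 (List.drop 7 (List.drop 7 (List.drop 7 (List.drop 7 (List.drop 7 (List.drop 7 (List.drop 7 (List.drop 7 (List.drop 7 (List.drop 7 (List.drop 7 (List.drop 7 (List.drop 7 (List.drop 7 (List.drop 7 (List.drop 7 (List.drop 7 (List.drop 7 (List.drop 7 (List.drop 7 (List.drop 7 (sizes))))))))))))))))))))))))))))).all (covOK sizes 63700992 frac) = true := by
  decide +kernel

theorem cov_28 : (List.take 7 (List.drop 7 (List.drop 7 (List.drop 7 (List.drop 7 (List.drop 7 (List.drop 7 (List.drop 7 (List.drop 7 (List.drop 7 (List.drop 7 (List.drop 7 (List.drop 7 (List.drop 7 (List.drop 7 (List.drop 7 (List.drop 7 (List.drop 7 (List.drop 7 (List.drop 7 (List.drop 7 (List.drop 7 (List.drop 7 (List.drop 7 (List.drop 7 (List.drop 7 (List.drop 7 (List.drop 7 (List.drop 7 (sizes)))))))))))))))))))))))))))))).all (covOK sizes 63700992 frac) = true := by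
  decide +kernel

theorem cov_29 : (List.take 7 (List.drop 7 (List.drop 7 (List.drop 7 (List.drop 7 (List.drop 7 (List.drop 7 (List.drop 7 (List.drop 7 (List.drop 7 (List.drop 7 (List.drop 7 (List.drop 7 (List.drop 7 (List.drop 7 (List.drop 7 (List.drop 7 (List.drop 7 (List.drop 7 (List.drop 7 (List.drop 7 (List.drop 7 (List.drop 7 (List.drop 7 (List.drop 7 (List.drop 7 (List.drop 7 (List.drop 7 (List.drop 7 (List.drop 7 (sizes))))))))))))))))))))))))))))))).all (covOK sizes 63700992 frac) = true := by
  decide +kernel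

theorem cov_30 : (List.take 7 (List.drop 7 (List.drop 7 (List.drop 7 (List.drop 7 (List.drop 7 (List.drop 7 (List.drop 7 (List.drop 7 (List.drop 7 (List.drop 7 (List.drop 7 (List.drop 7 (List.drop 7 (List.drop 7 (List.drop 7 (List.drop 7 (List.drop 7 (List.drop 7 (List.drop 7 (List.drop 7 (List.drop 7 (List.drop 7 (List.drop 7 (List.drop 7 (List.drop 7 (List.drop 7 (List.drop 7 (List.drop 7 (List.drop 7 (List.drop 7 (sizes)))))))))))))))))))))))))))))))).all (covOK sizes 63700992 frac) = true := by
  decide +kernel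

theorem cov_31 : (List.take 7 (List.drop 7 (List.drop 7 (List.drop 7 (List.drop 7 (List.drop 7 (List.drop 7 (List.drop 7 (List.drop 7 (List.drop 7 (List.drop 7 (List.drop 7 (List.drop 7 (List.drop 7 (List.drop 7 (List.drop 7 (List.drop 7 (List.drop 7 (List.drop 7 (List.drop 7 (List.drop 7 (List.drop 7 (List.drop 7 (List.drop 7 (List.drop 7 (List.drop 7 (List.drop 7 (List.drop 7 (List.drop 7 (List.drop 7 (List.drop 7 (List.drop 7 (sizes))))))))))))))))))))))))))))))))).all (covOK sizes 63700992 frac) = true := by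
  decide +kernel

theorem cov_32 : (List.take 7 (List.drop 7 (List.drop 7 (List.drop 7 (List.drop 7 (List.drop 7 (List.drop 7 (List.drop 7 (List.drop 7 (List.drop 7 (List.drop 7 (List.drop 7 (List.drop 7 (List.drop 7 (List.drop 7 (List.drop 7 (List.drop 7 (List.drop 7 (List.drop 7 (List.drop 7 (List.drop 7 (List.drop 7 (List.drop 7 (List.drop 7 (List.drop 7 (List.drop 7 (List.drop 7 (List.drop 7 (List.drop 7 (List.drop 7 (List.drop 7 (List.drop 7 (List.drop 7 (sizes)))))))))))))))))))))))))))))))))).all (covOK sizes 63700992 frac) = true := by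
  decide +kernel

theorem cov_33 : (List.take 7 (List.drop 7 (List.drop 7 (List.drop 7 (List.drop 7 (List.drop 7 (List.drop 7 (List.drop 7 (List.drop 7 (List.drop 7 (List.drop 7 (List.drop 7 (List.drop 7 (List.drop 7 (List.drop 7 (List.drop 7 (List.drop 7 (List.drop 7 (List.drop 7 (List.drop 7 (List.drop 7 (List.drop 7 (List.drop 7 (List.drop 7 (List.drop 7 (List.drop 7 (List.drop 7 (List.drop 7 (List.drop 7 (List.drop 7 (List.drop 7 (List.drop 7 (List.drop 7 (List.drop 7 (sizes))))))))))))))))))))))))))))))))))).all (covOK sizes 63700992 frac) = true := by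
  decide +kernel

theorem cov_34 : (List.take 7 (List.drop 7 (List.drop 7 (List.drop 7 (List.drop 7 (List.drop 7 (List.drop 7 (List.drop 7 (List.drop 7 (List.drop 7 (List.drop 7 (List.drop 7 (List.drop 7 (List.drop 7 (List.drop 7 (List.drop 7 (List.drop 7 (List.drop 7 (List.drop 7 (List.drop 7 (List.drop 7 (List.drop 7 (List.drop 7 (List.drop 7 (List.drop 7 (List.drop 7 (List.drop 7 (List.drop 7 (List.drop 7 (List.drop 7 (List.drop 7 (List.drop 7 (List.drop 7 (List.drop 7 (List.drop 7 (sizes)))))))))))))))))))))))))))))))))))).all (covOK sizes 63700992 frac) = true := by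
  decide +kernel

theorem cov_35 : (List.take 7 (List.drop 7 (List.drop 7 (List.drop 7 (List.drop 7 (List.drop 7 (List.drop 7 (List.drop 7 (List.drop 7 (List.drop 7 (List.drop 7 (List.drop 7 (List.drop 7 (List.drop 7 (List.drop 7 (List.drop 7 (List.drop 7 (List.drop 7 (List.drop 7 (List.drop 7 (List.drop 7 (List.drop 7 (List.drop 7 (List.drop 7 (List.drop 7 (List.drop 7 (List.drop 7 (List.drop 7 (List.drop 7 (List.drop 7 (List.drop 7 (List.drop 7 (List.drop 7 (List.drop 7 (List.drop 7 (List.drop 7 (sizes))))))))))))))))))))))))))))))))))))).all (covOK sizes 63700992 frac) = true := by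
  decide +kernel

end Vale.Agent.Lib.P302.helper26.C755
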