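import Mathlib
import Vale.Agent.Lib.P302.helper26.C755.F10

/-!
# P302: the fractional solution of the 755-item instance, checked in pieces (part 11)
-/

namespace Vale.Agent.Lib.P302.helper26.C755

open Vale.Agent.Lib.P302.helper14 Vale.Agent.Lib.P302.helper8 Vale.Agent.Lib.P302.helper9

theorem cov_36 : (List.take 7 (List.drop 7 (List.drop 7 (List.drop 7 (List.drop 7 (List.drop 7 (List.drop 7 (List.drop 7 (List.drop 7 (List.drop 7 (List.drop 7 (List.drop 7 (List.drop 7 (List.drop 7 (List.drop 7 (List.drop 7 (List.drop 7 (List.drop 7 (List.drop 7 (List.drop 7 (List.drop 7 (List.drop 7 (List.drop 7 (List.drop 7 (List.drop 7 (List.drop 7 (List.drop 7 (List.drop 7 (List.drop 7 (List.drop 7 (List.drop 7 (List.drop 7 (List.drop 7 (List.drop 7 (List.drop 7 (List.drop 7 (List.drop 7 (sizes)))))))))))))))))))))))))))))))))))))).all (covOK sizes 63700992 frac) = true := by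
  decide +kernel

theorem cov_37 : (List.take 7 (List.drop 7 (List.drop 7 (List.drop 7 (List.drop 7 (List.drop 7 (List.drop 7 (List.drop 7 (List.drop 7 (List.drop 7 (List.drop 7 (List.drop 7 (List.drop 7 (List.drop 7 (List.drop 7 (List.drop 7 (List.drop 7 (List.drop 7 (List.drop 7 (List.drop 7 (List.drop 7 (List.drop 7 (List.drop 7 (List.drop 7 (List.drop 7 (List.drop 7 (List.drop 7 (List.drop 7 (List.drop 7 (List.drop 7 (List.drop 7 (List.drop 7 (List.drop 7 (List.drop 7 (List.drop 7 (List.drop 7 (List.drop 7 (List.drop 7 (sizes))))))))))))))))))))))))))))))))))))))).all (covOK sizes 63700992 frac) = true := by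
  decide +kernel

theorem cov_38 : (List.take 7 (List.drop 7 (List.drop 7 (List.drop 7 (List.drop 7 (List.drop 7 (List.drop 7 (List.drop 7 (List.drop 7 (List.drop 7 (List.drop 7 (List.drop 7 (List.drop 7 (List.drop 7 (List.drop 7 (List.drop 7 (List.drop 7 (List.drop 7 (List.drop 7 (List.drop 7 (List.drop 7 (List.drop 7 (List.drop 7 (List.drop 7 (List.drop 7 (List.drop 7 (List.drop 7 (List.drop 7 (List.drop 7 (List.drop 7 (List.drop 7 (List.drop 7 (List.drop 7 (List.drop 7 (List.drop 7 (List.drop 7 (List.drop 7 (List.drop 7 (List.drop 7 (sizes)))))))))))))))))))))))))))))))))))))))).all (covOK sizes 63700992 frac) = true := by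
  decide +kernel

theorem cov_39 : (List.take 7 (List.drop 7 (List.drop 7 (List.drop 7 (List.drop 7 (List.drop 7 (List.drop 7 (List.drop 7 (List.drop 7 (List.drop 7 (List.drop 7 (List.drop 7 (List.drop 7 (List.drop 7 (List.drop 7 (List.drop 7 (List.drop 7 (List.drop 7 (List.drop 7 (List.drop 7 (List.drop 7 (List.drop 7 (List.drop 7 (List.drop 7 (List.drop 7 (List.drop 7 (List.drop 7 (List.drop 7 (List.drop 7 (List.drop 7 (List.drop 7 (List.drop 7 (List.drop 7 (List.drop 7 (List.drop 7 (List.drop 7 (List.drop 7 (List.drop 7 (List.drop 7 (List.drop 7 (sizes))))))))))))))))))))))))))))))))))))))))).all (covOK sizes 63700992 frac) = true := by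
  decide +kernel

theorem cov_40 : (List.take 7 (List.drop 7 (List.drop 7 (List.drop 7 (List.drop 7 (List.drop 7 (List.drop 7 (List.drop 7 (List.drop 7 (List.drop 7 (List.drop 7 (List.drop 7 (List.drop 7 (List.drop 7 (List.drop 7 (List.drop 7 (List.drop 7 (List.drop 7 (List.drop 7 (List.drop 7 (List.drop 7 (List.drop 7 (List.drop 7 (List.drop 7 (List.drop 7 (List.drop 7 (List.drop 7 (List.drop 7 (List.drop 7 (List.drop 7 (List.drop 7 (List.drop 7 (List.drop 7 (List.drop 7 (List.drop 7 (List.drop 7 (List.drop 7 (List.drop 7 (List.drop 7 (List.drop 7 (List.drop 7 (sizes)))))))))))))))))))))))))))))))))))))))))).all (covOK sizes 63700992 frac) = true := by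
  decide +kernel

theorem cov_41 : (List.take 7 (List.drop 7 (List.drop 7 (List.drop 7 (List.drop 7 (List.drop 7 (List.drop 7 (List.drop 7 (List.drop 7 (List.drop 7 (List.drop 7 (List.drop 7 (List.drop 7 (List.drop 7 (List.drop 7 (List.drop 7 (List.drop 7 (List.drop 7 (List.drop 7 (List.drop 7 (List.drop 7 (List.drop 7 (List.drop 7 (List.drop 7 (List.drop 7 (List.drop 7 (List.drop 7 (List.drop 7 (List.drop 7 (List.drop 7 (List.drop 7 (List.drop 7 (List.drop 7 (List.drop 7 (List.drop 7 (List.drop 7 (List.drop 7 (List.drop 7 (List.drop 7 (List.drop 7 (List.drop 7 (List.drop 7 (sizes))))))))))))))))))))))))))))))))))))))))))).all (covOK sizes 63700992 frac) = true := by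
  decide +kernel

theorem cov_42 : (List.take 7 (List.drop 7 (List.drop 7 (List.drop 7 (List.drop 7 (List.drop 7 (List.drop 7 (List.drop 7 (List.drop 7 (List.drop 7 (List.drop 7 (List.drop 7 (List.drop 7 (List.drop 7 (List.drop 7 (List.drop 7 (List.drop 7 (List.drop 7 (List.drop 7 (List.drop 7 (List.drop 7 (List.drop 7 (List.drop 7 (List.drop 7 (List.drop 7 (List.drop 7 (List.drop 7 (List.drop 7 (List.drop 7 (List.drop 7 (List.drop 7 (List.drop 7 (List.drop 7 (List.drop 7 (List.drop 7 (List.drop 7 (List.drop 7 (List.drop 7 (List.drop 7 (List.drop 7 (List.drop 7 (List.drop 7 (List.drop 7 (sizes)))))))))))))))))))))))))))))))))))))))))))).all (covOK sizes 63700992 frac) = true := by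
  decide +kernel

theorem cov_43 : (List.take 7 (List.drop 7 (List.drop 7 (List.drop 7 (List.drop 7 (List.drop 7 (List.drop 7 (List.drop 7 (List.drop 7 (List.drop 7 (List.drop 7 (List.drop 7 (List.drop 7 (List.drop 7 (List.drop 7 (List.drop 7 (List.drop 7 (List.drop 7 (List.drop 7 (List.drop 7 (List.drop 7 (List.drop 7 (List.drop 7 (List.drop 7 (List.drop 7 (List.drop 7 (List.drop 7 (List.drop 7 (List.drop 7 (List.drop 7 (List.drop 7 (List.drop 7 (List.drop 7 (List.drop 7 (List.drop 7 (List.drop 7 (List.drop 7 (List.drop 7 (List.drop 7 (List.drop 7 (List.drop 7 (List.drop 7 (List.drop 7 (List.drop 7 (sizes))))))))))))))))))))))))))))))))))))))))))))).all (covOK sizes 63700992 frac) = true := by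
  decide +kernel

theorem cov_44 : (List.take 7 (List.drop 7 (List.drop 7 (List.drop 7 (List.drop 7 (List.drop 7 (List.drop 7 (List.drop 7 (List.drop 7 (List.drop 7 (List.drop 7 (List.drop 7 (List.drop 7 (List.drop 7 (List.drop 7 (List.drop 7 (List.drop 7 (List.drop 7 (List.drop 7 (List.drop 7 (List.drop 7 (List.drop 7 (List.drop 7 (List.drop 7 (List.drop 7 (List.drop 7 (List.drop 7 (List.drop 7 (List.drop 7 (List.drop 7 (List.drop 7 (List.drop 7 (List.drop 7 (List.drop 7 (List.drop 7 (List.drop 7 (List.drop 7 (List.drop 7 (List.drop 7 (List.drop 7 (List.drop 7 (List.drop 7 (List.drop 7 (List.drop 7 (List.drop 7 (sizes)))))))))))))))))))))))))))))))))))))))))))))).all (covOK sizes 63700992 frac) = true := by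
  decide +kernel

theorem cov_45 : (List.take 7 (List.drop 7 (List.drop 7 (List.drop 7 (List.drop 7 (List.drop 7 (List.drop 7 (List.drop 7 (List.drop 7 (List.drop 7 (List.drop 7 (List.drop 7 (List.drop 7 (List.drop 7 (List.drop 7 (List.drop 7 (List.drop 7 (List.drop 7 (List.drop 7 (List.drop 7 (List.drop 7 (List.drop 7 (List.drop 7 (List.drop 7 (List.drop 7 (List.drop 7 (List.drop 7 (List.drop 7 (List.drop 7 (List.drop 7 (List.drop 7 (List.drop 7 (List.drop 7 (List.drop 7 (List.drop 7 (List.drop 7 (List.drop 7 (List.drop 7 (List.drop 7 (List.drop 7 (List.drop 7 (List.drop 7 (List.drop 7 (List.drop 7 (List.drop 7 (List.drop 7 (sizes))))))))))))))))))))))))))))))))))))))))))))))).all (covOK sizes 63700992 frac) = true := by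
  decide +kernel

end Vale.Agent.Lib.P302.helper26.C755
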