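import Mathlib
import Vale.Agent.Lib.P302.helper26.C755.F11

/-!
# P302: the fractional solution of the 755-item instance, checked in pieces (part 12)
-/

namespace Vale.Agent.Lib.P302.helper26.C755

open Vale.Agent.Lib.P302.helper14 Vale.Agent.Lib.P302.helper8 Vale.Agent.Lib.P302.helper9

theorem cov_46 : (List.take 7 (List.drop 7 (List.drop 7 (List.drop 7 (List.drop 7 (List.drop 7 (List.drop 7 (List.drop 7 (List.drop 7 (List.drop 7 (List.drop 7 (List.drop 7 (List.drop 7 (List.drop 7 (List.drop 7 (List.drop 7 (List.drop 7 (List.drop 7 (List.drop 7 (List.drop 7 (List.drop 7 (List.drop 7 (List.drop 7 (List.drop 7 (List.drop 7 (List.drop 7 (List.drop 7 (List.drop 7 (List.drop 7 (List.drop 7 (List.drop 7 (List.drop 7 (List.drop 7 (List.drop 7 (List.drop 7 (List.drop 7 (List.drop 7 (List.drop 7 (List.drop 7 (List.drop 7 (List.drop 7 (List.drop 7 (List.drop 7 (List.drop 7 (List.drop 7 (List.drop 7 (List.drop 7 (sizes)))))))))))))))))))))))))))))))))))))))))))))))).all (covOK sizes 63700992 frac) = true :=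 by
  decide +kernel

theorem cov_47 : (List.take 7 (List.drop 7 (List.drop 7 (List.drop 7 (List.drop 7 (List.drop 7 (List.drop 7 (List.drop 7 (List.drop 7 (List.drop 7 (List.drop 7 (List.drop 7 (List.drop 7 (List.drop 7 (List.drop 7 (List.drop 7 (List.drop 7 (List.drop 7 (List.drop 7 (List.drop 7 (List.drop 7 (List.drop 7 (List.drop 7 (List.drop 7 (List.drop 7 (List.drop 7 (List.drop 7 (List.drop 7 (List.drop 7 (List.drop 7 (List.drop 7 (List.drop 7 (List.drop 7 (List.drop 7 (List.drop 7 (List.drop 7 (List.drop 7 (List.drop 7 (List.drop 7 (List.drop 7 (List.drop 7 (List.drop 7 (List.drop 7 (List.drop 7 (List.drop 7 (List.drop 7 (List.drop 7 (List.drop 7 (sizes))))))))))))))))))))))))))))))))))))))))))))))))).all (covOK sizes 63700992 frac) = true := by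
  decide +kernel

theorem cov_48 : (List.take 7 (List.drop 7 (List.drop 7 (List.drop 7 (List.drop 7 (List.drop 7 (List.drop 7 (List.drop 7 (List.drop 7 (List.drop 7 (List.drop 7 (List.drop 7 (List.drop 7 (List.drop 7 (List.drop 7 (List.drop 7 (List.drop 7 (List.drop 7 (List.drop 7 (List.drop 7 (List.drop 7 (List.drop 7 (List.drop 7 (List.drop 7 (List.drop 7 (List.drop 7 (List.drop 7 (List.drop 7 (List.drop 7 (List.drop 7 (List.drop 7 (List.drop 7 (List.drop 7 (List.drop 7 (List.drop 7 (List.drop 7 (List.drop 7 (List.drop 7 (List.drop 7 (List.drop 7 (List.drop 7 (List.drop 7 (List.drop 7 (List.drop 7 (List.drop 7 (List.drop 7 (List.drop 7 (List.drop 7 (List.drop 7 (sizes)))))))))))))))))))))))))))))))))))))))))))))))))).all (covOK sizes 63700992 frac) = true := by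
  decide +kernel

theorem cov_49 : (List.take 7 (List.drop 7 (List.drop 7 (List.drop 7 (List.drop 7 (List.drop 7 (List.drop 7 (List.drop 7 (List.drop 7 (List.drop 7 (List.drop 7 (List.drop 7 (List.drop 7 (List.drop 7 (List.drop 7 (List.drop 7 (List.drop 7 (List.drop 7 (List.drop 7 (List.drop 7 (List.drop 7 (List.drop 7 (List.drop 7 (List.drop 7 (List.drop 7 (List.drop 7 (List.drop 7 (List.drop 7 (List.drop 7 (List.drop 7 (List.drop 7 (List.drop 7 (List.drop 7 (List.drop 7 (List.drop 7 (List.drop 7 (List.drop 7 (List.drop 7 (List.drop 7 (List.drop 7 (List.drop 7 (List.drop 7 (List.drop 7 (List.drop 7 (List.drop 7 (List.drop 7 (List.drop 7 (List.drop 7 (List.drop 7 (List.drop 7 (sizes))))))))))))))))))))))))))))))))))))))))))))))))))).all (covOK sizes 63700992 frac) = true := by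
  decide +kernel

theorem cov_50 : (List.take 7 (List.drop 7 (List.drop 7 (List.drop 7 (List.drop 7 (List.drop 7 (List.drop 7 (List.drop 7 (List.drop 7 (List.drop 7 (List.drop 7 (List.drop 7 (List.drop 7 (List.drop 7 (List.drop 7 (List.drop 7 (List.drop 7 (List.drop 7 (List.drop 7 (List.drop 7 (List.drop 7 (List.drop 7 (List.drop 7 (List.drop 7 (List.drop 7 (List.drop 7 (List.drop 7 (List.drop 7 (List.drop 7 (List.drop 7 (List.drop 7 (List.drop 7 (List.drop 7 (List.drop 7 (List.drop 7 (List.drop 7 (List.drop 7 (List.drop 7 (List.drop 7 (List.drop 7 (List.drop 7 (List.drop 7 (List.drop 7 (List.drop 7 (List.drop 7 (List.drop 7 (List.drop 7 (List.drop 7 (List.drop 7 (List.drop 7 (List.drop 7 (sizes)))))))))))))))))))))))))))))))))))))))))))))))))))).all (covOK sizes 63700992 frac) = true := by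
  decide +kernel

theorem cov_51 : (List.take 7 (List.drop 7 (List.drop 7 (List.drop 7 (List.drop 7 (List.drop 7 (List.drop 7 (List.drop 7 (List.drop 7 (List.drop 7 (List.drop 7 (List.drop 7 (List.drop 7 (List.drop 7 (List.drop 7 (List.drop 7 (List.drop 7 (List.drop 7 (List.drop 7 (List.drop 7 (List.drop 7 (List.drop 7 (List.drop 7 (List.drop 7 (List.drop 7 (List.drop 7 (List.drop 7 (List.drop 7 (List.drop 7 (List.drop 7 (List.drop 7 (List.drop 7 (List.drop 7 (List.drop 7 (List.drop 7 (List.drop 7 (List.drop 7 (List.drop 7 (List.drop 7 (List.drop 7 (List.drop 7 (List.drop 7 (List.drop 7 (List.drop 7 (List.drop 7 (List.drop 7 (List.drop 7 (List.drop 7 (List.drop 7 (List.drop 7 (List.drop 7 (List.drop 7 (sizes))))))))))))))))))))))))))))))))))))))))))))))))))))).all (covOK sizes 63700992 frac) = true := by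
  decide +kernel

theorem cov_52 : (List.take 7 (List.drop 7 (List.drop 7 (List.drop 7 (List.drop 7 (List.drop 7 (List.drop 7 (List.drop 7 (List.drop 7 (List.drop 7 (List.drop 7 (List.drop 7 (List.drop 7 (List.drop 7 (List.drop 7 (List.drop 7 (List.drop 7 (List.drop 7 (List.drop 7 (List.drop 7 (List.drop 7 (List.drop 7 (List.drop 7 (List.drop 7 (List.drop 7 (List.drop 7 (List.drop 7 (List.drop 7 (List.drop 7 (List.drop 7 (List.drop 7 (List.drop 7 (List.drop 7 (List.drop 7 (List.drop 7 (List.drop 7 (List.drop 7 (List.drop 7 (List.drop 7 (List.drop 7 (List.drop 7 (List.drop 7 (List.drop 7 (List.drop 7 (List.drop 7 (List.drop 7 (List.drop 7 (List.drop 7 (List.drop 7 (List.drop 7 (List.drop 7 (List.drop 7 (List.drop 7 (sizes)))))))))))))))))))))))))))))))))))))))))))))))))))))).all (covOK sizes 63700992 frac) = true := by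
  decide +kernel

theorem cov_53 : (List.take 7 (List.drop 7 (List.drop 7 (List.drop 7 (List.drop 7 (List.drop 7 (List.drop 7 (List.drop 7 (List.drop 7 (List.drop 7 (List.drop 7 (List.drop 7 (List.drop 7 (List.drop 7 (List.drop 7 (List.drop 7 (List.drop 7 (List.drop 7 (List.drop 7 (List.drop 7 (List.drop 7 (List.drop 7 (List.drop 7 (List.drop 7 (List.drop 7 (List.drop 7 (List.drop 7 (List.drop 7 (List.drop 7 (List.drop 7 (List.drop 7 (List.drop 7 (List.drop 7 (List.drop 7 (List.drop 7 (List.drop 7 (List.drop 7 (List.drop 7 (List.drop 7 (List.drop 7 (List.drop 7 (List.drop 7 (List.drop 7 (List.drop 7 (List.drop 7 (List.drop 7 (List.drop 7 (List.drop 7 (List.drop 7 (List.drop 7 (List.drop 7 (List.drop 7 (List.drop 7 (List.drop 7 (sizes))))))))))))))))))))))))))))))))))))))))))))))))))))))).all (covOK sizes 63700992 frac) = true := by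
  decide +kernel

theorem cov_54 : (List.take 7 (List.drop 7 (List.drop 7 (List.drop 7 (List.drop 7 (List.drop 7 (List.drop 7 (List.drop 7 (List.drop 7 (List.drop 7 (List.drop 7 (List.drop 7 (List.drop 7 (List.drop 7 (List.drop 7 (List.drop 7 (List.drop 7 (List.drop 7 (List.drop 7 (List.drop 7 (List.drop 7 (List.drop 7 (List.drop 7 (List.drop 7 (List.drop 7 (List.drop 7 (List.drop 7 (List.drop 7 (List.drop 7 (List.drop 7 (List.drop 7 (List.drop 7 (List.drop 7 (List.drop 7 (List.drop 7 (List.drop 7 (List.drop 7 (List.drop 7 (List.drop 7 (List.drop 7 (List.drop 7 (List.drop 7 (List.drop 7 (List.drop 7 (List.drop 7 (List.drop 7 (List.drop 7 (List.drop 7 (List.drop 7 (List.drop 7 (List.drop 7 (List.drop 7 (List.drop 7 (List.drop 7 (List.drop 7 (sizes)))))))))))))))))))))))))))))))))))))))))))))))))))))))).all (covOK sizes 63700992 frac) = true := by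
  decide +kernel

theorem cov_55 : (List.take 7 (List.drop 7 (List.drop 7 (List.drop 7 (List.drop 7 (List.drop 7 (List.drop 7 (List.drop 7 (List.drop 7 (List.drop 7 (List.drop 7 (List.drop 7 (List.drop 7 (List.drop 7 (List.drop 7 (List.drop 7 (List.drop 7 (List.drop 7 (List.drop 7 (List.drop 7 (List.drop 7 (List.drop 7 (List.drop 7 (List.drop 7 (List.drop 7 (List.drop 7 (List.drop 7 (List.drop 7 (List.drop 7 (List.drop 7 (List.drop 7 (List.drop 7 (List.drop 7 (List.drop 7 (List.drop 7 (List.drop 7 (List.drop 7 (List.drop 7 (List.drop 7 (List.drop 7 (List.drop 7 (List.drop 7 (List.drop 7 (List.drop 7 (List.drop 7 (List.drop 7 (List.drop 7 (List.drop 7 (List.drop 7 (List.drop 7 (List.drop 7 (List.drop 7 (List.drop 7 (List.drop 7 (List.drop 7 (List.drop 7 (sizes))))))))))))))))))))))))))))))))))))))))))))))))))))))))).all (covOK sizes 63700992 frac) = true := by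
  decide +kernel

end Vale.Agent.Lib.P302.helper26.C755
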