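import Mathlib
import Vale.Agent.Lib.P302.helper26.C755.F17

/-!
# P302: the fractional solution of the 755-item instance, checked in pieces (part 18)
-/

namespace Vale.Agent.Lib.P302.helper26.C755

open Vale.Agent.Lib.P302.helper14 Vale.Agent.Lib.P302.helper8 Vale.Agent.Lib.P302.helper9

theorem cov_106 : (List.take 7 (List.drop 7 (List.drop 7 (List.drop 7 (List.drop 7 (List.drop 7 (List.drop 7 (List.drop 7 (List.drop 7 (List.drop 7 (List.drop 7 (List.drop 7 (List.drop 7 (List.drop 7 (List.drop 7 (List.drop 7 (List.drop 7 (List.drop 7 (List.drop 7 (List.drop 7 (List.drop 7 (List.drop 7 (List.drop 7 (List.drop 7 (List.drop 7 (List.drop 7 (List.drop 7 (List.drop 7 (List.drop 7 (List.drop 7 (List.drop 7 (List.drop 7 (List.drop 7 (List.drop 7 (List.drop 7 (List.drop 7 (List.drop 7 (List.drop 7 (List.drop 7 (List.drop 7 (List.drop 7 (List.drop 7 (List.drop 7 (List.drop 7 (List.drop 7 (List.drop 7 (List.drop 7 (List.drop 7 (List.drop 7 (List.drop 7 (List.drop 7 (List.drop 7 (List.drop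 7 (List.drop 7 (List.drop 7 (List.drop 7 (List.drop 7 (List.drop 7 (List.drop 7 (List.drop 7 (List.drop 7 (List.drop 7 (List.drop 7 (List.drop 7 (List.drop 7 (List.drop 7 (List.drop 7 (List.drop 7 (List.drop 7 (List.drop 7 (List.drop 7 (List.drop 7 (List.drop 7 (List.drop 7 (List.drop 7 (List.drop 7 (List.drop 7 (List.drop 7 (List.drop 7 (List.drop 7 (List.drop 7 (List.drop 7 (List.drop 7 (List.drop 7 (List.drop 7 (List.drop 7 (List.drop 7 (List.drop 7 (List.drop 7 (List.drop 7 (List.drop 7 (List.drop 7 (List.drop 7 (List.drop 7 (List.drop 7 (List.drop 7 (List.drop 7 (List.drop 7 (List.drop 7 (List.drop 7 (List.drop 7 (List.drop 7 (List.drop 7 (List.drop 7 (List.drop 7 (List.drop 7 (List.drop 7 (sizes)))))))))))))))))))))))))))))))))))))))))))))))))))))))))))))))))))))))))))))))))))))))))))))))))))))))))))).all (covOK sizes 63700992 frac) = true := by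
  decide +kernel

theorem cov_107 : (List.drop 7 (List.drop 7 (List.drop 7 (List.drop 7 (List.drop 7 (List.drop 7 (List.drop 7 (List.drop 7 (List.drop 7 (List.drop 7 (List.drop 7 (List.drop 7 (List.drop 7 (List.drop 7 (List.drop 7 (List.drop 7 (List.drop 7 (List.drop 7 (List.drop 7 (List.drop 7 (List.drop 7 (List.drop 7 (List.drop 7 (List.drop 7 (List.drop 7 (List.drop 7 (List.drop 7 (List.drop 7 (List.drop 7 (List.drop 7 (List.drop 7 (List.drop 7 (List.drop 7 (List.drop 7 (List.drop 7 (List.drop 7 (List.drop 7 (List.drop 7 (List.drop 7 (List.drop 7 (List.drop 7 (List.drop 7 (List.drop 7 (List.drop 7 (List.drop 7 (List.drop 7 (List.drop 7 (List.drop 7 (List.drop 7 (List.drop 7 (List.drop 7 (List.drop 7 (List.drop 7 (List.drop 7 (List.drop 7 (List.drop 7 (List.drop 7 (List.drop 7 (List.drop 7 (List.drop 7 (List.drop 7 (List.drop 7 (List.drop 7 (List.drop 7 (List.drop 7 (List.drop 7 (List.drop 7 (List.drop 7 (List.drop 7 (List.drop 7 (List.drop 7 (List.drop 7 (List.drop 7 (List.drop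 7 (List.drop 7 (List.drop 7 (List.drop 7 (List.drop 7 (List.drop 7 (List.drop 7 (List.drop 7 (List.drop 7 (List.drop 7 (List.drop 7 (List.drop 7 (List.drop 7 (List.drop 7 (List.drop 7 (List.drop 7 (List.drop 7 (List.drop 7 (List.drop 7 (List.drop 7 (List.drop 7 (List.drop 7 (List.drop 7 (List.drop 7 (List.drop 7 (List.drop 7 (List.drop 7 (List.drop 7 (List.drop 7 (List.drop 7 (List.drop 7 (List.drop 7 (List.drop 7 (List.drop 7 (sizes)))))))))))))))))))))))))))))))))))))))))))))))))))))))))))))))))))))))))))))))))))))))))))))))))))))))))))).all (covOK sizes 63700992 frac) = true := by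
  decide +kernel

theorem frac_cfg : frac.all (cfgOK sizes cap) = true :=
  all_split 8 cfg_0 (all_split 8 cfg_1 (all_split 8 cfg_2 (all_split 8 cfg_3 (all_split 8 cfg_4 (all_split 8 cfg_5 (all_split 8 cfg_6 (all_split 8 cfg_7 (all_split 8 cfg_8 (all_split 8 cfg_9 (all_split 8 cfg_10 (all_split 8 cfg_11 (all_split 8 cfg_12 (all_split 8 cfg_13 (all_split 8 cfg_14 (all_split 8 cfg_15 (all_split 8 cfg_16 (all_split 8 cfg_17 (all_split 8 cfg_18 (all_split 8 cfg_19 (all_split 8 cfg_20 (all_split 8 cfg_21 (all_split 8 cfg_22 (all_split 8 cfg_23 (all_split 8 cfg_24 (all_split 8 cfg_25 (all_split 8 cfg_26 (all_split 8 cfg_27 (all_split 8 cfg_28 (all_split 8 cfg_29 (all_split 8 cfg_30 (all_split 8 cfg_31 (all_split 8 cfg_32 (all_split 8 cfg_33 (all_split 8 cfg_34 (all_split 8 cfg_35 (all_split 8 cfg_36 (all_split 8 cfg_37 (all_split 8 cfg_38 (all_split 8 cfg_39 (all_split 8 cfg_40 (all_split 8 cfg_41 (all_split 8 cfg_42 (all_split 8 cfg_43 (all_split 8 cfg_44 (all_split 8 cfg_45 (all_split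 8 cfg_46 (all_split 8 cfg_47 (all_split 8 cfg_48 (all_split 8 cfg_49 (all_split 8 cfg_50 (all_split 8 cfg_51 (all_split 8 cfg_52 (all_split 8 cfg_53 (all_split 8 cfg_54 (all_split 8 cfg_55 (all_split 8 cfg_56 (all_split 8 cfg_57 (all_split 8 cfg_58 (all_split 8 cfg_59 (all_split 8 cfg_60 (all_split 8 cfg_61 (all_split 8 cfg_62 (all_split 8 cfg_63 (all_split 8 cfg_64 (all_split 8 cfg_65 (all_split 8 cfg_66 (all_split 8 cfg_67 (all_split 8 cfg_68 (all_split 8 cfg_69 (all_split 8 cfg_70 (all_split 8 cfg_71 (all_split 8 cfg_72 (cfg_73)))))))))))))))))))))))))))))))))))))))))))))))))))))))))))))))))))))))))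

theorem frac_cov : sizes.all (covOK sizes 63700992 frac) = true :=
  all_split 7 cov_0 (all_split 7 cov_1 (all_split 7 cov_2 (all_split 7 cov_3 (all_split 7 cov_4 (all_split 7 cov_5 (all_split 7 cov_6 (all_split 7 cov_7 (all_split 7 cov_8 (all_split 7 cov_9 (all_split 7 cov_10 (all_split 7 cov_11 (all_split 7 cov_12 (all_split 7 cov_13 (all_split 7 cov_14 (all_split 7 cov_15 (all_split 7 cov_16 (all_split 7 cov_17 (all_split 7 cov_18 (all_split 7 cov_19 (all_split 7 cov_20 (all_split 7 cov_21 (all_split 7 cov_22 (all_split 7 cov_23 (all_split 7 cov_24 (all_split 7 cov_25 (all_split 7 cov_26 (all_split 7 cov_27 (all_split 7 cov_28 (all_split 7 cov_29 (all_split 7 cov_30 (all_split 7 cov_31 (all_split 7 cov_32 (all_split 7 cov_33 (all_split 7 cov_34 (all_split 7 cov_35 (all_split 7 cov_36 (all_split 7 cov_37 (all_split 7 cov_38 (all_split 7 cov_39 (all_split 7 cov_40 (all_split 7 cov_41 (all_split 7 cov_42 (all_split 7 cov_43 (all_split 7 cov_44 (all_split 7 cov_45 (all_split 7 cov_46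 (all_split 7 cov_47 (all_split 7 cov_48 (all_split 7 cov_49 (all_split 7 cov_50 (all_split 7 cov_51 (all_split 7 cov_52 (all_split 7 cov_53 (all_split 7 cov_54 (all_split 7 cov_55 (all_split 7 cov_56 (all_split 7 cov_57 (all_split 7 cov_58 (all_split 7 cov_59 (all_split 7 cov_60 (all_split 7 cov_61 (all_split 7 cov_62 (all_split 7 cov_63 (all_split 7 cov_64 (all_split 7 cov_65 (all_split 7 cov_66 (all_split 7 cov_67 (all_split 7 cov_68 (all_split 7 cov_69 (all_split 7 cov_70 (all_split 7 cov_71 (all_split 7 cov_72 (all_split 7 cov_73 (all_split 7 cov_74 (all_split 7 cov_75 (all_split 7 cov_76 (all_split 7 cov_77 (all_split 7 cov_78 (all_split 7 cov_79 (all_split 7 cov_80 (all_split 7 cov_81 (all_split 7 cov_82 (all_split 7 cov_83 (all_split 7 cov_84 (all_split 7 cov_85 (all_split 7 cov_86 (all_split 7 cov_87 (all_split 7 cov_88 (all_split 7 cov_89 (all_split 7 cov_90 (all_split 7 cov_91 (all_split 7 cov_92 (all_split 7 cov_93 (all_split 7 cov_94 (all_split 7 cov_95 (all_split 7 cov_96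 (all_split 7 cov_97 (all_split 7 cov_98 (all_split 7 cov_99 (all_split 7 cov_100 (all_split 7 cov_101 (all_split 7 cov_102 (all_split 7 cov_103 (all_split 7 cov_104 (all_split 7 cov_105 (all_split 7 cov_106 (cov_107)))))))))))))))))))))))))))))))))))))))))))))))))))))))))))))))))))))))))))))))))))))))))))))))))))))))))))

theorem frac_ok : fracOK sizes cap 63700992 frac = true := fracOK_of frac_cfg frac_cov

end Vale.Agent.Lib.P302.helper26.C755
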